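/-
Shared definitions for row 215 (S0334, propeller bound).
-/
import Mathlib

set_option autoImplicit false

namespace Crest.Agent.PH

open MeasureTheory ProbabilityTheory Set
open scoped RealInnerProductSpace

/-- standard normal density -/
noncomputable def gphi (t : ℝ) : ℝ := Real.exp (-(t ^ 2) / 2) / Real.sqrt (2 * Real.pi)

/-- standard normal distribution function -/
noncomputable def gPhi (t : ℝ) : ℝ := (gaussianReal 0 1).real (Iic t)

/-- `gL q = φ(q) - q Φ(-q) = E (ξ - q)_+`. -/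
noncomputable def gL (q : ℝ) : ℝ := gphi q - q * gPhi (-q)

section
variable {E : Type*} [NormedAddCommGroup E] [InnerProductSpace ℝ E] [FiniteDimensional ℝ E]
  [MeasurableSpace E] [BorelSpace E]

/-- Gaussian smoothing `E f(x + σ G)`. -/
noncomputable def smooth (f : E → ℝ) (σ : ℝ) (x : E) : ℝ := ∫ z, f (x + σ • z) ∂(stdGaussian E)

variable {ι : Type*}

/-- expected maximum of the Gaussian vector `⟪z i, G⟫`. -/
noncomputable def hmax (z : ι → E) : ℝ := ∫ x, (⨆ i, ⟪z i, x⟫) ∂(stdGaussian E)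

/-- the cell of index `i`: where `⟪z i, x⟫` is maximal. -/
def cell (z : ι → E) (i : ι) : Set E := {x | ∀ l, ⟪z l, x⟫ ≤ ⟪z i, x⟫}

/-- expected gain of index `j` over all the others (deletion cost). -/
noncomputable def delCost (z : ι → E) (j : ι) : ℝ :=
  ∫ x, max 0 (⟪z j, x⟫ - ⨆ i : {i // i ≠ j}, ⟪z i.1, x⟫) ∂(stdGaussian E)

end

/-! ### one-dimensional facts -/

lemma gphi_pos (t : ℝ) : 0 < gphi t := by
  unfold gphi; positivity

lemma gphi_neg (t : ℝ) : gphi (-t) = gphi t := by simp [gphi]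

lemma continuous_gphi : Continuous gphi := by unfold gphi; fun_prop

lemma gphi_eq_pdf (t : ℝ) : gphi t = gaussianPDFReal 0 1 t := by
  simp [gphi, gaussianPDFReal, div_eq_mul_inv, mul_comm]

lemma hasDerivAt_gphi (t : ℝ) : HasDerivAt gphi (-t * gphi t) t := by
  have h1 : HasDerivAt (fun t : ℝ => -(t ^ 2) / 2) (-t) t := by
    have h := ((hasDerivAt_pow 2 t).neg).div_const 2
    have e : (-(((2 : ℕ) : ℝ) * t ^ (2 - 1)) / 2) = -t := by norm_num; ring
    rw [e] at h
    exact h
  have h2 := (h1.exp).div_const (Real.sqrt (2 * Real.pi))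
  have e2 : Real.exp (-(t ^ 2) / 2) * -t / Real.sqrt (2 * Real.pi) = -t * gphi t := by
    unfold gphi; ring
  rw [e2] at h2
  exact h2

lemma integrable_gphi : Integrable gphi := by
  have : gphi = gaussianPDFReal 0 1 := by ext t; exact gphi_eq_pdf t
  rw [this]; exact integrable_gaussianPDFReal 0 1

lemma integral_gphi : ∫ t, gphi t = 1 := by
  have : gphi = gaussianPDFReal 0 1 := by ext t; exact gphi_eq_pdf t
  rw [this]; exact integral_gaussianPDFReal_eq_one 0 (by simp)

lemma gPhi_eq_integral (t : ℝ) : gPhi t = ∫ s in Iic t, gphi s := by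
  unfold gPhi
  rw [measureReal_def, gaussianReal_apply_eq_integral 0 (by simp) (Iic t), ENNReal.toReal_ofReal]
  · simp_rw [gphi_eq_pdf]
  · exact integral_nonneg fun s => gaussianPDFReal_nonneg 0 1 s

lemma hasDerivAt_gPhi (t : ℝ) : HasDerivAt gPhi (gphi t) t := by
  have h0 : ∀ x, gPhi x = gPhi 0 + ∫ s in (0:ℝ)..x, gphi s := by
    intro x
    rw [gPhi_eq_integral, gPhi_eq_integral, intervalIntegral.integral_Iic_sub_Iic
      integrable_gphi.integrableOn integrable_gphi.integrableOn |>.symm]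
    ring
  have h1 : HasDerivAt (fun x => gPhi 0 + ∫ s in (0:ℝ)..x, gphi s) (gphi t) t := by
    have := (intervalIntegral.integral_hasDerivAt_right
      (continuous_gphi.intervalIntegrable 0 t)
      (continuous_gphi.stronglyMeasurableAtFilter _ _) continuous_gphi.continuousAt)
    exact this.const_add _
  exact h1.congr_of_eventuallyEq (Filter.Eventually.of_forall h0)

lemma continuous_gPhi : Continuous gPhi :=
  continuous_iff_continuousAt.2 fun t => (hasDerivAt_gPhi t).continuousAt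

lemma strictMono_gPhi : StrictMono gPhi :=
  strictMono_of_deriv_pos fun t => by rw [(hasDerivAt_gPhi t).deriv]; exact gphi_pos t

lemma gPhi_nonneg (t : ℝ) : 0 ≤ gPhi t := measureReal_nonneg

lemma gPhi_le_one (t : ℝ) : gPhi t ≤ 1 := measureReal_le_one

lemma gPhi_pos (t : ℝ) : 0 < gPhi t :=
  lt_of_le_of_lt (gPhi_nonneg (t - 1)) (strictMono_gPhi (by linarith))

lemma gPhi_lt_one (t : ℝ) : gPhi t < 1 :=
  lt_of_lt_of_le (strictMono_gPhi (by linarith : t < t + 1)) (gPhi_le_one _)

lemma gPhi_neg (t : ℝ) : gPhi (-t) = 1 - gPhi t := by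
  have h1 : gPhi t + ∫ s in Ioi t, gphi s = 1 := by
    rw [gPhi_eq_integral, ← integral_gphi]
    exact intervalIntegral.integral_Iic_add_Ioi integrable_gphi.integrableOn
      integrable_gphi.integrableOn
  have h2 : ∫ s in Ioi t, gphi s = gPhi (-t) := by
    rw [gPhi_eq_integral]
    have := integral_comp_neg_Ioi t gphi
    rw [← this]
    simp_rw [gphi_neg]
  linarith

lemma tendsto_gPhi_atBot : Filter.Tendsto gPhi Filter.atBot (nhds 0) := by
  have := tendsto_cdf_atBot (gaussianReal 0 1)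
  have h2 : gPhi = cdf (gaussianReal 0 1) := by
    ext t; rw [cdf_eq_real]; rfl
  rw [h2]; exact this

lemma tendsto_gPhi_atTop : Filter.Tendsto gPhi Filter.atTop (nhds 1) := by
  have h : gPhi = fun t => 1 - gPhi (-t) := by ext t; rw [gPhi_neg]; ring
  rw [h]
  have := (tendsto_gPhi_atBot.comp Filter.tendsto_neg_atTop_atBot)
  simpa using (tendsto_const_nhds (x := (1:ℝ))).sub this

lemma exists_gPhi_eq {p : ℝ} (h0 : 0 < p) (h1 : p < 1) : ∃ a, gPhi a = p := by
  have hlo : ∃ a, gPhi a < p := ((tendsto_gPhi_atBot.eventually (gt_mem_nhds h0))).exists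
  have hhi : ∃ b, p < gPhi b := ((tendsto_gPhi_atTop.eventually (lt_mem_nhds h1))).exists
  obtain ⟨a, ha⟩ := hlo
  obtain ⟨b, hb⟩ := hhi
  exact mem_range_of_exists_le_of_exists_ge continuous_gPhi ⟨a, ha.le⟩ ⟨b, hb.le⟩

lemma hasDerivAt_gL (q : ℝ) : HasDerivAt gL (-gPhi (-q)) q := by
  unfold gL
  have h1 := hasDerivAt_gphi q
  have h2 : HasDerivAt (fun q : ℝ => gPhi (-q)) (gphi (-q) * (-1)) q :=
    (hasDerivAt_gPhi (-q)).comp q (hasDerivAt_neg q)
  have h3 := h1.sub ((hasDerivAt_id q).mul h2)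
  have e : -q * gphi q - (1 * gPhi (-q) + id q * (gphi (-q) * -1)) = -gPhi (-q) := by
    rw [gphi_neg]; simp only [id]; ring
  rw [e] at h3
  exact h3

end Crest.Agent.PH
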