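/-
Package A1 of row 215 (S0334): Gaussian smoothing calculus.
-/
import Crest.Agent.PH.Basic

set_option autoImplicit false

namespace Crest.Agent.PH

open MeasureTheory ProbabilityTheory Set Filter
open scoped RealInnerProductSpace Topology

variable {E : Type*} [NormedAddCommGroup E] [InnerProductSpace ℝ E] [FiniteDimensional ℝ E]
  [MeasurableSpace E] [BorelSpace E]

theorem continuous_smooth (f : E → ℝ) (hf : Continuous f) (C : ℝ) (hC : ∀ x, |f x| ≤ C) :
    Continuous (fun p : ℝ × E => smooth f p.1 p.2) := by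
  unfold smooth
  refine continuous_of_dominated (bound := fun _ => C) ?_ ?_ (integrable_const C) ?_
  · intro p
    exact (hf.comp (by fun_prop)).aestronglyMeasurable
  · intro p
    exact Eventually.of_forall fun z => by simpa using hC _
  · exact Eventually.of_forall fun z => hf.comp (by fun_prop)

/-- splitting a coordinate of the standard Gaussian measure -/
theorem map_split (e : E) (he : ‖e‖ = 1) :
    ((stdGaussian E).prod (gaussianReal 0 1)).map
      (fun p : E × ℝ => p.1 - ⟪e, p.1⟫ • e + p.2 • e) = stdGaussian E := by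
  have hmeas : Measurable (fun p : E × ℝ => p.1 - ⟪e, p.1⟫ • e + p.2 • e) := by fun_prop
  have : IsProbabilityMeasure (((stdGaussian E).prod (gaussianReal 0 1)).map
      (fun p : E × ℝ => p.1 - ⟪e, p.1⟫ • e + p.2 • e)) :=
    Measure.isProbabilityMeasure_map hmeas.aemeasurable
  apply Measure.ext_of_charFun (E := E)
  ext y
  rw [charFun_apply, integral_map hmeas.aemeasurable
    (Measurable.aestronglyMeasurable (by fun_prop))]
  have h1 : ∀ p : E × ℝ, Complex.exp (⟪p.1 - ⟪e, p.1⟫ • e + p.2 • e, y⟫ * Complex.I)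
      = Complex.exp (⟪p.1, y - ⟪e, y⟫ • e⟫ * Complex.I) * Complex.exp (⟪p.2, ⟪e, y⟫⟫ * Complex.I) := by
    intro p
    rw [← Complex.exp_add]
    congr 1
    rw [← add_mul]
    congr 1
    rw [← Complex.ofReal_add]
    congr 1
    simp only [inner_add_left, inner_sub_left, inner_sub_right, real_inner_smul_left,
      real_inner_smul_right, real_inner_comm e p.1, RCLike.inner_apply, conj_trivial]
    ring
  simp_rw [h1]
  rw [integral_prod_mul (fun z : E => Complex.exp (⟪z, y - ⟪e, y⟫ • e⟫ * Complex.I))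
    (fun t : ℝ => Complex.exp (⟪t, ⟪e, y⟫⟫ * Complex.I)), ← charFun_apply, ← charFun_apply,
    charFun_stdGaussian, charFun_stdGaussian, charFun_gaussianReal, ← Complex.exp_add]
  congr 1
  have h2 : ‖y - ⟪e, y⟫ • e‖ ^ 2 = ‖y‖ ^ 2 - ⟪e, y⟫ ^ 2 := by
    rw [norm_sub_sq_real, real_inner_smul_right, norm_smul, he, real_inner_comm]
    simp only [Real.norm_eq_abs, mul_one, sq_abs]
    ring
  have h2' : ((‖y - ⟪e, y⟫ • e‖ : ℝ) : ℂ) ^ 2 = (‖y‖ : ℂ) ^ 2 - (⟪e, y⟫ : ℂ) ^ 2 := by
    exact_mod_cast h2
  rw [h2']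
  push_cast
  ring

/-- one-dimensional Stein identity -/
theorem stein_real (g g' : ℝ → ℝ) (hg : ∀ t, HasDerivAt g (g' t) t) (C C' : ℝ)
    (hC : ∀ t, |g t| ≤ C) (hC' : ∀ t, |g' t| ≤ C') (hm : Measurable g') :
    ∫ t, t * g t ∂(gaussianReal 0 1) = ∫ t, g' t ∂(gaussianReal 0 1) := by
  have hgc : Continuous g := continuous_iff_continuousAt.2 fun t => (hg t).continuousAt
  rw [integral_gaussianReal_eq_integral_smul (by simp), integral_gaussianReal_eq_integral_smul (by simp)]
  simp_rw [← gphi_eq_pdf, smul_eq_mul]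
  have hint1 : Integrable (fun t : ℝ => gphi t * g' t) := by
    refine (integrable_gphi.mul_const C').mono' ?_ ?_
    · exact (continuous_gphi.measurable.mul hm).aestronglyMeasurable
    · exact Eventually.of_forall fun t => by
        rw [Real.norm_eq_abs, abs_mul, abs_of_pos (gphi_pos t)]
        exact mul_le_mul_of_nonneg_left (hC' t) (gphi_pos t).le
  have hint0 : Integrable (fun t : ℝ => gphi t * g t) := by
    refine (integrable_gphi.mul_const C).mono' ?_ ?_
    · exact (continuous_gphi.mul hgc).aestronglyMeasurable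
    · exact Eventually.of_forall fun t => by
        rw [Real.norm_eq_abs, abs_mul, abs_of_pos (gphi_pos t)]
        exact mul_le_mul_of_nonneg_left (hC t) (gphi_pos t).le
  have hint2 : Integrable (fun t : ℝ => (-t * gphi t) * g t) := by
    have h1 : Integrable (fun t : ℝ => t) (gaussianReal 0 1) := by
      exact (memLp_id_gaussianReal (μ := 0) (v := 1) 1).integrable le_rfl
    have h2 : Integrable (fun t : ℝ => |t| * gphi t) := by
      have h3 := h1.norm
      rw [gaussianReal_of_var_ne_zero 0 (by simp : (1 : NNReal) ≠ 0)] at h3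
      rw [integrable_withDensity_iff_integrable_smul₀' (by fun_prop) (by simp [gaussianPDF])] at h3
      refine h3.congr (Eventually.of_forall fun t => ?_)
      simp only [toReal_gaussianPDF, smul_eq_mul, Real.norm_eq_abs, ← gphi_eq_pdf]
      ring
    refine (h2.mul_const C).mono' ?_ ?_
    · exact (((continuous_id.neg.mul continuous_gphi).mul hgc)).aestronglyMeasurable
    · exact Eventually.of_forall fun t => by
        rw [Real.norm_eq_abs, abs_mul, abs_mul, abs_neg, abs_of_pos (gphi_pos t)]
        exact mul_le_mul_of_nonneg_left (hC t) (mul_nonneg (abs_nonneg t) (gphi_pos t).le)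
  have h := integral_mul_deriv_eq_deriv_mul_of_integrable (u := gphi) (u' := fun t => -t * gphi t)
    (v := g) (v' := g') (fun x _ => hasDerivAt_gphi x) (fun x _ => hg x) hint1 hint2 hint0
  rw [h, ← integral_neg]
  congr 1
  ext t
  ring

/-- Stein identity in direction `e`. -/
theorem stein_dir (G : E → ℝ) (hG : ContDiff ℝ 1 G) (e : E) (he : ‖e‖ = 1) (C C' : ℝ)
    (hC : ∀ z, |G z| ≤ C) (hC' : ∀ z, |fderiv ℝ G z e| ≤ C') :
    ∫ z, ⟪e, z⟫ * G z ∂(stdGaussian E) = ∫ z, fderiv ℝ G z e ∂(stdGaussian E) := by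
  have hmeas : Measurable (fun p : E × ℝ => p.1 - ⟪e, p.1⟫ • e + p.2 • e) := by fun_prop
  have hGc : Continuous G := hG.continuous
  have hdc : Continuous (fun z => fderiv ℝ G z e) :=
    (hG.continuous_fderiv (by norm_num)).clm_apply continuous_const
  have hi : Integrable (fun z : E => ⟪e, z⟫ * G z) (stdGaussian E) := by
    have h1 : Integrable (fun z : E => ‖z‖) (stdGaussian E) :=
      (IsGaussian.integrable_id (μ := stdGaussian E)).norm
    refine (h1.mul_const C).mono' ?_ ?_
    · exact ((by fun_prop : Continuous fun z : E => ⟪e, z⟫).mul hGc).aestronglyMeasurable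
    · exact Eventually.of_forall fun z => by
        rw [Real.norm_eq_abs, abs_mul]
        refine mul_le_mul ?_ (hC z) (abs_nonneg _) (norm_nonneg _)
        calc |⟪e, z⟫| ≤ ‖e‖ * ‖z‖ := abs_real_inner_le_norm e z
          _ = ‖z‖ := by rw [he, one_mul]
  have hi' : Integrable (fun z : E => fderiv ℝ G z e) (stdGaussian E) := by
    refine (integrable_const C').mono' hdc.aestronglyMeasurable ?_
    exact Eventually.of_forall fun z => by simpa using hC' z
  have hsplit := map_split e he
  rw [← hsplit] at hi hi' ⊢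
  rw [integrable_map_measure hi.1 hmeas.aemeasurable] at hi
  rw [integrable_map_measure hi'.1 hmeas.aemeasurable] at hi'
  have hi2 : Integrable (fun p : E × ℝ => ⟪e, p.1 - ⟪e, p.1⟫ • e + p.2 • e⟫
    * G (p.1 - ⟪e, p.1⟫ • e + p.2 • e)) ((stdGaussian E).prod (gaussianReal 0 1)) := hi
  have hi3 : Integrable (fun p : E × ℝ => fderiv ℝ G (p.1 - ⟪e, p.1⟫ • e + p.2 • e) e)
    ((stdGaussian E).prod (gaussianReal 0 1)) := hi'
  rw [integral_map hmeas.aemeasurable (by
      exact ((by fun_prop : Continuous fun z : E => ⟪e, z⟫).mul hGc).aestronglyMeasurable),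
    integral_map hmeas.aemeasurable hdc.aestronglyMeasurable,
    integral_prod _ hi2, integral_prod _ hi3]
  congr 1
  ext z
  have h1 : ∀ t : ℝ, ⟪e, z - ⟪e, z⟫ • e + t • e⟫ = t := by
    intro t
    rw [inner_add_right, inner_sub_right, real_inner_smul_right, real_inner_smul_right,
      real_inner_self_eq_norm_sq, he]
    ring
  simp_rw [h1]
  refine stein_real (fun t => G (z - ⟪e, z⟫ • e + t • e))
    (fun t => fderiv ℝ G (z - ⟪e, z⟫ • e + t • e) e) ?_ C C' (fun t => hC _) (fun t => hC' _) ?_
  · intro t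
    have h2 : HasFDerivAt G (fderiv ℝ G (z - ⟪e, z⟫ • e + t • e)) (z - ⟪e, z⟫ • e + t • e) :=
      (hG.differentiable (by norm_num) _).hasFDerivAt
    have h3 : HasDerivAt (fun t : ℝ => z - ⟪e, z⟫ • e + t • e) e t := by
      have := ((hasDerivAt_id t).smul_const e).const_add (z - ⟪e, z⟫ • e)
      simpa using this
    exact h2.comp_hasDerivAt t h3
  · exact (hdc.comp (by fun_prop)).measurable

/-- bound for the first derivative -/
theorem exists_fderiv_bound (f : E → ℝ) (hf : ContDiff ℝ 1 f) (c : ℝ)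
    (hc : HasCompactSupport (fun x => f x - c)) : ∃ C, 0 ≤ C ∧ ∀ x, ‖fderiv ℝ f x‖ ≤ C := by
  have h1 : HasCompactSupport (fun x => fderiv ℝ (fun x => f x - c) x) := hc.fderiv (𝕜 := ℝ)
  have h2 : (fun x => fderiv ℝ (fun x => f x - c) x) = fun x => fderiv ℝ f x := by
    ext1 x
    exact fderiv_sub_const c
  rw [h2] at h1
  obtain ⟨C, hC⟩ := h1.exists_bound_of_continuous (hf.continuous_fderiv (by norm_num))
  exact ⟨C, (norm_nonneg _).trans (hC 0), hC⟩

theorem exists_bound (f : E → ℝ) (hf : Continuous f) (c : ℝ)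
    (hc : HasCompactSupport (fun x => f x - c)) : ∃ C, 0 ≤ C ∧ ∀ x, |f x - c| ≤ C := by
  obtain ⟨C, hC⟩ := hc.exists_bound_of_continuous (hf.sub continuous_const)
  exact ⟨C, (norm_nonneg _).trans (hC 0), fun x => by simpa using hC x⟩

theorem exists_bound' (f : E → ℝ) (hf : Continuous f) (c : ℝ)
    (hc : HasCompactSupport (fun x => f x - c)) : ∃ C, 0 ≤ C ∧ ∀ x, |f x| ≤ C := by
  obtain ⟨C, hC0, hC⟩ := exists_bound f hf c hc
  refine ⟨C + |c|, by positivity, fun x => ?_⟩
  calc |f x| = |(f x - c) + c| := by ring_nf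
    _ ≤ |f x - c| + |c| := abs_add_le _ _
    _ ≤ C + |c| := by linarith [hC x]

theorem hasDerivAt_smooth_dir (f : E → ℝ) (hf : ContDiff ℝ 1 f) (c : ℝ)
    (hc : HasCompactSupport (fun x => f x - c)) (σ : ℝ) (x v : E) (s : ℝ) :
    HasDerivAt (fun s : ℝ => smooth f σ (x + s • v))
      (smooth (fun y => fderiv ℝ f y v) σ (x + s • v)) s := by
  obtain ⟨C, hC0, hC⟩ := exists_fderiv_bound f hf c hc
  obtain ⟨B, hB0, hB⟩ := exists_bound' f hf.continuous c hc
  have hdc : Continuous (fun z => fderiv ℝ f z v) :=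
    (hf.continuous_fderiv (by norm_num)).clm_apply continuous_const
  unfold smooth
  refine (hasDerivAt_integral_of_dominated_loc_of_deriv_le (μ := stdGaussian E)
    (F := fun (s : ℝ) (z : E) => f (x + s • v + σ • z))
    (F' := fun (s : ℝ) (z : E) => fderiv ℝ f (x + s • v + σ • z) v)
    (bound := fun _ => C * ‖v‖) (s := univ) univ_mem ?_ ?_ ?_ ?_ (integrable_const _) ?_).2
  · exact Eventually.of_forall fun t => (hf.continuous.comp (by fun_prop)).aestronglyMeasurable
  · refine (integrable_const B).mono' (hf.continuous.comp (by fun_prop)).aestronglyMeasurable ?_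
    exact Eventually.of_forall fun z => by simpa using hB _
  · exact (hdc.comp (by fun_prop)).aestronglyMeasurable
  · refine Eventually.of_forall fun z t _ => ?_
    exact (ContinuousLinearMap.le_opNorm _ _).trans
      (mul_le_mul_of_nonneg_right (hC _) (norm_nonneg _))
  · refine Eventually.of_forall fun z t _ => ?_
    have h2 : HasFDerivAt f (fderiv ℝ f (x + t • v + σ • z)) (x + t • v + σ • z) :=
      (hf.differentiable (by norm_num) _).hasFDerivAt
    have h3 : HasDerivAt (fun t : ℝ => x + t • v + σ • z) v t := by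
      have := (((hasDerivAt_id t).smul_const v).const_add x).add_const (σ • z)
      simpa using this
    exact h2.comp_hasDerivAt t h3

theorem hasDerivAt_smooth_sigma {ι : Type*} [Fintype ι] (b : OrthonormalBasis ι ℝ E)
    (f : E → ℝ) (hf : ContDiff ℝ 2 f) (c : ℝ)
    (hc : HasCompactSupport (fun x => f x - c)) (σ : ℝ) (x : E) :
    HasDerivAt (fun σ : ℝ => smooth f σ x)
      (σ * ∑ i, smooth (fun y => fderiv ℝ (fun w => fderiv ℝ f w (b i)) y (b i)) σ x) σ := by
  have hf1 : ContDiff ℝ 1 f := hf.of_le (by norm_num)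
  obtain ⟨C, hC0, hC⟩ := exists_fderiv_bound f hf1 c hc
  obtain ⟨B, hB0, hB⟩ := exists_bound' f hf.continuous c hc
  have hdc : Continuous (fun z => fderiv ℝ f z) := hf1.continuous_fderiv (by norm_num)
  have hnorm : Integrable (fun z : E => ‖z‖) (stdGaussian E) :=
    (IsGaussian.integrable_id (μ := stdGaussian E)).norm
  have key : HasDerivAt (fun σ : ℝ => ∫ z, f (x + σ • z) ∂(stdGaussian E))
      (∫ z, fderiv ℝ f (x + σ • z) z ∂(stdGaussian E)) σ := by
    refine (hasDerivAt_integral_of_dominated_loc_of_deriv_le (μ := stdGaussian E)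
      (F := fun (s : ℝ) (z : E) => f (x + s • z))
      (F' := fun (s : ℝ) (z : E) => fderiv ℝ f (x + s • z) z)
      (bound := fun z => C * ‖z‖) (s := univ) univ_mem ?_ ?_ ?_ ?_ (hnorm.const_mul C) ?_).2
    · exact Eventually.of_forall fun t => (hf.continuous.comp (by fun_prop)).aestronglyMeasurable
    · refine (integrable_const B).mono' (hf.continuous.comp (by fun_prop)).aestronglyMeasurable ?_
      exact Eventually.of_forall fun z => by simpa using hB _
    · exact ((hdc.comp (by fun_prop)).clm_apply continuous_id).aestronglyMeasurable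
    · refine Eventually.of_forall fun z t _ => ?_
      exact (ContinuousLinearMap.le_opNorm _ _).trans
        (mul_le_mul_of_nonneg_right (hC _) (norm_nonneg _))
    · refine Eventually.of_forall fun z t _ => ?_
      have h2 : HasFDerivAt f (fderiv ℝ f (x + t • z)) (x + t • z) :=
        (hf1.differentiable (by norm_num) _).hasFDerivAt
      have h3 : HasDerivAt (fun t : ℝ => x + t • z) z t := by
        have := ((hasDerivAt_id t).smul_const z).const_add x
        simpa using this
      exact h2.comp_hasDerivAt t h3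
  unfold smooth
  convert key using 1
  -- expand `z` in the basis
  have hexp : ∀ z : E, fderiv ℝ f (x + σ • z) z
      = ∑ i, ⟪b i, z⟫ * fderiv ℝ f (x + σ • z) (b i) := by
    intro z
    have h0 : fderiv ℝ f (x + σ • z) z = fderiv ℝ f (x + σ • z) (∑ i, ⟪b i, z⟫ • b i) := by
      rw [b.sum_repr' z]
    rw [h0, map_sum]
    refine Finset.sum_congr rfl fun i _ => ?_
    rw [map_smul, smul_eq_mul]
  simp_rw [hexp]
  rw [integral_finsetSum, Finset.mul_sum]
  · refine Finset.sum_congr rfl fun i _ => ?_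
    set h : E → ℝ := fun w => fderiv ℝ f w (b i) with hh
    have hh1 : ContDiff ℝ 1 h := by
      have : ContDiff ℝ 1 (fderiv ℝ f) := hf.fderiv_right (by norm_num)
      exact this.clm_apply contDiff_const
    have hhc : HasCompactSupport (fun x => h x - 0) := by
      have h1 : HasCompactSupport (fun x => fderiv ℝ (fun x => f x - c) x (b i)) :=
        hc.fderiv_apply (𝕜 := ℝ) (b i)
      have h2 : (fun x => fderiv ℝ (fun x => f x - c) x (b i)) = fun x => h x - 0 := by
        ext1 x
        rw [fderiv_sub_const, sub_zero]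
      rwa [h2] at h1
    obtain ⟨C1, hC10, hC1⟩ := exists_fderiv_bound h hh1 0 hhc
    obtain ⟨B1, hB10, hB1⟩ := exists_bound' h hh1.continuous 0 hhc
    have hG : ContDiff ℝ 1 (fun z => h (x + σ • z)) := hh1.comp (by fun_prop)
    have hGd : ∀ z : E, fderiv ℝ (fun z => h (x + σ • z)) z (b i)
        = σ * fderiv ℝ h (x + σ • z) (b i) := by
      intro z
      have h2 : HasFDerivAt h (fderiv ℝ h (x + σ • z)) (x + σ • z) :=
        (hh1.differentiable (by norm_num) _).hasFDerivAt
      have h3 : HasFDerivAt (fun z : E => x + σ • z) (σ • ContinuousLinearMap.id ℝ E) z :=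
        ((hasFDerivAt_id z).const_smul σ).const_add x
      have h4 := (h2.comp z h3).fderiv
      have h5 : fderiv ℝ (fun z => h (x + σ • z)) z
          = (fderiv ℝ h (x + σ • z)).comp (σ • ContinuousLinearMap.id ℝ E) := h4
      rw [h5]
      simp
    have hst := stein_dir (fun z => h (x + σ • z)) hG (b i) (b.norm_eq_one i) B1 (|σ| * C1)
      (fun z => hB1 _) (fun z => by
        rw [hGd, abs_mul]
        refine mul_le_mul_of_nonneg_left ?_ (abs_nonneg _)
        have := (ContinuousLinearMap.le_opNorm (fderiv ℝ h (x + σ • z)) (b i))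
        rw [b.norm_eq_one i, mul_one] at this
        exact this.trans (hC1 _))
    simp_rw [hGd] at hst
    rw [integral_const_mul] at hst
    exact hst.symm
  · intro i _
    refine (hnorm.const_mul C).mono' ?_ ?_
    · exact ((by fun_prop : Continuous fun z : E => ⟪b i, z⟫).mul
        ((hdc.comp (by fun_prop)).clm_apply continuous_const)).aestronglyMeasurable
    · refine Eventually.of_forall fun z => ?_
      rw [Real.norm_eq_abs, abs_mul]
      have h1 : |⟪b i, z⟫| ≤ ‖z‖ := by
        calc |⟪b i, z⟫| ≤ ‖b i‖ * ‖z‖ := abs_real_inner_le_norm _ _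
          _ = ‖z‖ := by rw [b.norm_eq_one i, one_mul]
      have h2 : |fderiv ℝ f (x + σ • z) (b i)| ≤ C := by
        have := (ContinuousLinearMap.le_opNorm (fderiv ℝ f (x + σ • z)) (b i))
        rw [b.norm_eq_one i, mul_one] at this
        exact this.trans (hC _)
      calc |⟪b i, z⟫| * |fderiv ℝ f (x + σ • z) (b i)| ≤ ‖z‖ * C :=
            mul_le_mul h1 h2 (abs_nonneg _) (norm_nonneg _)
        _ = C * ‖z‖ := mul_comm _ _

/-- uniform decay to the constant at infinity -/
theorem smooth_tendsto_const (f : E → ℝ) (hf : Continuous f) (c : ℝ)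
    (hc : HasCompactSupport (fun x => f x - c)) (ε : ℝ) (hε : 0 < ε) :
    ∃ R : ℝ, ∀ σ ∈ Icc (0:ℝ) 1, ∀ x : E, R ≤ ‖x‖ → |smooth f σ x - c| < ε := by
  obtain ⟨C, hC0, hC⟩ := exists_bound f hf c hc
  obtain ⟨B, hB0, hB⟩ := exists_bound' f hf c hc
  obtain ⟨K, hK⟩ := hc.isCompact.isBounded.subset_closedBall (0 : E)
  have hnorm : Integrable (fun z : E => ‖z‖) (stdGaussian E) :=
    (IsGaussian.integrable_id (μ := stdGaussian E)).norm
  set A : ℝ := ∫ z : E, ‖z‖ ∂(stdGaussian E) with hA
  have hA0 : 0 ≤ A := integral_nonneg fun z => norm_nonneg z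
  obtain ⟨ρ, hρ0, hρ⟩ : ∃ ρ : ℝ, 0 < ρ ∧ C * A / ρ < ε := by
    refine ⟨C * A / ε + 1, by positivity, ?_⟩
    rw [div_lt_iff₀ (by positivity)]
    have : C * A = ε * (C * A / ε) := by field_simp
    nlinarith
  refine ⟨K + ρ, fun σ hσ x hx => ?_⟩
  have hpt : ∀ z : E, |f (x + σ • z) - c| ≤ C * ‖z‖ / ρ := by
    intro z
    by_cases hz : f (x + σ • z) - c = 0
    · rw [hz, abs_zero]; positivity
    · have h1 : x + σ • z ∈ tsupport (fun x => f x - c) := subset_tsupport _ hz
      have h2 := hK h1
      rw [mem_closedBall_zero_iff] at h2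
      have h3 : ‖x‖ ≤ ‖x + σ • z‖ + ‖σ • z‖ := by
        calc ‖x‖ = ‖(x + σ • z) - σ • z‖ := by rw [add_sub_cancel_right]
          _ ≤ _ := norm_sub_le _ _
      have h4 : ‖σ • z‖ ≤ ‖z‖ := by
        rw [norm_smul, Real.norm_eq_abs, abs_of_nonneg hσ.1]
        exact mul_le_of_le_one_left (norm_nonneg _) hσ.2
      have h5 : ρ ≤ ‖z‖ := by linarith
      calc |f (x + σ • z) - c| ≤ C := hC _
        _ = C * ρ / ρ := by field_simp
        _ ≤ C * ‖z‖ / ρ := by gcongr
  have hint : Integrable (fun z : E => f (x + σ • z)) (stdGaussian E) := by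
    refine (integrable_const B).mono' (hf.comp (by fun_prop)).aestronglyMeasurable ?_
    exact Eventually.of_forall fun z => by simpa using hB _
  have h1 : smooth f σ x - c = ∫ z, (f (x + σ • z) - c) ∂(stdGaussian E) := by
    unfold smooth
    rw [integral_sub hint (integrable_const c)]
    simp
  rw [h1]
  calc |∫ z, (f (x + σ • z) - c) ∂(stdGaussian E)|
      ≤ ∫ z, |f (x + σ • z) - c| ∂(stdGaussian E) := abs_integral_le_integral_abs
    _ ≤ ∫ z : E, C * ‖z‖ / ρ ∂(stdGaussian E) := by
        refine integral_mono (hint.sub (integrable_const c)).abs ((hnorm.const_mul C).div_const ρ) hpt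
    _ = C * A / ρ := by rw [integral_div, integral_const_mul]
    _ < ε := hρ

end Crest.Agent.PH
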