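import Crest.Agent.PH.A1
set_option autoImplicit false
namespace Crest.Agent.PH
open MeasureTheory ProbabilityTheory Set Filter
open scoped RealInnerProductSpace Topology

/-! inverse of the distribution function -/

noncomputable def gInv (p : ℝ) : ℝ := by
  classical exact if h : 0 < p ∧ p < 1 then (exists_gPhi_eq h.1 h.2).choose else 0

theorem gPhi_gInv {p : ℝ} (h0 : 0 < p) (h1 : p < 1) : gPhi (gInv p) = p := by
  unfold gInv
  rw [dif_pos ⟨h0, h1⟩]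
  exact (exists_gPhi_eq h0 h1).choose_spec

theorem gInv_gPhi (a : ℝ) : gInv (gPhi a) = a :=
  strictMono_gPhi.injective (gPhi_gInv (gPhi_pos a) (gPhi_lt_one a))

theorem lt_gInv_iff {a p : ℝ} (h0 : 0 < p) (h1 : p < 1) : a < gInv p ↔ gPhi a < p := by
  conv_rhs => rw [← gPhi_gInv h0 h1]
  exact strictMono_gPhi.lt_iff_lt.symm

theorem gInv_lt_iff {a p : ℝ} (h0 : 0 < p) (h1 : p < 1) : gInv p < a ↔ p < gPhi a := by
  conv_rhs => rw [← gPhi_gInv h0 h1]
  exact strictMono_gPhi.lt_iff_lt.symm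

theorem le_gInv_iff {a p : ℝ} (h0 : 0 < p) (h1 : p < 1) : a ≤ gInv p ↔ gPhi a ≤ p := by
  conv_rhs => rw [← gPhi_gInv h0 h1]
  exact strictMono_gPhi.le_iff_le.symm

theorem gInv_le_iff {a p : ℝ} (h0 : 0 < p) (h1 : p < 1) : gInv p ≤ a ↔ p ≤ gPhi a := by
  conv_rhs => rw [← gPhi_gInv h0 h1]
  exact strictMono_gPhi.le_iff_le.symm

theorem continuousAt_gInv {p : ℝ} (h0 : 0 < p) (h1 : p < 1) : ContinuousAt gInv p := by
  have hev : ∀ᶠ q in 𝓝 p, 0 < q ∧ q < 1 :=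
    (lt_mem_nhds h0).and (gt_mem_nhds h1)
  rw [ContinuousAt, tendsto_order]
  constructor
  · intro a ha
    rw [lt_gInv_iff h0 h1] at ha
    filter_upwards [hev, lt_mem_nhds ha] with q hq1 hq2
    rw [lt_gInv_iff hq1.1 hq1.2]; exact hq2
  · intro a ha
    rw [gt_iff_lt, gInv_lt_iff h0 h1] at ha
    filter_upwards [hev, gt_mem_nhds ha] with q hq1 hq2
    rw [gInv_lt_iff hq1.1 hq1.2]; exact hq2

theorem hasDerivAt_gInv {p : ℝ} (h0 : 0 < p) (h1 : p < 1) :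
    HasDerivAt gInv (gphi (gInv p))⁻¹ p := by
  have hev : ∀ᶠ q in 𝓝 p, gPhi (gInv q) = q := by
    filter_upwards [lt_mem_nhds h0, gt_mem_nhds h1] with q hq1 hq2
    exact gPhi_gInv hq1 hq2
  exact HasDerivAt.of_local_left_inverse (continuousAt_gInv h0 h1) (hasDerivAt_gPhi _)
    (gphi_pos _).ne' hev

/-- derivatives of `gInv ∘ U` -/
theorem hasDerivAt_comp_gInv {U : ℝ → ℝ} {U' s : ℝ} (hU : HasDerivAt U U' s)
    (h0 : 0 < U s) (h1 : U s < 1) :
    HasDerivAt (fun s => gInv (U s)) (U' / gphi (gInv (U s))) s := by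
  have := (hasDerivAt_gInv h0 h1).comp s hU
  rw [div_eq_inv_mul]
  exact this

theorem hasDerivAt_comp_gInv2 {U U1 : ℝ → ℝ} {U2 s : ℝ} (hU : HasDerivAt U (U1 s) s)
    (hU1 : HasDerivAt U1 U2 s) (h0 : 0 < U s) (h1 : U s < 1) :
    HasDerivAt (fun s => U1 s / gphi (gInv (U s)))
      (U2 / gphi (gInv (U s)) + gInv (U s) * (U1 s / gphi (gInv (U s))) ^ 2) s := by
  have hq := hasDerivAt_comp_gInv hU h0 h1
  have hφ : HasDerivAt (fun s => gphi (gInv (U s)))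
      (-(gInv (U s)) * gphi (gInv (U s)) * (U1 s / gphi (gInv (U s)))) s :=
    (hasDerivAt_gphi _).comp s hq
  have h := hU1.div hφ (gphi_pos _).ne'
  have hne := (gphi_pos (gInv (U s))).ne'
  have e : U2 / gphi (gInv (U s)) + gInv (U s) * (U1 s / gphi (gInv (U s))) ^ 2
      = (U2 * gphi (gInv (U s)) - U1 s * (-(gInv (U s)) * gphi (gInv (U s)) *
        (U1 s / gphi (gInv (U s))))) / gphi (gInv (U s)) ^ 2 := by
    generalize gphi (gInv (U s)) = P at hne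
    field_simp
    ring
  rw [e]
  exact h

/-- second derivative test -/
theorem second_deriv_nonneg {h h1 : ℝ → ℝ} {h2 : ℝ} (hh : ∀ s, HasDerivAt h (h1 s) s)
    (hh1 : HasDerivAt h1 h2 0) (hmin : IsLocalMin h 0) : 0 ≤ h2 := by
  by_contra hcon
  push Not at hcon
  have h10 : h1 0 = 0 := hmin.hasDerivAt_eq_zero (hh 0)
  have hd : deriv (fun s => - h s) = fun s => - h1 s := by
    funext s; exact (hh s).neg.deriv
  have hd2 : deriv (fun s => - h1 s) 0 = - h2 := hh1.neg.deriv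
  have h3 : IsLocalMin (fun s => - h s) 0 := by
    apply isLocalMin_of_deriv_deriv_pos
    · rw [hd, hd2]; linarith
    · rw [hd]
      show - h1 0 = 0
      rw [h10, neg_zero]
    · exact (hh 0).neg.continuousAt
  have hconst : h =ᶠ[𝓝 0] fun _ => h 0 := by
    filter_upwards [hmin, h3] with s hs1 hs2
    have hs3 : - h 0 ≤ - h s := hs2
    have hs4 : h 0 ≤ h s := hs1
    linarith
  have hconst1 : h1 =ᶠ[𝓝 0] fun _ => 0 := by
    have hcc : ∀ᶠ s in 𝓝 (0:ℝ), ∀ᶠ t in 𝓝 s, h t = h 0 := eventually_eventually_nhds.mpr hconst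
    filter_upwards [hcc] with s hs
    have hs' : (fun _ => h 0) =ᶠ[𝓝 s] h := by
      filter_upwards [hs] with t ht
      exact ht.symm
    have := (hh s).congr_of_eventuallyEq hs'
    exact this.unique (hasDerivAt_const s (h 0))
  have := hh1.congr_of_eventuallyEq hconst1.symm
  have h4 := this.unique (hasDerivAt_const (0:ℝ) (0:ℝ))
  linarith

section
variable {E : Type*} [NormedAddCommGroup E] [InnerProductSpace ℝ E] [FiniteDimensional ℝ E]
  [MeasurableSpace E] [BorelSpace E]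

theorem contDiff_gPhi : ContDiff ℝ 2 gPhi := by
  have h1 : deriv gPhi = gphi := by funext t; exact (hasDerivAt_gPhi t).deriv
  have h2 : ContDiff ℝ 1 gphi := by unfold gphi; fun_prop
  have h3 : ContDiff ℝ (1 + 1) gPhi := by
    rw [contDiff_succ_iff_deriv]
    refine ⟨fun t => (hasDerivAt_gPhi t).differentiableAt, ?_, ?_⟩
    · intro h; simp at h
    · rw [h1]; exact h2
  have : (2 : WithTop ℕ∞) = 1 + 1 := by norm_num
  rw [this]; exact h3

/-- bundle of facts on one function -/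
structure Dat (g : E → ℝ) (a N : ℝ) : Prop where
  cd : ContDiff ℝ 2 g
  cs : HasCompactSupport (fun x => g x - a)
  lo : ∀ x, a ≤ g x
  hi : ∀ x, g x ≤ N

variable {g : E → ℝ} {a N : ℝ}

/-- `u(σ,x)` -/
noncomputable def Us (g : E → ℝ) (σ : ℝ) (x : E) : ℝ := smooth (fun y => gPhi (g y)) σ x
noncomputable def Qs (g : E → ℝ) (σ : ℝ) (x : E) : ℝ := gInv (Us g σ x)

theorem Dat.cdf (h : Dat g a N) : ContDiff ℝ 2 (fun y => gPhi (g y)) := contDiff_gPhi.comp h.cd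

theorem Dat.csf (h : Dat g a N) : HasCompactSupport (fun y => gPhi (g y) - gPhi a) := by
  apply h.cs.mono
  intro x hx
  rw [Function.mem_support] at hx ⊢
  intro h0
  apply hx
  rw [sub_eq_zero.mp h0, sub_self]

theorem Dat.integrable (h : Dat g a N) (σ : ℝ) (x : E) :
    Integrable (fun z => gPhi (g (x + σ • z))) (stdGaussian E) := by
  have hc : Continuous (fun z => gPhi (g (x + σ • z))) := by
    have h1 := h.cdf.continuous
    exact h1.comp (by fun_prop)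
  apply Integrable.mono' (integrable_const (1:ℝ)) hc.aestronglyMeasurable
  filter_upwards with z
  rw [Real.norm_eq_abs, abs_of_nonneg (gPhi_nonneg _)]
  exact gPhi_le_one _

theorem Dat.Us_ge (h : Dat g a N) (σ : ℝ) (x : E) : gPhi a ≤ Us g σ x := by
  have := integral_mono (integrable_const (gPhi a)) (h.integrable σ x)
    (fun z => strictMono_gPhi.monotone (h.lo (x + σ • z)))
  simpa [Us, smooth] using this

theorem Dat.Us_le (h : Dat g a N) (σ : ℝ) (x : E) : Us g σ x ≤ gPhi N := by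
  have := integral_mono (h.integrable σ x) (integrable_const (gPhi N))
    (fun z => strictMono_gPhi.monotone (h.hi (x + σ • z)))
  simpa [Us, smooth] using this

theorem Dat.Us_pos (h : Dat g a N) (σ : ℝ) (x : E) : 0 < Us g σ x :=
  lt_of_lt_of_le (gPhi_pos a) (h.Us_ge σ x)
theorem Dat.Us_lt (h : Dat g a N) (σ : ℝ) (x : E) : Us g σ x < 1 :=
  lt_of_le_of_lt (h.Us_le σ x) (gPhi_lt_one N)

theorem Dat.Qs_ge (h : Dat g a N) (σ : ℝ) (x : E) : a ≤ Qs g σ x :=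
  (le_gInv_iff (h.Us_pos σ x) (h.Us_lt σ x)).mpr (h.Us_ge σ x)
theorem Dat.Qs_le (h : Dat g a N) (σ : ℝ) (x : E) : Qs g σ x ≤ N :=
  (gInv_le_iff (h.Us_pos σ x) (h.Us_lt σ x)).mpr (h.Us_le σ x)

theorem Dat.Qs_zero (_h : Dat g a N) (x : E) : Qs g 0 x = g x := by
  unfold Qs Us smooth
  simp only [zero_smul, add_zero, integral_const, probReal_univ, one_smul]
  exact gInv_gPhi _

theorem Dat.continuous (h : Dat g a N) : Continuous (fun p : ℝ × E => Qs g p.1 p.2) := by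
  rw [continuous_iff_continuousAt]
  intro p
  have h1 : Continuous (fun p : ℝ × E => Us g p.1 p.2) :=
    continuous_smooth _ h.cdf.continuous 1 (fun x => by
      rw [abs_of_nonneg (gPhi_nonneg _)]; exact gPhi_le_one _)
  exact ContinuousAt.comp (f := fun p : ℝ × E => Us g p.1 p.2)
    (continuousAt_gInv (h.Us_pos p.1 p.2) (h.Us_lt p.1 p.2)) h1.continuousAt

theorem Dat.far (h : Dat g a N) (η : ℝ) (hη : 0 < η) :
    ∃ R : ℝ, ∀ σ ∈ Icc (0:ℝ) 1, ∀ x : E, R ≤ ‖x‖ → Qs g σ x < a + η := by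
  obtain ⟨R, hR⟩ := smooth_tendsto_const (fun y => gPhi (g y)) h.cdf.continuous (gPhi a) h.csf
    (gPhi (a + η) - gPhi a) (sub_pos.mpr (strictMono_gPhi (by linarith)))
  refine ⟨R, fun σ hσ x hx => ?_⟩
  have h1 := hR σ hσ x hx
  unfold Qs
  rw [gInv_lt_iff (h.Us_pos σ x) (h.Us_lt σ x)]
  have h2 := (abs_lt.mp h1).2
  unfold Us
  linarith

/-- first directional derivative of `u` -/
noncomputable def U1 (g : E → ℝ) (v : E) (σ : ℝ) (x : E) : ℝ :=
  smooth (fun y => fderiv ℝ (fun y => gPhi (g y)) y v) σ x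
noncomputable def U2 (g : E → ℝ) (v : E) (σ : ℝ) (x : E) : ℝ :=
  smooth (fun y => fderiv ℝ (fun w => fderiv ℝ (fun y => gPhi (g y)) w v) y v) σ x

theorem Dat.d1 (h : Dat g a N) (v : E) (σ : ℝ) (x : E) (s : ℝ) :
    HasDerivAt (fun s : ℝ => Us g σ (x + s • v)) (U1 g v σ (x + s • v)) s :=
  hasDerivAt_smooth_dir _ (h.cdf.of_le (by norm_num)) (gPhi a) h.csf σ x v s

theorem Dat.d2 (h : Dat g a N) (v : E) (σ : ℝ) (x : E) (s : ℝ) :
    HasDerivAt (fun s : ℝ => U1 g v σ (x + s • v)) (U2 g v σ (x + s • v)) s := by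
  have hcd : ContDiff ℝ 1 (fun y => fderiv ℝ (fun y => gPhi (g y)) y v) := by
    have h1 : ContDiff ℝ 1 (fderiv ℝ (fun y => gPhi (g y))) :=
      h.cdf.fderiv_right (by norm_num)
    exact h1.clm_apply contDiff_const
  have hcs : HasCompactSupport (fun y => fderiv ℝ (fun y => gPhi (g y)) y v - 0) := by
    have h1 := h.csf.fderiv (𝕜 := ℝ)
    apply h1.mono
    intro x hx
    rw [Function.mem_support] at hx ⊢
    intro h0
    apply hx
    have h2 : fderiv ℝ (fun y => gPhi (g y) - gPhi a) x = fderiv ℝ (fun y => gPhi (g y)) x := by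
      rw [fderiv_sub_const]
    rw [h2] at h0
    rw [h0]; simp
  exact hasDerivAt_smooth_dir _ hcd 0 hcs σ x v s

theorem Dat.dσ {ι : Type*} [Fintype ι] (b : OrthonormalBasis ι ℝ E) (h : Dat g a N)
    (σ : ℝ) (x : E) :
    HasDerivAt (fun σ : ℝ => Us g σ x) (σ * ∑ i, U2 g (b i) σ x) σ :=
  hasDerivAt_smooth_sigma b _ h.cdf (gPhi a) h.csf σ x

/-- derivatives of `Q` -/
noncomputable def Q1 (g : E → ℝ) (v : E) (σ : ℝ) (x : E) : ℝ := U1 g v σ x / gphi (Qs g σ x)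
noncomputable def Q2 (g : E → ℝ) (v : E) (σ : ℝ) (x : E) : ℝ :=
  U2 g v σ x / gphi (Qs g σ x) + Qs g σ x * (Q1 g v σ x) ^ 2

theorem Dat.q1 (h : Dat g a N) (v : E) (σ : ℝ) (x : E) (s : ℝ) :
    HasDerivAt (fun s : ℝ => Qs g σ (x + s • v)) (Q1 g v σ (x + s • v)) s :=
  hasDerivAt_comp_gInv (h.d1 v σ x s) (h.Us_pos _ _) (h.Us_lt _ _)

theorem Dat.q2 (h : Dat g a N) (v : E) (σ : ℝ) (x : E) (s : ℝ) :
    HasDerivAt (fun s : ℝ => Q1 g v σ (x + s • v)) (Q2 g v σ (x + s • v)) s :=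
  hasDerivAt_comp_gInv2 (U := fun s : ℝ => Us g σ (x + s • v))
    (U1 := fun s : ℝ => U1 g v σ (x + s • v)) (h.d1 v σ x s) (h.d2 v σ x s)
    (h.Us_pos _ _) (h.Us_lt _ _)

theorem Dat.qσ {ι : Type*} [Fintype ι] (b : OrthonormalBasis ι ℝ E) (h : Dat g a N)
    (σ : ℝ) (x : E) :
    HasDerivAt (fun σ : ℝ => Qs g σ x)
      (σ * ∑ i, (Q2 g (b i) σ x - Qs g σ x * (Q1 g (b i) σ x) ^ 2)) σ := by
  have h1 := hasDerivAt_comp_gInv (h.dσ b σ x) (h.Us_pos _ _) (h.Us_lt _ _)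
  have e : σ * ∑ i, (Q2 g (b i) σ x - Qs g σ x * (Q1 g (b i) σ x) ^ 2)
      = (σ * ∑ i, U2 g (b i) σ x) / gphi (gInv (Us g σ x)) := by
    rw [mul_div_assoc, Finset.sum_div]
    congr 1
    apply Finset.sum_congr rfl
    intro i _
    unfold Q2
    rw [add_sub_cancel_right]
    rfl
  rw [e]
  exact h1

theorem Dat.q1_half (h : Dat g a N) (v : E) (σ : ℝ) (z : E) :
    Q1 g ((1/2 : ℝ) • v) σ z = 1/2 * Q1 g v σ z := by
  have h1 := h.q1 ((1/2 : ℝ) • v) σ z 0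
  have h3 := h.q1 v σ z (0 * (1/2))
  have h4 : HasDerivAt (fun s : ℝ => s * (1/2)) (1 * (1/2)) (0:ℝ) :=
    (hasDerivAt_id (0:ℝ)).mul_const (1/2)
  have h5 : HasDerivAt (fun s : ℝ => Qs g σ (z + (s * (1/2)) • v))
      (Q1 g v σ (z + ((0:ℝ) * (1/2)) • v) * (1 * (1/2))) 0 :=
    HasDerivAt.comp (h₂ := fun s : ℝ => Qs g σ (z + s • v)) (h := fun s : ℝ => s * (1/2))
      (0:ℝ) h3 h4
  have h6 : (fun s : ℝ => Qs g σ (z + (s * (1/2)) • v))
      = fun s : ℝ => Qs g σ (z + s • (1/2 : ℝ) • v) := by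
    funext s; rw [smul_smul]
  rw [h6] at h5
  have h7 := h1.unique h5
  rw [zero_mul, zero_smul, zero_smul, add_zero] at h7
  rw [h7]; ring

/-- functional Ehrhard inequality for nice data. `g i` smooth, equal to the constant `a i`
outside a compact set, all bounded above by `M`. -/
theorem ehrhard_smooth (g₀ g₁ g₂ : E → ℝ) (a₀ a₁ a₂ M : ℝ)
    (h₀ : ContDiff ℝ 2 g₀) (h₁ : ContDiff ℝ 2 g₁) (h₂ : ContDiff ℝ 2 g₂)
    (c₀ : HasCompactSupport (fun x => g₀ x - a₀)) (c₁ : HasCompactSupport (fun x => g₁ x - a₁))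
    (c₂ : HasCompactSupport (fun x => g₂ x - a₂))
    (l₀ : ∀ x, a₀ ≤ g₀ x) (l₁ : ∀ x, a₁ ≤ g₁ x) (l₂ : ∀ x, a₂ ≤ g₂ x)
    (u₁ : ∀ x, g₁ x ≤ M) (u₂ : ∀ x, g₂ x ≤ M)
    (hfar₁ : (a₁ + M) / 2 < a₀) (hfar₂ : (a₂ + M) / 2 < a₀)
    (hmid : ∀ x y, (g₁ x + g₂ y) / 2 ≤ g₀ ((1/2 : ℝ) • (x + y)))
    (α₀ α₁ α₂ : ℝ) (e₀ : gPhi α₀ = ∫ x, gPhi (g₀ x) ∂(stdGaussian E))
    (e₁ : gPhi α₁ = ∫ x, gPhi (g₁ x) ∂(stdGaussian E))
    (e₂ : gPhi α₂ = ∫ x, gPhi (g₂ x) ∂(stdGaussian E)) :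
    (α₁ + α₂) / 2 ≤ α₀ := by
  classical
  -- upper bound for g₀
  obtain ⟨N₀, hN₀⟩ : ∃ N₀, ∀ x, g₀ x ≤ N₀ := by
    obtain ⟨B, hB⟩ := c₀.exists_bound_of_continuous (by
      exact h₀.continuous.sub continuous_const)
    refine ⟨B + a₀, fun x => ?_⟩
    have := le_trans (le_abs_self _) (hB x)
    linarith
  have D0 : Dat g₀ a₀ N₀ := ⟨h₀, c₀, l₀, hN₀⟩
  have D1 : Dat g₁ a₁ M := ⟨h₁, c₁, l₁, u₁⟩
  have D2 : Dat g₂ a₂ M := ⟨h₂, c₂, l₂, u₂⟩
  -- the function C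
  obtain ⟨Cf, hCf⟩ : ∃ Cf : ℝ → E → E → ℝ, ∀ σ x y, Cf σ x y =
      Qs g₀ σ ((1/2 : ℝ) • (x + y)) - (Qs g₁ σ x + Qs g₂ σ y) / 2 := ⟨_, fun _ _ _ => rfl⟩
  have hC0 : ∀ x y, 0 ≤ Cf 0 x y := by
    intro x y
    rw [hCf, D0.Qs_zero, D1.Qs_zero, D2.Qs_zero]
    linarith [hmid x y]
  obtain ⟨R₁, hR₁⟩ := D1.far (2 * a₀ - a₁ - M) (by linarith)
  obtain ⟨R₂, hR₂⟩ := D2.far (2 * a₀ - a₂ - M) (by linarith)
  set R := max R₁ R₂ with hR
  have hfar : ∀ σ ∈ Icc (0:ℝ) 1, ∀ x y : E, (R ≤ ‖x‖ ∨ R ≤ ‖y‖) → 0 < Cf σ x y := by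
    intro σ hσ x y hxy
    have hq0 := D0.Qs_ge σ ((1/2 : ℝ) • (x + y))
    rcases hxy with hx | hy
    · have h1 := hR₁ σ hσ x ((le_max_left _ _).trans hx)
      have h2 := D2.Qs_le σ y
      rw [hCf]; linarith
    · have h1 := hR₂ σ hσ y ((le_max_right _ _).trans hy)
      have h2 := D1.Qs_le σ x
      rw [hCf]; linarith
  have hcont : Continuous (fun p : ℝ × E × E => Cf p.1 p.2.1 p.2.2) := by
    have c0 : Continuous (fun p : ℝ × E × E => Qs g₀ p.1 ((1/2 : ℝ) • (p.2.1 + p.2.2))) :=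
      D0.continuous.comp (f := fun p : ℝ × E × E => (p.1, (1/2 : ℝ) • (p.2.1 + p.2.2)))
        (by fun_prop)
    have c1 : Continuous (fun p : ℝ × E × E => Qs g₁ p.1 p.2.1) :=
      D1.continuous.comp (f := fun p : ℝ × E × E => (p.1, p.2.1)) (by fun_prop)
    have c2 : Continuous (fun p : ℝ × E × E => Qs g₂ p.1 p.2.2) :=
      D2.continuous.comp (f := fun p : ℝ × E × E => (p.1, p.2.2)) (by fun_prop)
    simp only [hCf]
    exact c0.sub ((c1.add c2).div_const 2)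
  let b := stdOrthonormalBasis ℝ E
  -- main claim
  have key : ∀ ε : ℝ, 0 < ε → ∀ σ ∈ Icc (0:ℝ) 1, ∀ x y : E, 0 ≤ Cf σ x y + ε * σ := by
    intro ε hε
    by_contra hcon
    push Not at hcon
    obtain ⟨σ', hσ', x', y', hneg⟩ := hcon
    set K : Set (ℝ × E × E) := Icc (0:ℝ) 1 ×ˢ (Metric.closedBall (0:E) R ×ˢ Metric.closedBall (0:E) R)
      with hK
    have hKc : IsCompact K :=
      isCompact_Icc.prod ((isCompact_closedBall _ _).prod (isCompact_closedBall _ _))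
    have hin : ∀ σ ∈ Icc (0:ℝ) 1, ∀ x y : E, Cf σ x y + ε * σ < 0 → ‖x‖ < R ∧ ‖y‖ < R := by
      intro σ hσ x y hlt
      have hC : Cf σ x y < 0 := by
        have : 0 ≤ ε * σ := mul_nonneg hε.le hσ.1
        linarith
      constructor
      · by_contra hx
        have := hfar σ hσ x y (Or.inl (not_lt.mp hx))
        linarith
      · by_contra hy
        have := hfar σ hσ x y (Or.inr (not_lt.mp hy))
        linarith
    have hne : K.Nonempty := by
      obtain ⟨hx, hy⟩ := hin σ' hσ' x' y' hneg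
      exact ⟨(σ', x', y'), hσ', by simpa using hx.le, by simpa using hy.le⟩
    obtain ⟨⟨σ, x, y⟩, hmem, hmin⟩ := hKc.exists_isMinOn hne
      (f := fun p : ℝ × E × E => Cf p.1 p.2.1 p.2.2 + ε * p.1)
      (hcont.add (by fun_prop)).continuousOn
    have hval : Cf σ x y + ε * σ < 0 := by
      obtain ⟨hx, hy⟩ := hin σ' hσ' x' y' hneg
      have h1 := hmin (show (σ', x', y') ∈ K from ⟨hσ', by simpa using hx.le, by simpa using hy.le⟩)
      simp only [mem_setOf_eq] at h1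
      linarith
    have hσ : σ ∈ Icc (0:ℝ) 1 := hmem.1
    obtain ⟨hxR, hyR⟩ := hin σ hσ x y hval
    have hCneg : Cf σ x y < 0 := by
      have : 0 ≤ ε * σ := mul_nonneg hε.le hσ.1
      linarith
    have hσ0 : 0 < σ := by
      rcases hσ.1.lt_or_eq with h | h
      · exact h
      · exfalso
        rw [← h] at hCneg
        linarith [hC0 x y]
    -- minimality against all points
    have hglob : ∀ σ₁ ∈ Icc (0:ℝ) 1, ∀ x₁ y₁ : E, Cf σ x y + ε * σ ≤ Cf σ₁ x₁ y₁ + ε * σ₁ := by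
      intro σ₁ hσ₁ x₁ y₁
      by_cases hlt : Cf σ₁ x₁ y₁ + ε * σ₁ < 0
      · obtain ⟨hx, hy⟩ := hin σ₁ hσ₁ x₁ y₁ hlt
        exact hmin (show (σ₁, x₁, y₁) ∈ K from ⟨hσ₁, by simpa using hx.le, by simpa using hy.le⟩)
      · linarith
    have hsp : ∀ x₁ y₁ : E, Cf σ x y ≤ Cf σ x₁ y₁ := by
      intro x₁ y₁
      have := hglob σ hσ x₁ y₁
      linarith
    set z : E := (1/2 : ℝ) • (x + y) with hz
    -- first order conditions
    have hp1 : ∀ v : E, Q1 g₀ v σ z = Q1 g₁ v σ x := by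
      intro v
      have hd : HasDerivAt (fun s : ℝ => Cf σ (x + s • v) y)
          (Q1 g₀ ((1/2 : ℝ) • v) σ z - (Q1 g₁ v σ x + 0) / 2) 0 := by
        have e0 := D0.q1 ((1/2 : ℝ) • v) σ z 0
        have e1 := D1.q1 v σ x 0
        have e2 := hasDerivAt_const (0:ℝ) (Qs g₂ σ y)
        have z1 : z + (0:ℝ) • (1/2:ℝ) • v = z := by rw [zero_smul, add_zero]
        have z2 : x + (0:ℝ) • v = x := by rw [zero_smul, add_zero]
        rw [z1] at e0
        rw [z2] at e1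
        have e3 := e0.sub ((e1.add e2).div_const 2)
        have hfun : (fun s : ℝ => Cf σ (x + s • v) y) = fun s : ℝ =>
            Qs g₀ σ (z + s • (1/2 : ℝ) • v) - (Qs g₁ σ (x + s • v) + Qs g₂ σ y) / 2 := by
          funext s
          have : (1/2 : ℝ) • (x + s • v + y) = z + s • (1/2 : ℝ) • v := by
            rw [hz]; module
          rw [hCf, this]
        rw [hfun]
        exact e3
      have hm : IsLocalMin (fun s : ℝ => Cf σ (x + s • v) y) 0 := by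
        apply Eventually.of_forall
        intro s
        simp only [zero_smul, add_zero]
        exact hsp _ _
      have h0 := hm.hasDerivAt_eq_zero hd
      rw [D0.q1_half] at h0
      linarith
    have hp2 : ∀ v : E, Q1 g₀ v σ z = Q1 g₂ v σ y := by
      intro v
      have hd : HasDerivAt (fun s : ℝ => Cf σ x (y + s • v))
          (Q1 g₀ ((1/2 : ℝ) • v) σ z - (0 + Q1 g₂ v σ y) / 2) 0 := by
        have e0 := D0.q1 ((1/2 : ℝ) • v) σ z 0
        have e1 := D2.q1 v σ y 0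
        have e2 := hasDerivAt_const (0:ℝ) (Qs g₁ σ x)
        have z1 : z + (0:ℝ) • (1/2:ℝ) • v = z := by rw [zero_smul, add_zero]
        have z2 : y + (0:ℝ) • v = y := by rw [zero_smul, add_zero]
        rw [z1] at e0
        rw [z2] at e1
        have e3 := e0.sub ((e2.add e1).div_const 2)
        have hfun : (fun s : ℝ => Cf σ x (y + s • v)) = fun s : ℝ =>
            Qs g₀ σ (z + s • (1/2 : ℝ) • v) - (Qs g₁ σ x + Qs g₂ σ (y + s • v)) / 2 := by
          funext s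
          have : (1/2 : ℝ) • (x + (y + s • v)) = z + s • (1/2 : ℝ) • v := by
            rw [hz]; module
          rw [hCf, this]
        rw [hfun]
        exact e3
      have hm : IsLocalMin (fun s : ℝ => Cf σ x (y + s • v)) 0 := by
        apply Eventually.of_forall
        intro s
        simp only [zero_smul, add_zero]
        exact hsp _ _
      have h0 := hm.hasDerivAt_eq_zero hd
      rw [D0.q1_half] at h0
      linarith
    -- second order condition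
    have hp3 : ∀ v : E, 0 ≤ Q2 g₀ v σ z - (Q2 g₁ v σ x + Q2 g₂ v σ y) / 2 := by
      intro v
      have hfun : (fun s : ℝ => Cf σ (x + s • v) (y + s • v))
          = fun s : ℝ => Qs g₀ σ (z + s • v) - (Qs g₁ σ (x + s • v) + Qs g₂ σ (y + s • v)) / 2 := by
        funext s
        have : (1/2 : ℝ) • (x + s • v + (y + s • v)) = z + s • v := by
          rw [hz]; module
        rw [hCf, this]
      have hm : IsLocalMin (fun s : ℝ => Cf σ (x + s • v) (y + s • v)) 0 := by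
        apply Eventually.of_forall
        intro s
        simp only [zero_smul, add_zero]
        exact hsp _ _
      rw [hfun] at hm
      have hd1 : ∀ s : ℝ, HasDerivAt (fun s : ℝ => Qs g₀ σ (z + s • v) -
          (Qs g₁ σ (x + s • v) + Qs g₂ σ (y + s • v)) / 2)
          (Q1 g₀ v σ (z + s • v) - (Q1 g₁ v σ (x + s • v) + Q1 g₂ v σ (y + s • v)) / 2) s :=
        fun s => (D0.q1 v σ z s).sub (((D1.q1 v σ x s).add (D2.q1 v σ y s)).div_const 2)
      have hd2 : HasDerivAt (fun s : ℝ => Q1 g₀ v σ (z + s • v) -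
          (Q1 g₁ v σ (x + s • v) + Q1 g₂ v σ (y + s • v)) / 2)
          (Q2 g₀ v σ (z + (0:ℝ) • v) - (Q2 g₁ v σ (x + (0:ℝ) • v) + Q2 g₂ v σ (y + (0:ℝ) • v)) / 2) 0 :=
        (D0.q2 v σ z 0).sub (((D1.q2 v σ x 0).add (D2.q2 v σ y 0)).div_const 2)
      have := second_deriv_nonneg hd1 hd2 hm
      simpa using this
    -- time derivative
    have hdσ : HasDerivAt (fun σ₁ : ℝ => Cf σ₁ x y + ε * σ₁)
        (σ * ∑ i, (Q2 g₀ (b i) σ z - Qs g₀ σ z * (Q1 g₀ (b i) σ z) ^ 2)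
          - (σ * ∑ i, (Q2 g₁ (b i) σ x - Qs g₁ σ x * (Q1 g₁ (b i) σ x) ^ 2)
          + σ * ∑ i, (Q2 g₂ (b i) σ y - Qs g₂ σ y * (Q1 g₂ (b i) σ y) ^ 2)) / 2 + ε * 1) σ := by
      simp only [hCf]
      exact ((D0.qσ b σ z).sub (((D1.qσ b σ x).add (D2.qσ b σ y)).div_const 2)).add
        ((hasDerivAt_id σ).const_mul ε)
    have hle : (σ * ∑ i, (Q2 g₀ (b i) σ z - Qs g₀ σ z * (Q1 g₀ (b i) σ z) ^ 2)
          - (σ * ∑ i, (Q2 g₁ (b i) σ x - Qs g₁ σ x * (Q1 g₁ (b i) σ x) ^ 2)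
          + σ * ∑ i, (Q2 g₂ (b i) σ y - Qs g₂ σ y * (Q1 g₂ (b i) σ y) ^ 2)) / 2 + ε * 1) ≤ 0 := by
      by_contra hpos
      push Not at hpos
      -- function strictly smaller slightly to the left
      have hslope := hdσ.tendsto_slope
      have h1 : ∀ᶠ s in 𝓝[≠] σ, 0 < slope (fun σ₁ : ℝ => Cf σ₁ x y + ε * σ₁) σ s :=
        hslope.eventually (lt_mem_nhds hpos)
      have h2 : ∀ᶠ s in 𝓝[<] σ, 0 < slope (fun σ₁ : ℝ => Cf σ₁ x y + ε * σ₁) σ s :=
        h1.filter_mono (nhdsWithin_mono _ (fun s hs => ne_of_lt hs))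
      have h3 : ∀ᶠ s in 𝓝[<] σ, 0 < s := by
        have : ∀ᶠ s in 𝓝 σ, 0 < s := lt_mem_nhds hσ0
        exact this.filter_mono nhdsWithin_le_nhds
      have h4 : ∀ᶠ s in 𝓝[<] σ, s < σ := self_mem_nhdsWithin
      obtain ⟨s, hs2, hs3, hs4⟩ := (h2.and (h3.and h4)).exists
      have h5 := hglob s ⟨hs3.le, hs4.le.trans hσ.2⟩ x y
      rw [slope_def_field] at hs2
      have h6 : s - σ < 0 := by linarith
      have h7 : (Cf s x y + ε * s) - (Cf σ x y + ε * σ) < 0 := by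
        by_contra hcon
        push Not at hcon
        have := div_nonpos_of_nonneg_of_nonpos hcon h6.le
        linarith
      linarith
    -- combine
    have hsum : ∀ i, (Q2 g₀ (b i) σ z - Qs g₀ σ z * (Q1 g₀ (b i) σ z) ^ 2)
        - ((Q2 g₁ (b i) σ x - Qs g₁ σ x * (Q1 g₁ (b i) σ x) ^ 2)
          + (Q2 g₂ (b i) σ y - Qs g₂ σ y * (Q1 g₂ (b i) σ y) ^ 2)) / 2 ≥ 0 := by
      intro i
      rw [← hp1 (b i), ← hp2 (b i)]
      have h1 := hp3 (b i)
      have h2 : (Q1 g₀ (b i) σ z) ^ 2 * Cf σ x y ≤ 0 :=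
        mul_nonpos_of_nonneg_of_nonpos (sq_nonneg _) hCneg.le
      have h3 : Cf σ x y = Qs g₀ σ z - (Qs g₁ σ x + Qs g₂ σ y) / 2 := hCf σ x y
      rw [h3] at h2
      nlinarith
    have htot : 0 ≤ σ * ∑ i, (Q2 g₀ (b i) σ z - Qs g₀ σ z * (Q1 g₀ (b i) σ z) ^ 2)
          - (σ * ∑ i, (Q2 g₁ (b i) σ x - Qs g₁ σ x * (Q1 g₁ (b i) σ x) ^ 2)
          + σ * ∑ i, (Q2 g₂ (b i) σ y - Qs g₂ σ y * (Q1 g₂ (b i) σ y) ^ 2)) / 2 := by
      have h1 : 0 ≤ σ * ∑ i, ((Q2 g₀ (b i) σ z - Qs g₀ σ z * (Q1 g₀ (b i) σ z) ^ 2)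
        - ((Q2 g₁ (b i) σ x - Qs g₁ σ x * (Q1 g₁ (b i) σ x) ^ 2)
          + (Q2 g₂ (b i) σ y - Qs g₂ σ y * (Q1 g₂ (b i) σ y) ^ 2)) / 2) :=
        mul_nonneg hσ0.le (Finset.sum_nonneg fun i _ => hsum i)
      rw [Finset.sum_sub_distrib, ← Finset.sum_div, Finset.sum_add_distrib] at h1
      linarith
    linarith
  -- conclusion at σ = 1, x = y = 0
  have hfin : 0 ≤ Cf 1 0 0 := by
    by_contra hcon
    push Not at hcon
    have := key (-(Cf 1 0 0) / 2) (by linarith) 1 ⟨zero_le_one, le_rfl⟩ 0 0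
    linarith
  have hq : ∀ (g : E → ℝ) (α : ℝ), gPhi α = ∫ x, gPhi (g x) ∂(stdGaussian E) → Qs g 1 0 = α := by
    intro g α hα
    unfold Qs Us smooth
    simp only [one_smul, zero_add]
    rw [← hα, gInv_gPhi]
  have : Cf 1 0 0 = α₀ - (α₁ + α₂) / 2 := by
    rw [hCf, add_zero, smul_zero, hq g₀ α₀ e₀, hq g₁ α₁ e₁, hq g₂ α₂ e₂]
  linarith

end

end Crest.Agent.PH
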