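import Crest.Agent.PH.A2
set_option autoImplicit false
namespace Crest.Agent.PH
open MeasureTheory ProbabilityTheory Set Filter
open scoped RealInnerProductSpace Topology Manifold ContDiff

variable {E : Type*} [NormedAddCommGroup E] [InnerProductSpace ℝ E] [FiniteDimensional ℝ E]
  [MeasurableSpace E] [BorelSpace E]

omit [MeasurableSpace E] [BorelSpace E] in
/-- smooth bump function between a compact set and a neighbourhood -/
theorem exists_bump (K : Set E) (hK : IsCompact K) (r₁ r₂ : ℝ) (h12 : r₁ < r₂) (hr : 0 ≤ r₁) :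
    ∃ χ : E → ℝ, ContDiff ℝ 2 χ ∧ (∀ x, 0 ≤ χ x) ∧ (∀ x, χ x ≤ 1) ∧
      (∀ x ∈ Metric.cthickening r₁ K, χ x = 1) ∧ (∀ x, x ∉ Metric.thickening r₂ K → χ x = 0) := by
  have hcl : IsClosed (Metric.cthickening r₁ K) := Metric.isClosed_cthickening
  have hcl2 : IsClosed (Metric.thickening r₂ K)ᶜ := Metric.isOpen_thickening.isClosed_compl
  have hd : Disjoint (Metric.thickening r₂ K)ᶜ (Metric.cthickening r₁ K) := by
    rw [disjoint_compl_left_iff_subset]
    exact Metric.cthickening_subset_thickening' (hr.trans_lt h12) h12 K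
  obtain ⟨f, hf1, hf2, hf3⟩ := exists_contMDiffMap_zero_one_of_isClosed (n := 2) 𝓘(ℝ, E)
    hcl2 hcl hd
  refine ⟨f, ?_, fun x => (hf3 x).1, fun x => (hf3 x).2, fun x hx => ?_, fun x hx => ?_⟩
  · exact f.contMDiff.contDiff
  · exact hf2 hx
  · exact hf1 hx

omit [MeasurableSpace E] [BorelSpace E] in
theorem scaled_bump (K : Set E) (hK : IsCompact K) (r₁ r₂ : ℝ) (h12 : r₁ < r₂) (hr : 0 ≤ r₁)
    (a c : ℝ) (hac : a ≤ c) :
    ∃ g : E → ℝ, ContDiff ℝ 2 g ∧ HasCompactSupport (fun x => g x - a) ∧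
      (∀ x, a ≤ g x) ∧ (∀ x, g x ≤ c) ∧
      (∀ x ∈ Metric.cthickening r₁ K, g x = c) ∧ (∀ x, x ∉ Metric.thickening r₂ K → g x = a) := by
  obtain ⟨χ, h1, h2, h3, h4, h5⟩ := exists_bump K hK r₁ r₂ h12 hr
  refine ⟨fun x => a + (c - a) * χ x, ?_, ?_, ?_, ?_, ?_, ?_⟩
  · exact contDiff_const.add (contDiff_const.mul h1)
  · apply HasCompactSupport.intro (K := Metric.cthickening r₂ K) hK.cthickening
    intro x hx
    have : x ∉ Metric.thickening r₂ K := fun h => hx (Metric.thickening_subset_cthickening _ _ h)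
    show a + (c - a) * χ x - a = 0
    rw [h5 x this]; ring
  · intro x
    have := mul_nonneg (sub_nonneg.mpr hac) (h2 x)
    linarith
  · intro x
    have := mul_le_mul_of_nonneg_left (h3 x) (sub_nonneg.mpr hac)
    linarith
  · intro x hx
    show a + (c - a) * χ x = c
    rw [h4 x hx]; ring
  · intro x hx
    show a + (c - a) * χ x = a
    rw [h5 x hx]; ring

/-- key inequality for compact sets -/
theorem ehrhard_compact (K₀ K₁ K₂ : Set E) (hK₀ : IsCompact K₀) (hK₁ : IsCompact K₁)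
    (hK₂ : IsCompact K₂) (h : ∀ x ∈ K₁, ∀ y ∈ K₂, (1/2 : ℝ) • (x + y) ∈ K₀) (a b c : ℝ)
    (ha : gPhi a ≤ gPhi c * (stdGaussian E).real K₁)
    (hb : gPhi b ≤ gPhi c * (stdGaussian E).real K₂) :
    gPhi ((a + b) / 2) ≤ (stdGaussian E).real K₀ := by
  set μ := stdGaussian E with hμ
  apply le_of_forall_pos_le_add
  intro η hη
  -- choose a₀
  obtain ⟨a₀, ha₀, ha₀c⟩ : ∃ a₀, gPhi a₀ < η / 2 ∧ a₀ < c := by
    have h1 := tendsto_gPhi_atBot.eventually (gt_mem_nhds (half_pos hη))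
    exact (h1.and (eventually_lt_atBot c)).exists
  -- choose δ
  obtain ⟨δ, hδ, hδm⟩ : ∃ δ > 0, μ.real (Metric.cthickening (2 * δ) K₀) < μ.real K₀ + η / 2 := by
    have h1 := tendsto_measure_cthickening_of_isCompact (μ := μ) hK₀
    have h2 : Tendsto (fun r => μ.real (Metric.cthickening r K₀)) (𝓝 0) (𝓝 (μ.real K₀)) :=
      (ENNReal.tendsto_toReal (measure_ne_top μ K₀)).comp h1
    have h3 : ∀ᶠ r in 𝓝 (0:ℝ), μ.real (Metric.cthickening r K₀) < μ.real K₀ + η / 2 :=
      h2.eventually (gt_mem_nhds (by linarith))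
    have h4 : Tendsto (fun δ : ℝ => 2 * δ) (𝓝[>] 0) (𝓝 0) := by
      have : Tendsto (fun δ : ℝ => 2 * δ) (𝓝 0) (𝓝 (2 * 0)) :=
        (continuous_const.mul continuous_id).tendsto 0
      rw [mul_zero] at this
      exact this.mono_left nhdsWithin_le_nhds
    obtain ⟨δ, h5, h6⟩ := ((h4.eventually h3).and self_mem_nhdsWithin).exists
    exact ⟨δ, h6, h5⟩
  set a₁ := 2 * a₀ - c - 1 with ha₁
  obtain ⟨g₀, p1, p2, p3, p4, p5, p6⟩ := scaled_bump K₀ hK₀ δ (2 * δ) (by linarith) hδ.le a₀ c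
    ha₀c.le
  obtain ⟨g₁, q1, q2, q3, q4, q5, q6⟩ := scaled_bump K₁ hK₁ 0 δ hδ le_rfl a₁ c (by linarith)
  obtain ⟨g₂, r1, r2, r3, r4, r5, r6⟩ := scaled_bump K₂ hK₂ 0 δ hδ le_rfl a₁ c (by linarith)
  have hmid : ∀ x y, (g₁ x + g₂ y) / 2 ≤ g₀ ((1/2 : ℝ) • (x + y)) := by
    intro x y
    by_cases hx : x ∈ Metric.thickening δ K₁
    · by_cases hy : y ∈ Metric.thickening δ K₂
      · have hm : (1/2 : ℝ) • (x + y) ∈ Metric.cthickening δ K₀ := by
          obtain ⟨x', hx', hxd⟩ := Metric.mem_thickening_iff.mp hx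
          obtain ⟨y', hy', hyd⟩ := Metric.mem_thickening_iff.mp hy
          apply Metric.thickening_subset_cthickening
          rw [Metric.mem_thickening_iff]
          refine ⟨(1/2 : ℝ) • (x' + y'), h x' hx' y' hy', ?_⟩
          rw [dist_eq_norm] at hxd hyd ⊢
          have e : (1/2 : ℝ) • (x + y) - (1/2 : ℝ) • (x' + y')
              = (1/2 : ℝ) • ((x - x') + (y - y')) := by module
          rw [e, norm_smul]
          have h1 := norm_add_le (x - x') (y - y')
          have h2 : ‖(1/2 : ℝ)‖ = 1/2 := by norm_num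
          rw [h2]
          linarith
        rw [p5 _ hm]
        linarith [q4 x, r4 y]
      · rw [r6 y hy]
        linarith [q4 x, p3 ((1/2 : ℝ) • (x + y))]
    · rw [q6 x hx]
      linarith [r4 y, p3 ((1/2 : ℝ) • (x + y))]
  -- existence of α's
  have hint : ∀ (g : E → ℝ), Continuous g → Integrable (fun x => gPhi (g x)) μ := by
    intro g hg
    apply Integrable.mono' (integrable_const (1:ℝ))
      (continuous_gPhi.comp hg).aestronglyMeasurable
    filter_upwards with z
    show ‖gPhi (g z)‖ ≤ 1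
    rw [Real.norm_eq_abs, abs_of_nonneg (gPhi_nonneg _)]
    exact gPhi_le_one _
  have hα : ∀ (g : E → ℝ) (l : ℝ), Continuous g → (∀ x, l ≤ g x) → (∀ x, g x ≤ c) →
      ∃ α, gPhi α = ∫ x, gPhi (g x) ∂μ := by
    intro g l hg hl hc
    apply exists_gPhi_eq
    · have := integral_mono (μ := μ) (integrable_const (gPhi l)) (hint g hg)
        (fun z => strictMono_gPhi.monotone (hl z))
      simp only [integral_const, probReal_univ, one_smul] at this
      exact lt_of_lt_of_le (gPhi_pos l) this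
    · have := integral_mono (μ := μ) (hint g hg) (integrable_const (gPhi c))
        (fun z => strictMono_gPhi.monotone (hc z))
      simp only [integral_const, probReal_univ, one_smul] at this
      exact lt_of_le_of_lt this (gPhi_lt_one c)
  obtain ⟨α₀, e₀⟩ := hα g₀ a₀ p1.continuous p3 p4
  obtain ⟨α₁, e₁⟩ := hα g₁ a₁ q1.continuous q3 q4
  obtain ⟨α₂, e₂⟩ := hα g₂ a₁ r1.continuous r3 r4
  have hE := ehrhard_smooth g₀ g₁ g₂ a₀ a₁ a₁ c p1 q1 r1 p2 q2 r2 p3 q3 r3 q4 r4
    (by linarith) (by linarith) hmid α₀ α₁ α₂ e₀ e₁ e₂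
  -- lower bounds
  have hlow : ∀ (g : E → ℝ) (K : Set E), IsCompact K → Continuous g → (∀ x ∈ K, g x = c) →
      gPhi c * μ.real K ≤ ∫ x, gPhi (g x) ∂μ := by
    intro g K hK hg hgK
    have hm : MeasurableSet K := hK.measurableSet
    have h1 : ∫ x in K, gPhi (g x) ∂μ ≤ ∫ x, gPhi (g x) ∂μ :=
      setIntegral_le_integral (hint g hg) (Eventually.of_forall fun x => gPhi_nonneg _)
    have h2 : ∫ x in K, gPhi (g x) ∂μ = ∫ x in K, gPhi c ∂μ :=
      setIntegral_congr_fun hm (fun x hx => by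
        show gPhi (g x) = gPhi c
        rw [hgK x hx])
    rw [h2, setIntegral_const, smul_eq_mul] at h1
    linarith
  have hsub : ∀ K : Set E, K ⊆ Metric.cthickening 0 K := fun K =>
    Metric.self_subset_cthickening K
  have l1 : a ≤ α₁ := by
    rw [← strictMono_gPhi.le_iff_le, e₁]
    exact ha.trans (hlow g₁ K₁ hK₁ q1.continuous fun x hx => q5 x (hsub K₁ hx))
  have l2 : b ≤ α₂ := by
    rw [← strictMono_gPhi.le_iff_le, e₂]
    exact hb.trans (hlow g₂ K₂ hK₂ r1.continuous fun x hx => r5 x (hsub K₂ hx))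
  -- upper bound
  have hup : gPhi α₀ ≤ μ.real (Metric.cthickening (2 * δ) K₀) + gPhi a₀ := by
    rw [e₀]
    have hm : MeasurableSet (Metric.cthickening (2 * δ) K₀) :=
      Metric.isClosed_cthickening.measurableSet
    have h1 : ∀ x, gPhi (g₀ x) ≤ (Metric.cthickening (2 * δ) K₀).indicator (fun _ => (1:ℝ)) x
        + gPhi a₀ := by
      intro x
      by_cases hx : x ∈ Metric.cthickening (2 * δ) K₀
      · rw [indicator_of_mem hx]
        linarith [gPhi_le_one (g₀ x), gPhi_nonneg a₀]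
      · rw [indicator_of_notMem hx]
        have : x ∉ Metric.thickening (2 * δ) K₀ := fun h =>
          hx (Metric.thickening_subset_cthickening _ _ h)
        rw [p6 x this]; linarith
    have h2 : Integrable (fun x => (Metric.cthickening (2 * δ) K₀).indicator (fun _ => (1:ℝ)) x) μ :=
      (integrable_const (1:ℝ)).indicator hm
    have h3 := integral_mono (hint g₀ p1.continuous) (h2.add (integrable_const (gPhi a₀))) h1
    simp only [Pi.add_apply] at h3
    rw [integral_add h2 (integrable_const _), integral_indicator hm, setIntegral_const] at h3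
    simpa using h3
  have hfin : gPhi ((a + b) / 2) ≤ gPhi α₀ := strictMono_gPhi.monotone (by linarith)
  linarith

theorem tendsto_truncate (K : Set E) (cK : IsClosed K) :
    Tendsto (fun n : ℕ => gPhi n * (stdGaussian E).real (K ∩ Metric.closedBall 0 n)) atTop
      (𝓝 ((stdGaussian E).real K)) := by
  set μ := stdGaussian E with hμ
  have h1 : Tendsto (fun n : ℕ => μ (K ∩ Metric.closedBall 0 n)) atTop (𝓝 (μ K)) := by
    have hU : ⋃ n : ℕ, K ∩ Metric.closedBall (0:E) n = K := by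
      rw [← inter_iUnion, Metric.iUnion_closedBall_nat, inter_univ]
    have := tendsto_measure_iUnion_atTop (μ := μ)
      (s := fun n : ℕ => K ∩ Metric.closedBall (0:E) n) (fun m n hmn =>
        inter_subset_inter_right _ (Metric.closedBall_subset_closedBall (by exact_mod_cast hmn)))
    rw [hU] at this
    exact this
  have h2 : Tendsto (fun n : ℕ => μ.real (K ∩ Metric.closedBall 0 n)) atTop (𝓝 (μ.real K)) :=
    (ENNReal.tendsto_toReal (measure_ne_top μ K)).comp h1
  have h3 : Tendsto (fun n : ℕ => gPhi (n:ℝ)) atTop (𝓝 1) :=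
    tendsto_gPhi_atTop.comp tendsto_natCast_atTop_atTop
  simpa using h3.mul h2

theorem ehrhard_midpoint (K₀ K₁ K₂ : Set E) (hK₀ : Convex ℝ K₀) (hK₁ : Convex ℝ K₁)
    (hK₂ : Convex ℝ K₂) (cK₀ : IsClosed K₀) (cK₁ : IsClosed K₁) (cK₂ : IsClosed K₂)
    (h : ∀ x ∈ K₁, ∀ y ∈ K₂, (1/2 : ℝ) • (x + y) ∈ K₀) (a b : ℝ)
    (ha : gPhi a ≤ (stdGaussian E).real K₁) (hb : gPhi b ≤ (stdGaussian E).real K₂) :
    gPhi ((a + b) / 2) ≤ (stdGaussian E).real K₀ := by
  set μ := stdGaussian E with hμ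
  -- for a' < a, b' < b
  have key : ∀ ε : ℝ, 0 < ε → gPhi ((a - ε + (b - ε)) / 2) ≤ μ.real K₀ := by
    intro ε hε
    have h1 : gPhi (a - ε) < μ.real K₁ := lt_of_lt_of_le (strictMono_gPhi (by linarith)) ha
    have h2 : gPhi (b - ε) < μ.real K₂ := lt_of_lt_of_le (strictMono_gPhi (by linarith)) hb
    obtain ⟨n, hn1, hn2⟩ := (((tendsto_truncate K₁ cK₁).eventually (lt_mem_nhds h1)).and
      ((tendsto_truncate K₂ cK₂).eventually (lt_mem_nhds h2))).exists
    have c1 : IsCompact (K₁ ∩ Metric.closedBall (0:E) n) := (isCompact_closedBall _ _).inter_left cK₁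
    have c2 : IsCompact (K₂ ∩ Metric.closedBall (0:E) n) := (isCompact_closedBall _ _).inter_left cK₂
    set K₀' : Set E := (fun p : E × E => (1/2 : ℝ) • (p.1 + p.2)) ''
      ((K₁ ∩ Metric.closedBall (0:E) n) ×ˢ (K₂ ∩ Metric.closedBall (0:E) n)) with hK₀'
    have c0 : IsCompact K₀' := (c1.prod c2).image (by fun_prop)
    have hsub : K₀' ⊆ K₀ := by
      rintro _ ⟨⟨x, y⟩, ⟨hx, hy⟩, rfl⟩
      exact h x hx.1 y hy.1
    have := ehrhard_compact K₀' _ _ c0 c1 c2 (fun x hx y hy => ⟨(x, y), ⟨hx, hy⟩, rfl⟩)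
      (a - ε) (b - ε) n hn1.le hn2.le
    exact this.trans (measureReal_mono hsub)
  have hcont : Tendsto (fun ε : ℝ => gPhi ((a - ε + (b - ε)) / 2)) (𝓝[>] 0)
      (𝓝 (gPhi ((a - 0 + (b - 0)) / 2))) := by
    have : Continuous (fun ε : ℝ => gPhi ((a - ε + (b - ε)) / 2)) :=
      continuous_gPhi.comp (by fun_prop)
    exact (this.tendsto 0).mono_left nhdsWithin_le_nhds
  rw [sub_zero, sub_zero] at hcont
  exact le_of_tendsto hcont (by
    filter_upwards [self_mem_nhdsWithin] with ε hε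
    exact key ε hε)

end Crest.Agent.PH
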