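/-
Package C1 of row 215 (S0334, propeller bound): basics of `hmax`.
-/
import Crest.Agent.PH.Basic

set_option autoImplicit false

namespace Crest.Agent.PH

open MeasureTheory ProbabilityTheory Set
open scoped RealInnerProductSpace

variable {E : Type*} [NormedAddCommGroup E] [InnerProductSpace ℝ E] [FiniteDimensional ℝ E]
  [MeasurableSpace E] [BorelSpace E]

lemma bddAbove_range_fin {ι : Type*} [Finite ι] (f : ι → ℝ) : BddAbove (Set.range f) :=
  (Set.finite_range f).bddAbove

lemma le_sup_inner {ι : Type*} [Finite ι] (z : ι → E) (x : E) (i : ι) :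
    ⟪z i, x⟫ ≤ ⨆ i, ⟪z i, x⟫ := le_ciSup (bddAbove_range_fin fun i => ⟪z i, x⟫) i

lemma continuous_sup_inner {ι : Type*} [Fintype ι] (z : ι → E) :
    Continuous (fun x : E => ⨆ i, ⟪z i, x⟫) := by
  cases isEmpty_or_nonempty ι
  · simp only [Real.iSup_of_isEmpty]; exact continuous_const
  · have : (fun x : E => ⨆ i, ⟪z i, x⟫)
        = fun x => Finset.univ.sup' Finset.univ_nonempty (fun i => ⟪z i, x⟫) := by
      ext x; rw [Finset.sup'_univ_eq_ciSup]
    rw [this]
    exact Continuous.finset_sup'_apply _ fun i _ => by fun_prop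

lemma abs_ciSup_le_sum {ι : Type*} [Fintype ι] (a : ι → ℝ) : |⨆ i, a i| ≤ ∑ i, |a i| := by
  cases isEmpty_or_nonempty ι
  · simp
  · obtain ⟨i, hi⟩ := exists_eq_ciSup_of_finite (f := a)
    rw [← hi]
    exact Finset.single_le_sum (f := fun i => |a i|) (fun j _ => abs_nonneg _) (Finset.mem_univ i)

lemma abs_ciSup_sub_le_sum {ι : Type*} [Fintype ι] (a b : ι → ℝ) :
    |(⨆ i, a i) - ⨆ i, b i| ≤ ∑ i, |a i - b i| := by
  cases isEmpty_or_nonempty ι
  · simp
  · have key : ∀ a b : ι → ℝ, (⨆ i, a i) - ⨆ i, b i ≤ ∑ i, |a i - b i| := by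
      intro a b
      obtain ⟨i, hi⟩ := exists_eq_ciSup_of_finite (f := a)
      have h1 : b i ≤ ⨆ i, b i := le_ciSup (bddAbove_range_fin b) i
      have h2 : |a i - b i| ≤ ∑ i, |a i - b i| :=
        Finset.single_le_sum (f := fun i => |a i - b i|) (fun j _ => abs_nonneg _)
          (Finset.mem_univ i)
      have h3 := le_abs_self (a i - b i)
      rw [← hi]; linarith
    rw [abs_le]
    have h1 := key a b
    have h2 := key b a
    have h3 : ∑ i, |b i - a i| = ∑ i, |a i - b i| := by
      refine Finset.sum_congr rfl fun i _ => abs_sub_comm _ _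
    constructor <;> linarith

lemma integrable_norm_std : Integrable (fun x : E => ‖x‖) (stdGaussian E) :=
  (IsGaussian.integrable_id (μ := stdGaussian E)).norm

lemma integrable_id_std : Integrable (fun x : E => x) (stdGaussian E) :=
  IsGaussian.integrable_id (μ := stdGaussian E)

lemma integrable_inner_std (v : E) : Integrable (fun x : E => ⟪v, x⟫) (stdGaussian E) :=
  integrable_id_std.const_inner v

lemma integral_inner_std (v : E) : ∫ x : E, ⟪v, x⟫ ∂(stdGaussian E) = 0 := by
  rw [integral_inner integrable_id_std]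
  simp

lemma integrable_sup_inner {ι : Type*} [Fintype ι] (z : ι → E) :
    Integrable (fun x : E => ⨆ i, ⟪z i, x⟫) (stdGaussian E) := by
  refine (integrable_norm_std.const_mul (∑ i, ‖z i‖)).mono'
    (continuous_sup_inner z).aestronglyMeasurable (Filter.Eventually.of_forall fun x => ?_)
  rw [Real.norm_eq_abs]
  refine (abs_ciSup_le_sum _).trans ?_
  rw [Finset.sum_mul]
  exact Finset.sum_le_sum fun i _ => abs_real_inner_le_norm _ _

theorem continuous_hmax {ι : Type*} [Fintype ι] [Nonempty ι] :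
    Continuous (fun z : ι → E => hmax z) := by
  have hL : ∀ z z' : ι → E, |hmax z - hmax z'| ≤
      (∑ i, ‖z i - z' i‖) * ∫ x : E, ‖x‖ ∂(stdGaussian E) := by
    intro z z'
    unfold hmax
    rw [← integral_sub (integrable_sup_inner z) (integrable_sup_inner z'),
      ← integral_const_mul]
    refine abs_integral_le_integral_abs.trans ?_
    refine integral_mono (((integrable_sup_inner z).sub (integrable_sup_inner z')).abs)
      (integrable_norm_std.const_mul _) fun x => ?_
    refine (abs_ciSup_sub_le_sum _ _).trans ?_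
    rw [Finset.sum_mul]
    refine Finset.sum_le_sum fun i _ => ?_
    rw [← inner_sub_left]
    exact abs_real_inner_le_norm _ _
  rw [continuous_iff_continuousAt]
  intro z
  rw [ContinuousAt, tendsto_iff_dist_tendsto_zero]
  have h0 : Filter.Tendsto (fun z' : ι → E => (∑ i, ‖z' i - z i‖) * ∫ x : E, ‖x‖ ∂(stdGaussian E))
      (nhds z) (nhds 0) := by
    have hc : Continuous (fun z' : ι → E => (∑ i, ‖z' i - z i‖) * ∫ x : E, ‖x‖ ∂(stdGaussian E)) := by
      fun_prop
    have := hc.tendsto z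
    simpa using this
  refine squeeze_zero (fun _ => dist_nonneg) (fun z' => ?_) h0
  rw [Real.dist_eq]
  exact hL z' z

theorem hmax_smul {ι : Type*} [Fintype ι] [Nonempty ι] (z : ι → E) (t : ℝ) (ht : 0 ≤ t) :
    hmax (fun i => t • z i) = t * hmax z := by
  unfold hmax
  rw [← integral_const_mul]
  congr 1
  ext x
  rw [Real.mul_iSup_of_nonneg ht]
  simp_rw [real_inner_smul_left]

theorem hmax_sub_const {ι : Type*} [Fintype ι] [Nonempty ι] (z : ι → E) (v : E) :
    hmax (fun i => z i - v) = hmax z := by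
  unfold hmax
  have h : ∀ x : E, (⨆ i, ⟪z i - v, x⟫) = (⨆ i, ⟪z i, x⟫) - ⟪v, x⟫ := by
    intro x
    simp_rw [inner_sub_left]
    apply le_antisymm
    · refine ciSup_le fun i => ?_
      linarith [le_sup_inner z x i]
    · obtain ⟨i, hi⟩ := exists_eq_ciSup_of_finite (f := fun i => ⟪z i, x⟫)
      rw [← hi]
      exact le_ciSup (bddAbove_range_fin fun i => ⟪z i, x⟫ - ⟪v, x⟫) i
  simp_rw [h]
  rw [integral_sub (integrable_sup_inner z) (integrable_inner_std v), integral_inner_std, sub_zero]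

theorem delCost_eq {ι : Type*} [Fintype ι] [DecidableEq ι] (z : ι → E) (j : ι)
    (hex : ∃ i, i ≠ j) :
    delCost z j = hmax z - hmax (fun i : {i // i ≠ j} => z i.1) := by
  unfold delCost hmax
  haveI : Nonempty {i // i ≠ j} := ⟨⟨hex.choose, hex.choose_spec⟩⟩
  haveI : Nonempty ι := ⟨j⟩
  rw [← integral_sub (integrable_sup_inner z)
    (integrable_sup_inner fun i : {i // i ≠ j} => z i.1)]
  congr 1
  ext x
  have h1 : (⨆ i, ⟪z i, x⟫) = max ⟪z j, x⟫ (⨆ i : {i // i ≠ j}, ⟪z i.1, x⟫) := by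
    apply le_antisymm
    · refine ciSup_le fun i => ?_
      by_cases hi : i = j
      · subst hi; exact le_max_left _ _
      · exact (le_sup_inner (fun i : {i // i ≠ j} => z i.1) x ⟨i, hi⟩).trans (le_max_right _ _)
    · refine max_le (le_sup_inner z x j) (ciSup_le fun i => le_sup_inner z x i.1)
  rw [h1]
  rcases le_total ⟪z j, x⟫ (⨆ i : {i // i ≠ j}, ⟪z i.1, x⟫) with h | h
  · rw [max_eq_right h, max_eq_left (by linarith)]; ring
  · rw [max_eq_left h, max_eq_right (by linarith)]

/-- the reduction of the frozen statement to `hmax`. -/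
theorem partition_le_of_hmax {ι : Type*} [Fintype ι] (A : ι → Set E)
    (hA : ∀ i, MeasurableSet (A i)) (hdisj : Pairwise fun i j => Disjoint (A i) (A j))
    (hcov : ⋃ i, A i = Set.univ) (m : ℝ) (hm : 0 ≤ m)
    (H : ∀ z : ι → E, hmax z ≤ m * Real.sqrt (∑ i, ‖z i‖ ^ 2)) :
    ∑ i, ‖∫ x in A i, x ∂(stdGaussian E)‖ ^ 2 ≤ m ^ 2 := by
  set w : ι → E := fun i => ∫ x in A i, x ∂(stdGaussian E) with hw
  set S := ∑ i, ‖w i‖ ^ 2 with hS
  have hS0 : 0 ≤ S := Finset.sum_nonneg fun i _ => by positivity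
  have h1 : S ≤ hmax w := by
    have e1 : S = ∑ i, ∫ x in A i, ⟪w i, x⟫ ∂(stdGaussian E) := by
      rw [hS]
      refine Finset.sum_congr rfl fun i _ => ?_
      rw [integral_inner integrable_id_std.integrableOn, ← real_inner_self_eq_norm_sq]
    have e2 : hmax w = ∑ i, ∫ x in A i, (⨆ l, ⟪w l, x⟫) ∂(stdGaussian E) := by
      unfold hmax
      rw [← integral_iUnion_fintype hA (fun i j h => hdisj h)
        (fun i => (integrable_sup_inner w).integrableOn), hcov, setIntegral_univ]
    rw [e1, e2]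
    refine Finset.sum_le_sum fun i _ => ?_
    exact setIntegral_mono (integrable_inner_std _).integrableOn
      (integrable_sup_inner w).integrableOn fun x => le_sup_inner w x i
  have h2 := H w
  have h3 : S ≤ m * Real.sqrt S := h1.trans h2
  have h4 : Real.sqrt S ^ 2 = S := Real.sq_sqrt hS0
  rcases eq_or_lt_of_le (Real.sqrt_nonneg S) with h5 | h5
  · have : S = 0 := by rw [← h4, ← h5]; norm_num
    change S ≤ m ^ 2
    rw [this]; positivity
  · have h6 : Real.sqrt S ≤ m := by
      have : Real.sqrt S * Real.sqrt S ≤ m * Real.sqrt S := by nlinarith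
      exact le_of_mul_le_mul_right this h5
    change S ≤ m ^ 2
    rw [← h4]
    exact pow_le_pow_left₀ (Real.sqrt_nonneg S) h6 2

lemma tendsto_gphi_atTop : Filter.Tendsto gphi Filter.atTop (nhds 0) := by
  have h1 : Filter.Tendsto (fun t : ℝ => -(t ^ 2) / 2) Filter.atTop Filter.atBot := by
    have h2 : Filter.Tendsto (fun t : ℝ => t ^ 2) Filter.atTop Filter.atTop :=
      Filter.tendsto_pow_atTop (by norm_num)
    have h3 : Filter.Tendsto (fun t : ℝ => -(t ^ 2)) Filter.atTop Filter.atBot :=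
      Filter.tendsto_neg_atTop_atBot.comp h2
    exact h3.atBot_div_const (by norm_num)
  have h4 := (Real.tendsto_exp_atBot.comp h1).div_const (Real.sqrt (2 * Real.pi))
  rw [zero_div] at h4
  exact h4

lemma integral_abs_gaussianReal_std : ∫ t, |t| ∂(gaussianReal 0 1) = 2 / Real.sqrt (2 * Real.pi) := by
  rw [integral_gaussianReal_eq_integral_smul (by simp)]
  simp_rw [← gphi_eq_pdf, smul_eq_mul]
  have h1 : ∀ t : ℝ, gphi t * |t| = (fun s => gphi s * s) |t| := by
    intro t
    have : gphi |t| = gphi t := by simp [gphi]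
    simp only [this]
  simp_rw [h1]
  rw [integral_comp_abs (f := fun s => gphi s * s)]
  have h2 : ∫ t in Ioi (0:ℝ), gphi t * t = 0 - (-gphi 0) := by
    refine integral_Ioi_of_hasDerivAt_of_nonneg' (g := fun t => -gphi t) (l := 0) ?_ ?_ ?_
    · intro t _
      have := (hasDerivAt_gphi t).neg
      have e : -(-t * gphi t) = gphi t * t := by ring
      rw [e] at this
      exact this
    · intro t ht
      exact mul_nonneg (gphi_pos t).le (le_of_lt ht)
    · simpa using tendsto_gphi_atTop.neg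
  rw [h2]
  simp only [gphi]
  norm_num
  ring

lemma map_inner_gen (v : E) :
    (stdGaussian E).map (fun x : E => ⟪v, x⟫) = (gaussianReal 0 1).map (fun t => ‖v‖ * t) := by
  have h1 := IsGaussian.map_eq_gaussianReal (μ := stdGaussian E) (innerSL ℝ v)
  rw [integral_strongDual_stdGaussian, variance_dual_stdGaussian] at h1
  have h2 : (fun x : E => ⟪v, x⟫) = ⇑(innerSL ℝ v) := by ext x; simp
  rw [h2, h1, gaussianReal_map_const_mul]
  congr 1
  · simp
  · simp only [mul_one, innerSL_apply_norm]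
    ext
    simp

lemma integral_abs_inner_std (v : E) :
    ∫ x : E, |⟪v, x⟫| ∂(stdGaussian E) = ‖v‖ * (2 / Real.sqrt (2 * Real.pi)) := by
  have h1 : ∫ x : E, |⟪v, x⟫| ∂(stdGaussian E)
      = ∫ t, |t| ∂((stdGaussian E).map (fun x : E => ⟪v, x⟫)) := by
    rw [integral_map (by fun_prop) (by fun_prop)]
  rw [h1, map_inner_gen, integral_map (by fun_prop) (by fun_prop)]
  simp_rw [abs_mul, abs_norm]
  rw [integral_const_mul, integral_abs_gaussianReal_std]

lemma map_neg_std : (stdGaussian E).map (fun x : E => -x) = stdGaussian E :=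
  stdGaussian_map (LinearIsometryEquiv.neg ℝ : E ≃ₗᵢ[ℝ] E)

lemma integral_comp_neg_std (f : E → ℝ) (hf : Continuous f) :
    ∫ x, f (-x) ∂(stdGaussian E) = ∫ x, f x ∂(stdGaussian E) := by
  conv_rhs => rw [← map_neg_std]
  rw [integral_map (by fun_prop) hf.aestronglyMeasurable]

lemma ciSup_fin_three (a : Fin 3 → ℝ) : (⨆ i, a i) = max (a 0) (max (a 1) (a 2)) := by
  apply le_antisymm
  · refine ciSup_le fun i => ?_
    fin_cases i
    · exact le_max_left _ _
    · exact (le_max_left _ _).trans (le_max_right _ _)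
    · exact (le_max_right _ _).trans (le_max_right _ _)
  · exact max_le (le_ciSup (bddAbove_range_fin a) 0)
      (max_le (le_ciSup (bddAbove_range_fin a) 1) (le_ciSup (bddAbove_range_fin a) 2))

lemma three_max_range (a b c : ℝ) :
    max a (max b c) + max (-a) (max (-b) (-c)) = (|a - b| + |b - c| + |c - a|) / 2 := by
  have hab : |a - b| = max a b + max (-a) (-b) := by
    rcases le_total a b with h | h
    · rw [abs_of_nonpos (by linarith), max_eq_right h, max_eq_left (by linarith)]; ring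
    · rw [abs_of_nonneg (by linarith), max_eq_left h, max_eq_right (by linarith)]; ring
  have hbc : |b - c| = max b c + max (-b) (-c) := by
    rcases le_total b c with h | h
    · rw [abs_of_nonpos (by linarith), max_eq_right h, max_eq_left (by linarith)]; ring
    · rw [abs_of_nonneg (by linarith), max_eq_left h, max_eq_right (by linarith)]; ring
  have hca : |c - a| = max c a + max (-c) (-a) := by
    rcases le_total c a with h | h
    · rw [abs_of_nonpos (by linarith), max_eq_right h, max_eq_left (by linarith)]; ring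
    · rw [abs_of_nonneg (by linarith), max_eq_left h, max_eq_right (by linarith)]; ring
  rw [hab, hbc, hca]
  simp only [max_def]
  split_ifs <;> linarith

theorem hmax_three (z : Fin 3 → E) :
    hmax z ≤ 3 / (2 * Real.sqrt (2 * Real.pi)) * Real.sqrt (∑ i, ‖z i‖ ^ 2) := by
  have hsym := integral_comp_neg_std (fun x : E => ⨆ i, ⟪z i, x⟫) (continuous_sup_inner z)
  have h1 : hmax z + hmax z = ∫ x : E, (|⟪z 0 - z 1, x⟫| + |⟪z 1 - z 2, x⟫| + |⟪z 2 - z 0, x⟫|) / 2
      ∂(stdGaussian E) := by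
    have hn : Integrable (fun x : E => ⨆ i, ⟪z i, -x⟫) (stdGaussian E) := by
      have := integrable_sup_inner (fun i => - z i)
      refine this.congr (Filter.Eventually.of_forall fun x => ?_)
      simp
    have e1 : hmax z + hmax z = ∫ x : E, ((⨆ i, ⟪z i, x⟫) + ⨆ i, ⟪z i, -x⟫) ∂(stdGaussian E) := by
      rw [integral_add (integrable_sup_inner z) hn, hsym]
      rfl
    rw [e1]
    congr 1
    ext x
    rw [ciSup_fin_three, ciSup_fin_three]
    simp only [inner_neg_right, inner_sub_left]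
    exact three_max_range _ _ _
  have hi : ∀ v : E, Integrable (fun x : E => |⟪v, x⟫|) (stdGaussian E) :=
    fun v => (integrable_inner_std v).abs
  have hi2 : Integrable (fun x : E => |⟪z 0 - z 1, x⟫| + |⟪z 1 - z 2, x⟫|) (stdGaussian E) :=
    (hi _).add (hi _)
  rw [integral_div, integral_add hi2 (hi _), integral_add (hi _) (hi _),
    integral_abs_inner_std, integral_abs_inner_std, integral_abs_inner_std] at h1
  set s := Real.sqrt (2 * Real.pi) with hs
  have hs0 : 0 < s := Real.sqrt_pos.2 (by positivity)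
  have h2 : hmax z = (‖z 0 - z 1‖ + ‖z 1 - z 2‖ + ‖z 2 - z 0‖) / (2 * s) := by
    field_simp
    field_simp at h1
    linarith
  have h3 : ‖z 0 - z 1‖ + ‖z 1 - z 2‖ + ‖z 2 - z 0‖ ≤ 3 * Real.sqrt (∑ i, ‖z i‖ ^ 2) := by
    have e : (3:ℝ) * Real.sqrt (∑ i, ‖z i‖ ^ 2) = Real.sqrt (9 * ∑ i, ‖z i‖ ^ 2) := by
      rw [Real.sqrt_mul (by norm_num), show (9:ℝ) = 3 ^ 2 by norm_num, Real.sqrt_sq (by norm_num)]
    rw [e]
    apply Real.le_sqrt_of_sq_le
    rw [Fin.sum_univ_three]
    have a01 := norm_sub_sq_real (z 0) (z 1)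
    have a12 := norm_sub_sq_real (z 1) (z 2)
    have a20 := norm_sub_sq_real (z 2) (z 0)
    have a3 : 0 ≤ ‖z 0 + z 1 + z 2‖ ^ 2 := by positivity
    have a4 : ‖z 0 + z 1 + z 2‖ ^ 2 = ‖z 0‖ ^ 2 + ‖z 1‖ ^ 2 + ‖z 2‖ ^ 2 + 2 * ⟪z 0, z 1⟫
        + 2 * ⟪z 1, z 2⟫ + 2 * ⟪z 2, z 0⟫ := by
      rw [norm_add_sq_real, norm_add_sq_real, inner_add_left, real_inner_comm (z 0) (z 2)]
      ring
    nlinarith [sq_nonneg (‖z 0 - z 1‖ - ‖z 1 - z 2‖), sq_nonneg (‖z 1 - z 2‖ - ‖z 2 - z 0‖),
      sq_nonneg (‖z 2 - z 0‖ - ‖z 0 - z 1‖)]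
  rw [h2, div_le_iff₀ (by positivity)]
  calc _ ≤ 3 * Real.sqrt (∑ i, ‖z i‖ ^ 2) := h3
    _ = _ := by field_simp

end Crest.Agent.PH
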