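/-
Package C2 of row 215 (S0334, propeller bound): structure of a minimal counterexample.
-/
import Crest.Agent.PH.C1

set_option autoImplicit false

namespace Crest.Agent.PH

open MeasureTheory ProbabilityTheory Set
open scoped RealInnerProductSpace

variable {E : Type*} [NormedAddCommGroup E] [InnerProductSpace ℝ E] [FiniteDimensional ℝ E]
  [MeasurableSpace E] [BorelSpace E]

lemma isClosed_cell {ι : Type*} (z : ι → E) (i : ι) : IsClosed (cell z i) := by
  have : cell z i = ⋂ l, {x : E | ⟪z l, x⟫ ≤ ⟪z i, x⟫} := by ext; simp [cell]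
  rw [this]
  exact isClosed_iInter fun l => isClosed_le (by fun_prop) (by fun_prop)

lemma measurableSet_cell {ι : Type*} (z : ι → E) (i : ι) : MeasurableSet (cell z i) :=
  (isClosed_cell z i).measurableSet

lemma hyperplane_null (v : E) (hv : v ≠ 0) : (stdGaussian E) {x : E | ⟪v, x⟫ = 0} = 0 := by
  have h2 : (stdGaussian E) {x : E | ⟪v, x⟫ = 0}
      = ((stdGaussian E).map (fun x : E => ⟪v, x⟫)) {0} := by
    rw [Measure.map_apply (by fun_prop) (measurableSet_singleton 0)]; rfl
  rw [h2, map_inner_gen, Measure.map_apply (by fun_prop) (measurableSet_singleton 0)]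
  have h3 : (fun t : ℝ => ‖v‖ * t) ⁻¹' {0} = {0} := by ext t; simp [hv]
  rw [h3]
  have : NullSingletonClass (gaussianReal 0 1) := nullSingletonClass_gaussianReal (by simp)
  exact measure_singleton 0

lemma aedisjoint_cell {ι : Type*} (z : ι → E) (hz : Function.Injective z) :
    Pairwise (Function.onFun (AEDisjoint (stdGaussian E)) (cell z)) := by
  intro i j hij
  have hne : z i - z j ≠ 0 := sub_ne_zero.2 fun h => hij (hz h)
  refine measure_mono_null (fun x hx => ?_) (hyperplane_null (z i - z j) hne)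
  have h1 := hx.1 j
  have h2 := hx.2 i
  show ⟪z i - z j, x⟫ = 0
  rw [inner_sub_left]
  linarith

lemma iUnion_cell {ι : Type*} [Finite ι] [Nonempty ι] (z : ι → E) : ⋃ i, cell z i = Set.univ := by
  rw [eq_univ_iff_forall]
  intro x
  obtain ⟨i, hi⟩ := exists_eq_ciSup_of_finite (f := fun i => ⟪z i, x⟫)
  rw [mem_iUnion]
  refine ⟨i, fun l => ?_⟩
  have := le_sup_inner z x l
  rw [← hi] at this
  exact this

lemma sum_cell_integral {ι : Type*} [Fintype ι] [Nonempty ι] (z : ι → E)
    (hz : Function.Injective z) {F : Type*} [NormedAddCommGroup F] [NormedSpace ℝ F]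
    (f : E → F) (hf : Integrable f (stdGaussian E)) :
    ∑ i, ∫ x in cell z i, f x ∂(stdGaussian E) = ∫ x, f x ∂(stdGaussian E) := by
  have h := integral_iUnion_ae (μ := stdGaussian E) (f := f)
    (fun i => (measurableSet_cell z i).nullMeasurableSet) (aedisjoint_cell z hz) hf.integrableOn
  rw [iUnion_cell, setIntegral_univ, tsum_fintype] at h
  exact h.symm

lemma hmax_ge {ι κ : Type*} [Fintype ι] [Nonempty ι] [Fintype κ] (z : ι → E)
    (hz : Function.Injective z) (z' : κ → E) (π : ι → κ) :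
    ∑ a, ⟪z' (π a), ∫ x in cell z a, x ∂(stdGaussian E)⟫ ≤ hmax z' := by
  unfold hmax
  rw [← sum_cell_integral z hz _ (integrable_sup_inner z')]
  refine Finset.sum_le_sum fun a _ => ?_
  rw [← integral_inner integrable_id_std.integrableOn]
  exact setIntegral_mono (integrable_inner_std _).integrableOn
    (integrable_sup_inner z').integrableOn fun x => le_sup_inner z' x (π a)

lemma hmax_eq_sum {ι : Type*} [Fintype ι] [Nonempty ι] (z : ι → E) (hz : Function.Injective z) :
    ∑ a, ⟪z a, ∫ x in cell z a, x ∂(stdGaussian E)⟫ = hmax z := by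
  unfold hmax
  rw [← sum_cell_integral z hz _ (integrable_sup_inner z)]
  refine Finset.sum_congr rfl fun a _ => ?_
  rw [← integral_inner integrable_id_std.integrableOn]
  refine setIntegral_congr_fun (measurableSet_cell z a) fun x hx => ?_
  apply le_antisymm
  · exact le_sup_inner z x a
  · exact ciSup_le fun l => hx l

lemma critical_eq {ι : Type*} [Fintype ι] [Nonempty ι] (z : ι → E) (hz : Function.Injective z)
    (h0 : 0 < hmax z) (hS : ∑ i, ‖z i‖ ^ 2 = 1)
    (hM : ∀ w : ι → E, hmax w ≤ hmax z * Real.sqrt (∑ i, ‖w i‖ ^ 2)) (i : ι) :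
    ∫ x in cell z i, x ∂(stdGaussian E) = hmax z • z i := by
  set w : ι → E := fun a => ∫ x in cell z a, x ∂(stdGaussian E) with hw
  set h := hmax z with hh
  set W := ∑ a, ‖w a‖ ^ 2 with hWdef
  have hW0 : 0 ≤ W := Finset.sum_nonneg fun i _ => by positivity
  have e1 : W ≤ hmax w := by
    have := hmax_ge z hz w id
    refine le_trans (le_of_eq ?_) this
    refine Finset.sum_congr rfl fun a _ => ?_
    simp only [id]
    rw [← real_inner_self_eq_norm_sq]
  have e2 : W ≤ h ^ 2 := by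
    have h3 := e1.trans (hM w)
    have h4 : Real.sqrt W ^ 2 = W := Real.sq_sqrt hW0
    rcases eq_or_lt_of_le (Real.sqrt_nonneg W) with h5 | h5
    · have : W = 0 := by rw [← h4, ← h5]; norm_num
      rw [this]; positivity
    · have h6 : Real.sqrt W ≤ h := by
        have : Real.sqrt W * Real.sqrt W ≤ h * Real.sqrt W := by nlinarith
        exact le_of_mul_le_mul_right this h5
      rw [← h4]
      exact pow_le_pow_left₀ (Real.sqrt_nonneg W) h6 2
  have e3 : ∑ a, ⟪z a, w a⟫ = h := hmax_eq_sum z hz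
  have e4 : ∑ a, ‖w a - h • z a‖ ^ 2 ≤ 0 := by
    have : ∀ a, ‖w a - h • z a‖ ^ 2 = ‖w a‖ ^ 2 - 2 * h * ⟪z a, w a⟫ + h ^ 2 * ‖z a‖ ^ 2 := by
      intro a
      rw [norm_sub_sq_real, real_inner_smul_right, norm_smul, real_inner_comm, mul_pow,
        Real.norm_eq_abs, sq_abs]
      ring
    simp_rw [this]
    rw [Finset.sum_add_distrib, Finset.sum_sub_distrib, ← Finset.mul_sum, ← Finset.mul_sum, e3, hS]
    nlinarith
  have e5 : ‖w i - h • z i‖ ^ 2 ≤ 0 := by
    refine le_trans ?_ e4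
    exact Finset.single_le_sum (f := fun a => ‖w a - h • z a‖ ^ 2) (fun a _ => by positivity)
      (Finset.mem_univ i)
  have e6 : w i - h • z i = 0 := by
    have : ‖w i - h • z i‖ = 0 := by
      have := norm_nonneg (w i - h • z i)
      nlinarith
    exact norm_eq_zero.1 this
  exact sub_eq_zero.1 e6

/-- existence of a maximiser on the sphere -/
lemma exists_max {ι : Type*} [Fintype ι] [Nonempty ι] (m : ℝ) (hm : 0 < m)
    (z₀ : ι → E) (hz₀ : m * Real.sqrt (∑ i, ‖z₀ i‖ ^ 2) < hmax z₀) :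
    ∃ z : ι → E, m < hmax z ∧ ∑ i, ‖z i‖ ^ 2 = 1 ∧
      ∀ w : ι → E, hmax w ≤ hmax z * Real.sqrt (∑ i, ‖w i‖ ^ 2) := by
  set K : Set (ι → E) := {z | ∑ i, ‖z i‖ ^ 2 = 1} with hK
  have hKc : IsCompact K := by
    refine Metric.isCompact_of_isClosed_isBounded ?_ ?_
    · exact isClosed_eq (by fun_prop) continuous_const
    · rw [isBounded_iff_forall_norm_le]
      refine ⟨1, fun z hz => ?_⟩
      rw [pi_norm_le_iff_of_nonneg zero_le_one]
      intro i
      have h1 : ‖z i‖ ^ 2 ≤ ∑ i, ‖z i‖ ^ 2 :=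
        Finset.single_le_sum (f := fun a => ‖z a‖ ^ 2) (fun a _ => by positivity)
          (Finset.mem_univ i)
      have h2 : ∑ i, ‖z i‖ ^ 2 = 1 := hz
      have h3 := norm_nonneg (z i)
      nlinarith
  have hnorm : ∀ w : ι → E, 0 < ∑ i, ‖w i‖ ^ 2 →
      (fun i => (Real.sqrt (∑ i, ‖w i‖ ^ 2))⁻¹ • w i) ∈ K := by
    intro w hw
    show ∑ i, ‖(Real.sqrt (∑ i, ‖w i‖ ^ 2))⁻¹ • w i‖ ^ 2 = 1
    simp_rw [norm_smul, mul_pow]
    rw [← Finset.mul_sum, norm_inv, Real.norm_eq_abs, inv_pow, sq_abs, Real.sq_sqrt hw.le]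
    field_simp
  have hsum0 : ∀ w : ι → E, ¬ 0 < ∑ i, ‖w i‖ ^ 2 → hmax w = 0 ∧ ∑ i, ‖w i‖ ^ 2 = 0 := by
    intro w hw
    have h1 : ∑ i, ‖w i‖ ^ 2 = 0 :=
      le_antisymm (not_lt.1 hw) (Finset.sum_nonneg fun i _ => by positivity)
    have h2 : ∀ i, w i = 0 := by
      intro i
      have := (Finset.sum_eq_zero_iff_of_nonneg (fun i _ => by positivity)).1 h1 i
        (Finset.mem_univ i)
      have h3 : ‖w i‖ = 0 := by
        have h4 : ‖w i‖ ^ 2 = 0 := this
        exact pow_eq_zero_iff (two_ne_zero) |>.1 h4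
      exact norm_eq_zero.1 h3
    refine ⟨?_, h1⟩
    unfold hmax
    simp [h2]
  have hz0pos : 0 < ∑ i, ‖z₀ i‖ ^ 2 := by
    by_contra hneg
    obtain ⟨h1, h2⟩ := hsum0 z₀ hneg
    rw [h1, h2] at hz₀
    simp at hz₀
  obtain ⟨z, hzK, hzmax⟩ := hKc.exists_isMaxOn ⟨_, hnorm z₀ hz0pos⟩
    (continuous_hmax (E := E) (ι := ι)).continuousOn
  have hub : ∀ w : ι → E, hmax w ≤ hmax z * Real.sqrt (∑ i, ‖w i‖ ^ 2) := by
    intro w
    by_cases hw : 0 < ∑ i, ‖w i‖ ^ 2
    · have h1 := hzmax (hnorm w hw)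
      simp only [mem_ofPred_eq] at h1
      have hs : 0 < Real.sqrt (∑ i, ‖w i‖ ^ 2) := Real.sqrt_pos.2 hw
      rw [hmax_smul w _ (inv_nonneg.2 hs.le)] at h1
      rw [inv_mul_le_iff₀ hs] at h1
      linarith
    · obtain ⟨h1, h2⟩ := hsum0 w hw
      rw [h1, h2]
      simp
  refine ⟨z, ?_, hzK, hub⟩
  have h1 := hz₀.trans_le (hub z₀)
  have hs : 0 < Real.sqrt (∑ i, ‖z₀ i‖ ^ 2) := Real.sqrt_pos.2 hz0pos
  exact lt_of_mul_lt_mul_right h1 hs.le


lemma card_subtype_ne' {ι : Type*} [Fintype ι] [DecidableEq ι] (j : ι) :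
    Fintype.card {i // i ≠ j} + 1 = Fintype.card ι := by
  have h := Fintype.sum_eq_add_sum_subtype_ne (fun _ : ι => (1:ℕ)) j
  simp only [Finset.sum_const, Finset.card_univ, smul_eq_mul, mul_one] at h
  omega

/-- functionals separating a linearly independent family -/
lemma exists_dual_vector {κ : Type*} [Finite κ] (v : κ → E) (hv : LinearIndependent ℝ v)
    (c : κ → ℝ) : ∃ y : E, ∀ i, ⟪v i, y⟫ = c i := by
  let b := Module.Basis.span hv
  let f : Submodule.span ℝ (Set.range v) →ₗ[ℝ] ℝ := b.constr ℝ c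
  obtain ⟨g, hg⟩ := LinearMap.exists_extend f
  refine ⟨(InnerProductSpace.toDual ℝ E).symm (LinearMap.toContinuousLinearMap g), fun i => ?_⟩
  rw [real_inner_comm, InnerProductSpace.toDual_symm_apply]
  have h1 : (b i : E) = v i := congrArg Subtype.val (Module.Basis.span_apply hv i)
  have h2 : g (b i : E) = f (b i) := by
    rw [← hg]; rfl
  rw [← h1]
  change g (b i : E) = c i
  rw [h2]
  exact b.constr_basis ℝ c i

/-- pairwise negative inner products: the only balanced linear relation is trivial -/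
lemma relation_trivial {ι : Type*} [Fintype ι] (z : ι → E)
    (hneg : ∀ i j, i ≠ j → ⟪z i, z j⟫ < 0) (l : ι → ℝ) (h0 : ∑ i, l i = 0)
    (h1 : ∑ i, l i • z i = 0) : ∀ i, l i = 0 := by
  set v := ∑ i, max (l i) 0 • z i with hv
  have hv2 : v = ∑ i, max (-l i) 0 • z i := by
    have : ∑ i, max (l i) 0 • z i - ∑ i, max (-l i) 0 • z i = ∑ i, l i • z i := by
      rw [← Finset.sum_sub_distrib]
      refine Finset.sum_congr rfl fun i _ => ?_
      rw [← sub_smul]
      congr 1
      rcases le_total (l i) 0 with h | h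
      · rw [max_eq_right h, max_eq_left (by linarith)]; ring
      · rw [max_eq_left h, max_eq_right (by linarith)]; ring
    rw [h1] at this
    exact sub_eq_zero.1 this
  have hterm : ∀ i j, max (l i) 0 * max (-l j) 0 * ⟪z i, z j⟫ ≤ 0 := by
    intro i j
    by_cases hij : i = j
    · subst hij
      rcases le_total (l i) 0 with h | h
      · rw [max_eq_right h]; simp
      · rw [max_eq_right (by linarith : -l i ≤ 0)]; simp
    · exact mul_nonpos_of_nonneg_of_nonpos (mul_nonneg (le_max_right _ _) (le_max_right _ _))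
        (hneg i j hij).le
  have hvv : ⟪v, v⟫ = ∑ i, ∑ j, max (l i) 0 * max (-l j) 0 * ⟪z i, z j⟫ := by
    conv_lhs => rw [hv2]
    rw [← hv2]
    conv_lhs =>
      rw [hv]
    rw [sum_inner]
    refine Finset.sum_congr rfl fun i _ => ?_
    rw [← hv, hv2, inner_sum]
    refine Finset.sum_congr rfl fun j _ => ?_
    rw [real_inner_smul_left, real_inner_smul_right]
    ring
  have hsum0 : ∑ i, ∑ j, max (l i) 0 * max (-l j) 0 * ⟪z i, z j⟫ = 0 := by
    apply le_antisymm
    · exact Finset.sum_nonpos fun i _ => Finset.sum_nonpos fun j _ => hterm i j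
    · rw [← hvv]; exact real_inner_self_nonneg
  have hz : ∀ i j, max (l i) 0 * max (-l j) 0 * ⟪z i, z j⟫ = 0 := by
    intro i j
    have a1 := (Finset.sum_eq_zero_iff_of_nonpos
      (fun i _ => Finset.sum_nonpos fun j _ => hterm i j)).1 hsum0 i (Finset.mem_univ i)
    exact (Finset.sum_eq_zero_iff_of_nonpos (fun j _ => hterm i j)).1 a1 j (Finset.mem_univ j)
  have hno : ∀ i j, ¬ (0 < l i ∧ l j < 0) := by
    rintro i j ⟨hi, hj⟩
    have hij : i ≠ j := by rintro rfl; linarith
    have a := hz i j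
    rw [max_eq_left hi.le, max_eq_left (by linarith : (0:ℝ) ≤ -l j)] at a
    have b := hneg i j hij
    have c : l i * -l j * ⟪z i, z j⟫ < 0 := mul_neg_of_pos_of_neg (mul_pos hi (by linarith)) b
    linarith
  intro i
  by_contra hi
  rcases lt_or_gt_of_ne hi with h | h
  · have hall : ∀ j, l j ≤ 0 := fun j => not_lt.1 fun hj => hno j i ⟨hj, h⟩
    have : ∑ j, l j < 0 := Finset.sum_neg' (fun j _ => hall j) ⟨i, Finset.mem_univ i, h⟩
    linarith
  · have hall : ∀ j, 0 ≤ l j := fun j => not_lt.1 fun hj => hno i j ⟨h, hj⟩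
    have : 0 < ∑ j, l j := Finset.sum_pos' (fun j _ => hall j) ⟨i, Finset.mem_univ i, h⟩
    linarith

lemma linearIndependent_sub {ι : Type*} [Fintype ι] [DecidableEq ι] (z : ι → E)
    (hneg : ∀ i j, i ≠ j → ⟪z i, z j⟫ < 0) (j : ι) :
    LinearIndependent ℝ (fun i : {i // i ≠ j} => z j - z i.1) := by
  rw [Fintype.linearIndependent_iff]
  intro g hg i
  set l : ι → ℝ := fun a => if h : a ≠ j then - g ⟨a, h⟩ else ∑ i, g i with hl
  have hlj : l j = ∑ i, g i := by simp [hl]
  have hli : ∀ i : {i // i ≠ j}, l i.1 = - g i := by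
    intro i
    simp [hl, i.2]
  have h0 : ∑ a, l a = 0 := by
    rw [Fintype.sum_eq_add_sum_subtype_ne l j, hlj]
    simp_rw [hli]
    rw [Finset.sum_neg_distrib]; ring
  have h1 : ∑ a, l a • z a = 0 := by
    rw [Fintype.sum_eq_add_sum_subtype_ne (fun a => l a • z a) j, hlj]
    simp_rw [hli]
    simp_rw [smul_sub] at hg
    rw [Finset.sum_sub_distrib, ← Finset.sum_smul] at hg
    rw [← hg]
    simp_rw [neg_smul]
    rw [Finset.sum_neg_distrib]
    abel
  have := relation_trivial z hneg l h0 h1 i.1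
  rw [hli] at this
  linarith

/-- Structure of a minimal counterexample with index type `ι` (`k = card ι ≥ 2`). -/
theorem exists_critical {ι : Type} [Fintype ι] [DecidableEq ι] (hk : 2 ≤ Fintype.card ι)
    (m : ℝ) (hm : 0 < m)
    (IH : ∀ (κ : Type) [Fintype κ] (_ : Fintype.card κ + 1 = Fintype.card ι) (_ : Nonempty κ)
      (z : κ → E), hmax z ≤ m * Real.sqrt (∑ i, ‖z i‖ ^ 2))
    (z₀ : ι → E) (hz₀ : m * Real.sqrt (∑ i, ‖z₀ i‖ ^ 2) < hmax z₀) :
    ∃ z : ι → E, m < hmax z ∧ ∑ i, ‖z i‖ ^ 2 = 1 ∧ ∑ i, z i = 0 ∧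
      (∀ i j, i ≠ j → ⟪z i, z j⟫ < 0) ∧
      (∀ i, ∫ x in cell z i, x ∂(stdGaussian E) = hmax z • z i) ∧
      (∑ i, (stdGaussian E).real (cell z i) = 1) ∧
      (∀ j, hmax z - m * Real.sqrt (1 - (Fintype.card ι : ℝ) / ((Fintype.card ι : ℝ) - 1)
          * ‖z j‖ ^ 2) ≤ delCost z j) ∧
      (∀ j, ∃ y : E, (∀ i, i ≠ j → ⟪z j - z i, y⟫ = 1) ∧
        ⟪z j, y⟫ = ((Fintype.card ι : ℝ) - 1) / (Fintype.card ι : ℝ)) := by
  have hne : Nonempty ι := by
    rw [← Fintype.card_pos_iff]; omega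
  have hother : ∀ j : ι, ∃ i, i ≠ j := by
    intro j
    have : Nontrivial ι := Fintype.one_lt_card_iff_nontrivial.1 (by omega)
    exact exists_ne j
  have hsubne : ∀ j : ι, Nonempty {i // i ≠ j} := fun j => ⟨⟨(hother j).choose, (hother j).choose_spec⟩⟩
  obtain ⟨z, hmz, hS, hM⟩ := exists_max m hm z₀ hz₀
  have hh : 0 < hmax z := hm.trans hmz
  -- bound for the deleted family
  have hdel : ∀ j (v : E), hmax (fun i : {i // i ≠ j} => z i.1)
      ≤ m * Real.sqrt (∑ i : {i // i ≠ j}, ‖z i.1 - v‖ ^ 2) := by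
    intro j v
    haveI := hsubne j
    rw [← hmax_sub_const (fun i : {i // i ≠ j} => z i.1) v]
    exact IH {i // i ≠ j} (card_subtype_ne' j) (hsubne j) _
  -- injectivity
  have hinj : Function.Injective z := by
    intro i j hij
    by_contra hne'
    have h1 : delCost z j = 0 := by
      unfold delCost
      have : ∀ x : E, max 0 (⟪z j, x⟫ - ⨆ i : {i // i ≠ j}, ⟪z i.1, x⟫) = 0 := by
        intro x
        apply max_eq_left
        have := le_sup_inner (fun i : {i // i ≠ j} => z i.1) x ⟨i, hne'⟩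
        simp only [hij] at this
        linarith
      simp_rw [this]
      simp
    rw [delCost_eq z j (hother j)] at h1
    have h2 := hdel j 0
    simp only [sub_zero] at h2
    have h3 : ∑ i : {i // i ≠ j}, ‖z i.1‖ ^ 2 ≤ 1 := by
      have h4 := Fintype.sum_eq_add_sum_subtype_ne (fun a => ‖z a‖ ^ 2) j
      rw [hS] at h4
      have h5 : 0 ≤ ‖z j‖ ^ 2 := by positivity
      linarith
    have h6 : Real.sqrt (∑ i : {i // i ≠ j}, ‖z i.1‖ ^ 2) ≤ 1 := by
      rw [Real.sqrt_le_one]; exact h3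
    have h7 : m * Real.sqrt (∑ i : {i // i ≠ j}, ‖z i.1‖ ^ 2) ≤ m * 1 :=
      mul_le_mul_of_nonneg_left h6 hm.le
    linarith
  have hw : ∀ i, ∫ x in cell z i, x ∂(stdGaussian E) = hmax z • z i :=
    critical_eq z hinj hh hS hM
  have hsum : ∑ i, z i = 0 := by
    have h1 := sum_cell_integral z hinj (fun x : E => x) integrable_id_std
    simp_rw [hw] at h1
    rw [← Finset.smul_sum, integral_id_stdGaussian] at h1
    exact (smul_eq_zero.1 h1).resolve_left hh.ne'
  have hprob : ∑ i, (stdGaussian E).real (cell z i) = 1 := by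
    have h1 := sum_cell_integral z hinj (fun _ : E => (1:ℝ)) (integrable_const _)
    simpa using h1
  have hneg : ∀ i j, i ≠ j → ⟪z i, z j⟫ < 0 := by
    intro i j hij
    by_contra hnn
    rw [not_lt] at hnn
    let z' : {l // l ≠ j} → E := fun l => if l.1 = i then z i + z j else z l.1
    let π : ι → {l // l ≠ j} := fun a => if h : a ≠ j then ⟨a, h⟩ else ⟨i, hij⟩
    have hge := hmax_ge z hinj z' π
    have hIH := IH {l // l ≠ j} (card_subtype_ne' j) (hsubne j) z'
    have hu : ∀ a, z' (π a) = z a + ((if a = j then z i else 0) + (if a = i then z j else 0)) := by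
      intro a
      by_cases h1 : a = j
      · subst h1
        simp [π, z', hij.symm, add_comm]
      · by_cases h2 : a = i
        · subst h2
          simp [π, z', hij]
        · simp [π, z', h1, h2]
    have hsum1 : ∑ a, ⟪z' (π a), ∫ x in cell z a, x ∂(stdGaussian E)⟫
        = hmax z * (1 + 2 * ⟪z i, z j⟫) := by
      simp_rw [hw, hu, real_inner_smul_right, inner_add_left]
      rw [← Finset.mul_sum, Finset.sum_add_distrib, Finset.sum_add_distrib]
      have e1 : ∑ a, ⟪z a, z a⟫ = 1 := by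
        rw [← hS]; exact Finset.sum_congr rfl fun a _ => real_inner_self_eq_norm_sq _
      have e2 : ∑ a, ⟪(if a = j then z i else 0 : E), z a⟫ = ⟪z i, z j⟫ := by
        rw [Finset.sum_eq_single j]
        · simp
        · intro b _ hb; simp [hb]
        · simp
      have e3 : ∑ a, ⟪(if a = i then z j else 0 : E), z a⟫ = ⟪z i, z j⟫ := by
        rw [Finset.sum_eq_single i]
        · simp [real_inner_comm]
        · intro b _ hb; simp [hb]
        · simp
      rw [e1, e2, e3]
      ring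
    have hsum2 : ∑ l, ‖z' l‖ ^ 2 = 1 + 2 * ⟪z i, z j⟫ := by
      let F : ι → ℝ := fun a => ‖z a‖ ^ 2 + ((if a = j then - ‖z j‖ ^ 2 else 0)
        + (if a = i then 2 * ⟪z i, z j⟫ + ‖z j‖ ^ 2 else 0))
      have e1 := Fintype.sum_eq_add_sum_subtype_ne F j
      have e2 : F j = 0 := by simp [F, hij.symm]
      have e3 : ∀ l : {l // l ≠ j}, ‖z' l‖ ^ 2 = F l.1 := by
        intro l
        have hl := l.2
        by_cases h2 : l.1 = i
        · simp only [z', F, h2, if_true, hij, if_false]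
          rw [norm_add_sq_real]; ring
        · simp [z', F, h2, hl]
      have e4 : ∑ a, F a = 1 + 2 * ⟪z i, z j⟫ := by
        simp only [F]
        rw [Finset.sum_add_distrib, Finset.sum_add_distrib, hS, Finset.sum_ite_eq',
          Finset.sum_ite_eq']
        simp
      simp_rw [e3]
      rw [e2] at e1
      linarith
    rw [hsum1] at hge
    rw [hsum2] at hIH
    set S := 1 + 2 * ⟪z i, z j⟫ with hSdef
    have hS1 : 1 ≤ S := by rw [hSdef]; linarith
    have hq : 1 ≤ Real.sqrt S := by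
      rw [Real.one_le_sqrt]; exact hS1
    have hqq : Real.sqrt S * Real.sqrt S = S := Real.mul_self_sqrt (by linarith)
    have h1 : hmax z * S ≤ m * Real.sqrt S := hge.trans hIH
    have h2 : hmax z * Real.sqrt S ≤ m := by
      have : (hmax z * Real.sqrt S) * Real.sqrt S ≤ m * Real.sqrt S := by
        rw [mul_assoc, hqq]; exact h1
      exact le_of_mul_le_mul_right this (by linarith)
    have h3 : hmax z * 1 ≤ hmax z * Real.sqrt S := mul_le_mul_of_nonneg_left hq hh.le
    linarith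
  refine ⟨z, hmz, hS, hsum, hneg, hw, hprob, ?_, ?_⟩
  · intro j
    set k : ℝ := (Fintype.card ι : ℝ) with hkdef
    have hk2 : (2:ℝ) ≤ k := by rw [hkdef]; exact_mod_cast hk
    rw [delCost_eq z j (hother j)]
    have h1 := hdel j (-(1 / (k - 1)) • z j)
    have h2 : ∑ i : {i // i ≠ j}, ‖z i.1 - -(1 / (k - 1)) • z j‖ ^ 2
        = 1 - k / (k - 1) * ‖z j‖ ^ 2 := by
      have e1 := Fintype.sum_eq_add_sum_subtype_ne (fun a => ‖z a‖ ^ 2) j
      rw [hS] at e1
      have e2 := Fintype.sum_eq_add_sum_subtype_ne (fun a => ⟪z a, z j⟫) j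
      rw [← sum_inner, hsum, inner_zero_left, real_inner_self_eq_norm_sq] at e2
      have e3 : ∀ i : {i // i ≠ j}, ‖z i.1 - -(1 / (k - 1)) • z j‖ ^ 2
          = ‖z i.1‖ ^ 2 + (2 / (k - 1)) * ⟪z i.1, z j⟫ + (1 / (k - 1)) ^ 2 * ‖z j‖ ^ 2 := by
        intro i
        rw [norm_sub_sq_real, real_inner_smul_right, norm_smul, mul_pow, Real.norm_eq_abs, sq_abs]
        ring
      have e4 : ((Fintype.card {i // i ≠ j} : ℕ) : ℝ) = k - 1 := by
        have := card_subtype_ne' j
        rw [hkdef, ← this]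
        push_cast; ring
      simp_rw [e3]
      rw [Finset.sum_add_distrib, Finset.sum_add_distrib, ← Finset.mul_sum, Finset.sum_const,
        Finset.card_univ, nsmul_eq_mul, e4]
      have e5 : ∑ i : {i // i ≠ j}, ‖z i.1‖ ^ 2 = 1 - ‖z j‖ ^ 2 := by linarith
      have e6 : ∑ i : {i // i ≠ j}, ⟪z i.1, z j⟫ = - ‖z j‖ ^ 2 := by linarith
      rw [e5, e6]
      have : k - 1 ≠ 0 := by linarith
      field_simp
      ring
    rw [h2] at h1
    linarith
  · intro j
    set k : ℝ := (Fintype.card ι : ℝ) with hkdef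
    have hk2 : (2:ℝ) ≤ k := by rw [hkdef]; exact_mod_cast hk
    obtain ⟨y, hy⟩ := exists_dual_vector _ (linearIndependent_sub z hneg j) (fun _ => (1:ℝ))
    refine ⟨y, fun i hi => hy ⟨i, hi⟩, ?_⟩
    have e1 : ∑ i : {i // i ≠ j}, ⟪z j - z i.1, y⟫ = k - 1 := by
      simp_rw [hy]
      have := card_subtype_ne' j
      rw [Finset.sum_const, Finset.card_univ, nsmul_eq_mul, hkdef, ← this]
      push_cast; ring
    simp_rw [inner_sub_left] at e1
    rw [Finset.sum_sub_distrib, Finset.sum_const, Finset.card_univ, nsmul_eq_mul] at e1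
    have e4 : ((Fintype.card {i // i ≠ j} : ℕ) : ℝ) = k - 1 := by
      have := card_subtype_ne' j
      rw [hkdef, ← this]
      push_cast; ring
    rw [e4] at e1
    have e2 := Fintype.sum_eq_add_sum_subtype_ne (fun a => ⟪z a, y⟫) j
    rw [← sum_inner, hsum, inner_zero_left] at e2
    have hk0 : k ≠ 0 := by linarith
    field_simp
    linarith

end Crest.Agent.PH
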