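/-
Package E of row 215 (S0334): cone isoperimetry in dimension three.
-/
import Crest.Agent.PH.Basic
import Crest.Agent.PH.A1

set_option autoImplicit false

namespace Crest.Agent.PH

open MeasureTheory ProbabilityTheory Set Filter
open scoped RealInnerProductSpace Topology ENNReal

section coords
variable {E : Type*} [NormedAddCommGroup E] [InnerProductSpace ℝ E] [FiniteDimensional ℝ E]
  [MeasurableSpace E] [BorelSpace E]

theorem inner_split (e z : E) (he : ‖e‖ = 1) (t : ℝ) : ⟪e, z - ⟪e, z⟫ • e + t • e⟫ = t := by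
  rw [inner_add_right, inner_sub_right, real_inner_smul_right, real_inner_smul_right,
    real_inner_self_eq_norm_sq, he]
  ring

theorem map_inner_std (e : E) (he : ‖e‖ = 1) :
    (stdGaussian E).map (fun x => ⟪e, x⟫) = gaussianReal 0 1 := by
  have hmeas : Measurable (fun p : E × ℝ => p.1 - ⟪e, p.1⟫ • e + p.2 • e) := by fun_prop
  have h2 : Measurable (fun x : E => ⟪e, x⟫) := by fun_prop
  conv_lhs => rw [← map_split e he]
  rw [Measure.map_map h2 hmeas]
  have h3 : ((fun x : E => ⟪e, x⟫) ∘ fun p : E × ℝ => p.1 - ⟪e, p.1⟫ • e + p.2 • e) = Prod.snd := by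
    ext p
    exact inner_split e p.1 he p.2
  rw [h3]
  exact Measure.snd_prod

theorem map_pair (e : E) (he : ‖e‖ = 1) {β : Type*} [MeasurableSpace β] (h : E → β)
    (hh : Measurable h) (hinv : ∀ (z : E) (t : ℝ), h (z - ⟪e, z⟫ • e + t • e) = h z) :
    (stdGaussian E).map (fun x => (⟪e, x⟫, h x)) = (gaussianReal 0 1).prod ((stdGaussian E).map h) := by
  have hmeas : Measurable (fun p : E × ℝ => p.1 - ⟪e, p.1⟫ • e + p.2 • e) := by fun_prop
  have h2 : Measurable (fun x : E => (⟪e, x⟫, h x)) := by fun_prop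
  have : IsProbabilityMeasure ((stdGaussian E).map h) := Measure.isProbabilityMeasure_map hh.aemeasurable
  conv_lhs => rw [← map_split e he]
  rw [Measure.map_map h2 hmeas]
  have h3 : ((fun x : E => (⟪e, x⟫, h x)) ∘ fun p : E × ℝ => p.1 - ⟪e, p.1⟫ • e + p.2 • e)
      = Prod.swap ∘ Prod.map h id := by
    ext p
    · exact inner_split e p.1 he p.2
    · simp [hinv]
  rw [h3, ← Measure.map_map measurable_swap (hh.prodMap measurable_id),
    ← Measure.map_prod_map _ _ hh measurable_id, Measure.map_id, Measure.prod_swap]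

theorem map_coord3 (b : Fin 3 → E) (hb : Orthonormal ℝ b) :
    (stdGaussian E).map (fun x => (⟪b 0, x⟫, ⟪b 1, x⟫, ⟪b 2, x⟫))
      = (gaussianReal 0 1).prod ((gaussianReal 0 1).prod (gaussianReal 0 1)) := by
  have h01 : ⟪b 0, b 1⟫ = 0 := hb.2 (by decide)
  have h02 : ⟪b 0, b 2⟫ = 0 := hb.2 (by decide)
  have h12 : ⟪b 1, b 2⟫ = 0 := hb.2 (by decide)
  have h10 : ⟪b 1, b 0⟫ = 0 := hb.2 (by decide)
  have h20 : ⟪b 2, b 0⟫ = 0 := hb.2 (by decide)
  have h21 : ⟪b 2, b 1⟫ = 0 := hb.2 (by decide)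
  rw [map_pair (b 0) (hb.1 0) (fun x => (⟪b 1, x⟫, ⟪b 2, x⟫)) (by fun_prop),
    map_pair (b 1) (hb.1 1) (fun x => ⟪b 2, x⟫) (by fun_prop), map_inner_std (b 2) (hb.1 2)]
  · intro z t
    simp only [inner_add_right, inner_sub_right, real_inner_smul_right, h21]
    ring
  · intro z t
    simp only [inner_add_right, inner_sub_right, real_inner_smul_right, h20, h10]
    ring_nf

end coords

/-! ### three-dimensional computations on `ℝ × ℝ × ℝ` -/

/-- product Gaussian measure -/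
noncomputable def mu3 : Measure (ℝ × ℝ × ℝ) :=
  (gaussianReal 0 1).prod ((gaussianReal 0 1).prod (gaussianReal 0 1))

instance : IsProbabilityMeasure mu3 := by unfold mu3; infer_instance

/-- Euclidean radius -/
noncomputable def rad3 (x : ℝ × ℝ × ℝ) : ℝ := Real.sqrt (x.1 ^ 2 + x.2.1 ^ 2 + x.2.2 ^ 2)

/-- density -/
noncomputable def dens3 (x : ℝ × ℝ × ℝ) : ℝ :=
  (Real.sqrt (2 * Real.pi))⁻¹ ^ 3 * Real.exp (-(rad3 x) ^ 2 / 2)

lemma continuous_rad3 : Continuous rad3 := by unfold rad3; fun_prop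

lemma continuous_dens3 : Continuous dens3 := by
  unfold dens3
  have := continuous_rad3
  fun_prop

lemma rad3_sq (x : ℝ × ℝ × ℝ) : rad3 x ^ 2 = x.1 ^ 2 + x.2.1 ^ 2 + x.2.2 ^ 2 := by
  unfold rad3; rw [Real.sq_sqrt (by positivity)]

lemma rad3_nonneg (x : ℝ × ℝ × ℝ) : 0 ≤ rad3 x := Real.sqrt_nonneg _

lemma rad3_smul (t : ℝ) (ht : 0 ≤ t) (x : ℝ × ℝ × ℝ) : rad3 (t • x) = t * rad3 x := by
  unfold rad3
  have : (t • x).1 ^ 2 + (t • x).2.1 ^ 2 + (t • x).2.2 ^ 2
      = t ^ 2 * (x.1 ^ 2 + x.2.1 ^ 2 + x.2.2 ^ 2) := by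
    simp only [Prod.smul_fst, Prod.smul_snd, smul_eq_mul]; ring
  rw [this, Real.sqrt_mul (by positivity), Real.sqrt_sq ht]

lemma rad3_pos (x : ℝ × ℝ × ℝ) (hx : x ≠ 0) : 0 < rad3 x := by
  unfold rad3
  apply Real.sqrt_pos.2
  by_contra h
  push Not at h
  have h1 : x.1 = 0 := by nlinarith [sq_nonneg x.1, sq_nonneg x.2.1, sq_nonneg x.2.2]
  have h2 : x.2.1 = 0 := by nlinarith [sq_nonneg x.1, sq_nonneg x.2.1, sq_nonneg x.2.2]
  have h3 : x.2.2 = 0 := by nlinarith [sq_nonneg x.1, sq_nonneg x.2.1, sq_nonneg x.2.2]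
  exact hx (by ext <;> simp [h1, h2, h3])

lemma mu3_eq : mu3 = (volume : Measure (ℝ × ℝ × ℝ)).withDensity (fun x => ENNReal.ofReal (dens3 x)) := by
  have h1 : (1 : NNReal) ≠ 0 := by simp
  unfold mu3
  rw [gaussianReal_of_var_ne_zero 0 h1, prod_withDensity (by fun_prop) (by fun_prop),
    prod_withDensity (by fun_prop) (by fun_prop)]
  congr 1
  ext x
  simp only [gaussianPDF]
  rw [← ENNReal.ofReal_mul (gaussianPDFReal_nonneg _ _ _), ← ENNReal.ofReal_mul (gaussianPDFReal_nonneg _ _ _)]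
  congr 1
  unfold dens3
  rw [rad3_sq]
  simp only [gaussianPDFReal]
  rw [show -(x.1 ^ 2 + x.2.1 ^ 2 + x.2.2 ^ 2) / 2 = -x.1 ^ 2 / 2 + (-x.2.1 ^ 2 / 2 + -x.2.2 ^ 2 / 2) by ring,
    Real.exp_add, Real.exp_add]
  simp only [NNReal.coe_one, mul_one, sub_zero]
  ring

instance instHaar2 : (volume : Measure (ℝ × ℝ)).IsAddHaarMeasure := by
  change ((volume : Measure ℝ).prod (volume : Measure ℝ)).IsAddHaarMeasure
  infer_instance

instance instHaar3 : (volume : Measure (ℝ × ℝ × ℝ)).IsAddHaarMeasure := by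
  change ((volume : Measure ℝ).prod (volume : Measure (ℝ × ℝ))).IsAddHaarMeasure
  infer_instance

lemma lintegral_polar3 (F : ℝ × ℝ × ℝ → ℝ≥0∞) (hF : Measurable F) :
    ∫⁻ x, F x = ∫⁻ θ : Metric.sphere (0 : ℝ × ℝ × ℝ) 1, ∫⁻ r : Ioi (0:ℝ), F (r.1 • θ.1)
      ∂(Measure.volumeIoiPow 2) ∂((volume : Measure (ℝ × ℝ × ℝ)).toSphere) := by
  have h1 : ∫⁻ x, F x = ∫⁻ x : ({(0 : ℝ × ℝ × ℝ)}ᶜ : Set (ℝ × ℝ × ℝ)), F x
      ∂((volume : Measure (ℝ × ℝ × ℝ)).comap Subtype.val) := by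
    rw [lintegral_subtype_comap (measurableSet_singleton _).compl, restrict_compl_singleton]
  have hfin : Module.finrank ℝ (ℝ × ℝ × ℝ) - 1 = 2 := by simp
  have mp := (volume : Measure (ℝ × ℝ × ℝ)).measurePreserving_homeomorphUnitSphereProd
  rw [hfin] at mp
  have h2 := mp.lintegral_comp_emb (Homeomorph.measurableEmbedding _)
    (fun p => F (p.2.1 • p.1.1))
  rw [h1]
  have h3 : ∀ x : ({(0 : ℝ × ℝ × ℝ)}ᶜ : Set (ℝ × ℝ × ℝ)),
      F (((homeomorphUnitSphereProd (ℝ × ℝ × ℝ)) x).2.1 • ((homeomorphUnitSphereProd (ℝ × ℝ × ℝ)) x).1.1)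
        = F x.1 := by
    intro x
    have hx : ‖x.1‖ ≠ 0 := norm_ne_zero_iff.2 x.2
    simp [smul_smul, hx]
  simp_rw [h3] at h2
  rw [h2, lintegral_prod]
  exact (hF.comp (by fun_prop)).aemeasurable

lemma integral_K1 : ∫ s in Ioi (0:ℝ), s ^ 3 * Real.exp (-(s ^ 2) / 2) = 2 := by
  have h := integral_rpow_mul_exp_neg_mul_rpow (p := 2) (q := 3) (b := 1/2) (by norm_num)
    (by norm_num) (by norm_num)
  have h2 : ∀ s : ℝ, s ^ (3:ℝ) * Real.exp (-(1/2) * s ^ (2:ℝ)) = s ^ 3 * Real.exp (-(s ^ 2) / 2) := by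
    intro s
    rw [show (3:ℝ) = ((3:ℕ):ℝ) by norm_num, show (2:ℝ) = ((2:ℕ):ℝ) by norm_num, Real.rpow_natCast,
      Real.rpow_natCast]
    congr 2
    push_cast
    ring
  simp_rw [h2] at h
  rw [h]
  rw [show -(3 + 1) / (2:ℝ) = ((-2 : ℤ) : ℝ) by norm_num, Real.rpow_intCast,
    show (3 + 1) / (2:ℝ) = ((1:ℕ):ℝ) + 1 by norm_num, Real.Gamma_nat_eq_factorial]
  norm_num

lemma inv_inv_eq_two_sqrt : (((2:ℝ) * Real.sqrt 2)⁻¹)⁻¹ = 2 * Real.sqrt 2 := inv_inv _

lemma integral_K2 : ∫ s in Ioi (0:ℝ), s ^ 2 * Real.exp (-(s ^ 2) / 2) = Real.sqrt (2 * Real.pi) / 2 := by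
  have h := integral_rpow_mul_exp_neg_mul_rpow (p := 2) (q := 2) (b := 1/2) (by norm_num)
    (by norm_num) (by norm_num)
  have h2 : ∀ s : ℝ, s ^ (2:ℝ) * Real.exp (-(1/2) * s ^ (2:ℝ)) = s ^ 2 * Real.exp (-(s ^ 2) / 2) := by
    intro s
    rw [show (2:ℝ) = ((2:ℕ):ℝ) by norm_num, Real.rpow_natCast]
    congr 2
    push_cast
    ring
  simp_rw [h2] at h
  rw [h]
  have h3 : Real.Gamma ((2 + 1) / 2) = Real.sqrt Real.pi / 2 := by
    rw [show ((2:ℝ) + 1) / 2 = 1 / 2 + 1 by norm_num, Real.Gamma_add_one (by norm_num),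
      Real.Gamma_one_half_eq]
    ring
  rw [h3]
  have h4 : (1 / 2 : ℝ) ^ (-(2 + 1) / (2:ℝ)) = 2 * Real.sqrt 2 := by
    rw [show -(2 + 1) / (2:ℝ) = -(1 + 1/2) by norm_num, Real.rpow_neg (by norm_num),
      Real.rpow_add (by norm_num), Real.rpow_one, ← Real.sqrt_eq_rpow, one_div,
      Real.sqrt_inv, ← mul_inv]
    rw [inv_inv_eq_two_sqrt]
  rw [h4, Real.sqrt_mul (by norm_num)]
  ring

lemma integrableOn_K1 : IntegrableOn (fun s : ℝ => s ^ 3 * Real.exp (-(s ^ 2) / 2)) (Ioi 0) := by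
  by_contra h
  have := integral_undef h
  rw [integral_K1] at this
  norm_num at this

lemma integrableOn_K2 : IntegrableOn (fun s : ℝ => s ^ 2 * Real.exp (-(s ^ 2) / 2)) (Ioi 0) := by
  by_contra h
  have := integral_undef h
  rw [integral_K2] at this
  have hpos : 0 < Real.sqrt (2 * Real.pi) := Real.sqrt_pos.2 (by positivity)
  linarith

lemma lintegral_volIoi (g : ℝ → ℝ) (hg : Measurable g) (hpos : ∀ r, 0 < r → 0 ≤ g r)
    (hint : IntegrableOn (fun r => r ^ 2 * g r) (Ioi 0)) :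
    ∫⁻ r : Ioi (0:ℝ), ENNReal.ofReal (g r.1) ∂(Measure.volumeIoiPow 2)
      = ENNReal.ofReal (∫ r in Ioi (0:ℝ), r ^ 2 * g r) := by
  unfold Measure.volumeIoiPow
  rw [lintegral_withDensity_eq_lintegral_mul _ (by fun_prop) (by fun_prop)]
  have h1 : ∀ r : Ioi (0:ℝ), ((fun r : Ioi (0:ℝ) => ENNReal.ofReal (r.1 ^ 2)) *
      fun r : Ioi (0:ℝ) => ENNReal.ofReal (g r.1)) r = ENNReal.ofReal (r.1 ^ 2 * g r.1) := by
    intro r
    rw [Pi.mul_apply, ENNReal.ofReal_mul (by positivity)]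
  simp_rw [h1]
  rw [lintegral_subtype_comap measurableSet_Ioi (fun r : ℝ => ENNReal.ofReal (r ^ 2 * g r)),
    ofReal_integral_eq_lintegral_ofReal hint]
  rw [EventuallyLE, ae_restrict_iff' measurableSet_Ioi]
  exact Eventually.of_forall fun r hr => mul_nonneg (by positivity) (hpos r hr)

/-- the constant `E |x|` in dimension three -/
noncomputable def kap3 : ℝ := 4 / Real.sqrt (2 * Real.pi)

lemma kap3_pos : 0 < kap3 := by
  unfold kap3
  have : 0 < Real.sqrt (2 * Real.pi) := Real.sqrt_pos.2 (by positivity)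
  positivity

lemma radial_ratio (ρ c : ℝ) (hρ : 0 < ρ) (hc : 0 ≤ c) :
    ∫⁻ r : Ioi (0:ℝ), ENNReal.ofReal ((r.1 * ρ) * (c * Real.exp (-(r.1 * ρ) ^ 2 / 2)))
        ∂(Measure.volumeIoiPow 2)
      = ENNReal.ofReal kap3 * ∫⁻ r : Ioi (0:ℝ), ENNReal.ofReal (c * Real.exp (-(r.1 * ρ) ^ 2 / 2))
        ∂(Measure.volumeIoiPow 2) := by
  have e1 : ∀ r : ℝ, r ^ 2 * ((r * ρ) * (c * Real.exp (-(r * ρ) ^ 2 / 2)))
      = (c * (ρ ^ 2)⁻¹) * ((r * ρ) ^ 3 * Real.exp (-((r * ρ) ^ 2) / 2)) := by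
    intro r; field_simp
  have e2 : ∀ r : ℝ, r ^ 2 * (c * Real.exp (-(r * ρ) ^ 2 / 2))
      = (c * (ρ ^ 2)⁻¹) * ((r * ρ) ^ 2 * Real.exp (-((r * ρ) ^ 2) / 2)) := by
    intro r; field_simp
  have i1 : IntegrableOn (fun r : ℝ => r ^ 2 * ((r * ρ) * (c * Real.exp (-(r * ρ) ^ 2 / 2)))) (Ioi 0) := by
    simp_rw [e1]
    refine Integrable.const_mul ?_ _
    have := (integrableOn_Ioi_comp_mul_right_iff (fun s : ℝ => s ^ 3 * Real.exp (-(s ^ 2) / 2)) 0 hρ).2
      (by simpa using integrableOn_K1)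
    exact this
  have i2 : IntegrableOn (fun r : ℝ => r ^ 2 * (c * Real.exp (-(r * ρ) ^ 2 / 2))) (Ioi 0) := by
    simp_rw [e2]
    refine Integrable.const_mul ?_ _
    have := (integrableOn_Ioi_comp_mul_right_iff (fun s : ℝ => s ^ 2 * Real.exp (-(s ^ 2) / 2)) 0 hρ).2
      (by simpa using integrableOn_K2)
    exact this
  rw [lintegral_volIoi (fun r => (r * ρ) * (c * Real.exp (-(r * ρ) ^ 2 / 2))) (by fun_prop)
      (fun r hr => by positivity) i1,
    lintegral_volIoi (fun r => (c * Real.exp (-(r * ρ) ^ 2 / 2))) (by fun_prop)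
      (fun r hr => by positivity) i2, ← ENNReal.ofReal_mul kap3_pos.le]
  congr 1
  simp_rw [e1, e2]
  rw [integral_const_mul, integral_const_mul,
    integral_comp_mul_right_Ioi (fun s : ℝ => s ^ 3 * Real.exp (-(s ^ 2) / 2)) 0 hρ,
    integral_comp_mul_right_Ioi (fun s : ℝ => s ^ 2 * Real.exp (-(s ^ 2) / 2)) 0 hρ, zero_mul,
    integral_K1, integral_K2]
  unfold kap3
  have : 0 < Real.sqrt (2 * Real.pi) := Real.sqrt_pos.2 (by positivity)
  simp only [smul_eq_mul]
  field_simp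
  ring

theorem cone_rad (A : Set (ℝ × ℝ × ℝ)) (hA : MeasurableSet A)
    (hcone : ∀ t : ℝ, 0 < t → ∀ x, (t • x ∈ A ↔ x ∈ A)) :
    ∫⁻ x in A, ENNReal.ofReal (rad3 x) ∂mu3 = ENNReal.ofReal kap3 * mu3 A := by
  have hr := continuous_rad3
  have hd := continuous_dens3
  rw [mu3_eq, withDensity_apply _ hA, ← lintegral_indicator hA, ← lintegral_indicator hA,
    lintegral_withDensity_eq_lintegral_mul _ (by fun_prop)
      ((by fun_prop : Measurable fun x => ENNReal.ofReal (rad3 x)).indicator hA)]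
  rw [lintegral_polar3 _ (by
      exact (by fun_prop : Measurable fun x => ENNReal.ofReal (dens3 x)).mul
        ((by fun_prop : Measurable fun x => ENNReal.ofReal (rad3 x)).indicator hA)),
    lintegral_polar3 _ ((by fun_prop : Measurable fun x => ENNReal.ofReal (dens3 x)).indicator hA),
    ← lintegral_const_mul']
  · congr 1
    ext θ
    have hθ : θ.1 ≠ 0 := by
      intro h
      have := θ.2
      rw [h] at this
      simp at this
    have hρ := rad3_pos θ.1 hθ
    by_cases hθA : θ.1 ∈ A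
    · have h1 : ∀ r : Ioi (0:ℝ), ((fun x => ENNReal.ofReal (dens3 x)) *
          A.indicator fun x => ENNReal.ofReal (rad3 x)) (r.1 • θ.1)
          = ENNReal.ofReal ((r.1 * rad3 θ.1) * ((Real.sqrt (2 * Real.pi))⁻¹ ^ 3
            * Real.exp (-(r.1 * rad3 θ.1) ^ 2 / 2))) := by
        intro r
        have hr0 : (0:ℝ) < r.1 := r.2
        have hm : r.1 • θ.1 ∈ A := (hcone r.1 hr0 θ.1).2 hθA
        rw [Pi.mul_apply, indicator_of_mem hm, ← ENNReal.ofReal_mul (by unfold dens3; positivity)]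
        congr 1
        unfold dens3
        rw [rad3_smul r.1 hr0.le]
        ring
      have h2 : ∀ r : Ioi (0:ℝ), (A.indicator fun x => ENNReal.ofReal (dens3 x)) (r.1 • θ.1)
          = ENNReal.ofReal (((Real.sqrt (2 * Real.pi))⁻¹ ^ 3
            * Real.exp (-(r.1 * rad3 θ.1) ^ 2 / 2))) := by
        intro r
        have hr0 : (0:ℝ) < r.1 := r.2
        have hm : r.1 • θ.1 ∈ A := (hcone r.1 hr0 θ.1).2 hθA
        rw [indicator_of_mem hm]
        congr 1
        unfold dens3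
        rw [rad3_smul r.1 hr0.le]
      simp_rw [h1, h2]
      exact radial_ratio _ _ hρ (by positivity)
    · have h1 : ∀ r : Ioi (0:ℝ), ((fun x => ENNReal.ofReal (dens3 x)) *
          A.indicator fun x => ENNReal.ofReal (rad3 x)) (r.1 • θ.1) = 0 := by
        intro r
        have hr0 : (0:ℝ) < r.1 := r.2
        have hm : r.1 • θ.1 ∉ A := fun h => hθA ((hcone r.1 hr0 θ.1).1 h)
        rw [Pi.mul_apply, indicator_of_notMem hm, mul_zero]
      have h2 : ∀ r : Ioi (0:ℝ), (A.indicator fun x => ENNReal.ofReal (dens3 x)) (r.1 • θ.1)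
          = 0 := by
        intro r
        have hr0 : (0:ℝ) < r.1 := r.2
        have hm : r.1 • θ.1 ∉ A := fun h => hθA ((hcone r.1 hr0 θ.1).1 h)
        rw [indicator_of_notMem hm]
      simp_rw [h1, h2]
      simp
  · exact ENNReal.ofReal_ne_top


/-! ### caps -/

lemma g2_eq : (gaussianReal 0 1).prod (gaussianReal 0 1)
    = (volume : Measure (ℝ × ℝ)).withDensity
      (fun y => ENNReal.ofReal ((2 * Real.pi)⁻¹ * Real.exp (-(y.1 ^ 2 + y.2 ^ 2) / 2))) := by
  have h1 : (1 : NNReal) ≠ 0 := by simp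
  rw [gaussianReal_of_var_ne_zero 0 h1, prod_withDensity (by fun_prop) (by fun_prop)]
  congr 1
  ext x
  simp only [gaussianPDF]
  rw [← ENNReal.ofReal_mul (gaussianPDFReal_nonneg _ _ _)]
  congr 1
  simp only [gaussianPDFReal]
  rw [show -(x.1 ^ 2 + x.2 ^ 2) / 2 = -x.1 ^ 2 / 2 + (-x.2 ^ 2 / 2) by ring, Real.exp_add]
  simp only [NNReal.coe_one, mul_one, sub_zero]
  have hs : (Real.sqrt (2 * Real.pi))⁻¹ * (Real.sqrt (2 * Real.pi))⁻¹ = (2 * Real.pi)⁻¹ := by
    rw [← mul_inv, Real.mul_self_sqrt (by positivity)]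
  rw [← hs]
  ring

lemma integral_ball_aux (s : ℝ) (hs : 0 ≤ s) :
    ∫ r in Ioc 0 (Real.sqrt s), r * Real.exp (-(r ^ 2) / 2) = 1 - Real.exp (-s / 2) := by
  rw [← intervalIntegral.integral_of_le (Real.sqrt_nonneg s)]
  have h : ∀ r ∈ uIcc 0 (Real.sqrt s), HasDerivAt (fun r : ℝ => -Real.exp (-(r ^ 2) / 2))
      (r * Real.exp (-(r ^ 2) / 2)) r := by
    intro r _
    have h1 : HasDerivAt (fun t : ℝ => -(t ^ 2) / 2) (-r) r := by
      have h := ((hasDerivAt_pow 2 r).neg).div_const 2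
      have e : (-(((2 : ℕ) : ℝ) * r ^ (2 - 1)) / 2) = -r := by norm_num; ring
      rw [e] at h
      exact h
    have h2 := h1.exp.neg
    have e : -(Real.exp (-(r ^ 2) / 2) * -r) = r * Real.exp (-(r ^ 2) / 2) := by ring
    rw [e] at h2
    exact h2
  rw [intervalIntegral.integral_eq_sub_of_hasDerivAt h
    ((by fun_prop : Continuous fun r : ℝ => r * Real.exp (-(r ^ 2) / 2)).intervalIntegrable _ _)]
  rw [Real.sq_sqrt hs]
  simp
  ring

lemma g2_ball (s : ℝ) (hs : 0 ≤ s) :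
    ((gaussianReal 0 1).prod (gaussianReal 0 1)) {y : ℝ × ℝ | y.1 ^ 2 + y.2 ^ 2 < s}
      = ENNReal.ofReal (1 - Real.exp (-s / 2)) := by
  have hm : MeasurableSet {y : ℝ × ℝ | y.1 ^ 2 + y.2 ^ 2 < s} :=
    measurableSet_lt (by fun_prop) (by fun_prop)
  rw [g2_eq, withDensity_apply _ hm, ← lintegral_indicator hm, ← lintegral_comp_polarCoord_symm]
  have ht : polarCoord.target = Ioi (0:ℝ) ×ˢ Ioo (-Real.pi) Real.pi := rfl
  rw [ht]
  have h1 : ∀ p ∈ Ioi (0:ℝ) ×ˢ Ioo (-Real.pi) Real.pi,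
      ENNReal.ofReal p.1 • ({y : ℝ × ℝ | y.1 ^ 2 + y.2 ^ 2 < s}.indicator
        (fun y => ENNReal.ofReal ((2 * Real.pi)⁻¹ * Real.exp (-(y.1 ^ 2 + y.2 ^ 2) / 2)))
          (polarCoord.symm p))
      = (Ioo (0:ℝ) (Real.sqrt s)).indicator
        (fun r => ENNReal.ofReal ((2 * Real.pi)⁻¹ * (r * Real.exp (-(r ^ 2) / 2)))) p.1 := by
    intro p hp
    have hp0 : (0:ℝ) < p.1 := hp.1
    have hsymm : polarCoord.symm p = (p.1 * Real.cos p.2, p.1 * Real.sin p.2) := rfl
    have hsq : (p.1 * Real.cos p.2) ^ 2 + (p.1 * Real.sin p.2) ^ 2 = p.1 ^ 2 := by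
      have := Real.cos_sq_add_sin_sq p.2
      nlinarith
    rw [hsymm]
    by_cases hlt : p.1 ^ 2 < s
    · have hmem : ((p.1 * Real.cos p.2, p.1 * Real.sin p.2) : ℝ × ℝ)
          ∈ {y : ℝ × ℝ | y.1 ^ 2 + y.2 ^ 2 < s} := by
        simp only [mem_ofPred_eq, hsq]; exact hlt
      have hmem2 : p.1 ∈ Ioo (0:ℝ) (Real.sqrt s) := ⟨hp0, (Real.lt_sqrt hp0.le).2 hlt⟩
      rw [indicator_of_mem hmem, indicator_of_mem hmem2, smul_eq_mul, ← ENNReal.ofReal_mul hp0.le]
      simp only [hsq]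
      congr 1
      ring
    · have hmem : ((p.1 * Real.cos p.2, p.1 * Real.sin p.2) : ℝ × ℝ)
          ∉ {y : ℝ × ℝ | y.1 ^ 2 + y.2 ^ 2 < s} := by
        simp only [mem_ofPred_eq, hsq]; exact hlt
      have hmem2 : p.1 ∉ Ioo (0:ℝ) (Real.sqrt s) := fun h => hlt ((Real.lt_sqrt hp0.le).1 h.2)
      rw [indicator_of_notMem hmem, indicator_of_notMem hmem2, smul_zero]
  rw [setLIntegral_congr_fun (measurableSet_Ioi.prod measurableSet_Ioo) h1]
  rw [Measure.volume_eq_prod, ← Measure.prod_restrict]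
  have hmeas : Measurable (fun r : ℝ => (Ioo (0:ℝ) (Real.sqrt s)).indicator
        (fun r => ENNReal.ofReal ((2 * Real.pi)⁻¹ * (r * Real.exp (-(r ^ 2) / 2)))) r) :=
    (by fun_prop : Measurable fun r : ℝ =>
      ENNReal.ofReal ((2 * Real.pi)⁻¹ * (r * Real.exp (-(r ^ 2) / 2)))).indicator measurableSet_Ioo
  have hmeas2 : AEMeasurable (fun x : ℝ × ℝ => (Ioo (0:ℝ) (Real.sqrt s)).indicator
        (fun r => ENNReal.ofReal ((2 * Real.pi)⁻¹ * (r * Real.exp (-(r ^ 2) / 2)))) x.1)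
      (((volume : Measure ℝ).restrict (Ioi 0)).prod
        ((volume : Measure ℝ).restrict (Ioo (-Real.pi) Real.pi))) :=
    (hmeas.comp measurable_fst).aemeasurable
  rw [lintegral_prod _ hmeas2]
  simp only [lintegral_const, Measure.restrict_apply MeasurableSet.univ, univ_inter, Real.volume_Ioo]
  rw [lintegral_mul_const _ hmeas, lintegral_indicator measurableSet_Ioo,
    Measure.restrict_restrict measurableSet_Ioo,
    show Ioo (0:ℝ) (Real.sqrt s) ∩ Ioi 0 = Ioo 0 (Real.sqrt s) from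
      inter_eq_left.2 fun x hx => hx.1,
    restrict_Ioo_eq_restrict_Ioc, ← ofReal_integral_eq_lintegral_ofReal, integral_const_mul,
    integral_ball_aux s hs, ← ENNReal.ofReal_mul]
  · congr 1
    field_simp
    ring
  · have : Real.exp (-s / 2) ≤ 1 := Real.exp_le_one_iff.2 (by linarith)
    have : 0 ≤ 1 - Real.exp (-s / 2) := by linarith
    positivity
  · exact ((by fun_prop : Continuous fun r : ℝ => (2 * Real.pi)⁻¹ * (r * Real.exp (-(r ^ 2) / 2))).integrableOn_Icc).mono_set Ioc_subset_Icc_self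
  · rw [EventuallyLE, ae_restrict_iff' measurableSet_Ioc]
    exact Eventually.of_forall fun r hr => by
      have := hr.1
      positivity


lemma integral_gphi_Ioi (c : ℝ) (hc : 0 ≤ c) :
    ∫ a in Ioi (0:ℝ), gphi a * Real.exp (-(c * a ^ 2) / 2) = (Real.sqrt (1 + c))⁻¹ / 2 := by
  have h1 : ∀ a : ℝ, gphi a * Real.exp (-(c * a ^ 2) / 2)
      = (Real.sqrt (2 * Real.pi))⁻¹ * Real.exp (-((1 + c) / 2) * a ^ 2) := by
    intro a
    unfold gphi
    rw [div_mul_eq_mul_div, ← Real.exp_add, div_eq_inv_mul]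
    congr 2
    ring
  simp_rw [h1]
  rw [integral_const_mul, integral_gaussian_Ioi]
  have h2 : Real.sqrt (Real.pi / ((1 + c) / 2)) = Real.sqrt (2 * Real.pi) / Real.sqrt (1 + c) := by
    rw [← Real.sqrt_div (by positivity)]
    congr 1
    field_simp
  rw [h2]
  have h3 : 0 < Real.sqrt (2 * Real.pi) := Real.sqrt_pos.2 (by positivity)
  have h4 : 0 < Real.sqrt (1 + c) := Real.sqrt_pos.2 (by positivity)
  field_simp

lemma cap_measure (u : ℝ) (hu0 : 0 < u) (hu1 : u < 1) :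
    mu3 {x | u * rad3 x < x.1} = ENNReal.ofReal ((1 - u) / 2) := by
  have hr := continuous_rad3
  have hm : MeasurableSet {x : ℝ × ℝ × ℝ | u * rad3 x < x.1} :=
    measurableSet_lt (by fun_prop) (by fun_prop)
  set c : ℝ := (1 - u ^ 2) / u ^ 2 with hc
  have hc0 : 0 ≤ c := by
    rw [hc]; apply div_nonneg _ (by positivity); nlinarith
  unfold mu3
  rw [Measure.prod_apply hm]
  have h1 : ∀ a : ℝ, ((gaussianReal 0 1).prod (gaussianReal 0 1))
      (Prod.mk a ⁻¹' {x : ℝ × ℝ × ℝ | u * rad3 x < x.1})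
      = (Ioi (0:ℝ)).indicator (fun a => ENNReal.ofReal (1 - Real.exp (-(c * a ^ 2) / 2))) a := by
    intro a
    by_cases ha : 0 < a
    · rw [indicator_of_mem (show a ∈ Ioi (0:ℝ) from ha), ← g2_ball (c * a ^ 2) (by positivity)]
      congr 1
      ext y
      simp only [mem_preimage, mem_ofPred_eq]
      unfold rad3
      simp only
      rw [← lt_div_iff₀' hu0, Real.sqrt_lt' (by positivity), div_pow, lt_div_iff₀ (by positivity)]
      have : c * a ^ 2 = (a ^ 2 - a ^ 2 * u ^ 2) / u ^ 2 := by rw [hc]; ring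
      rw [this, lt_div_iff₀ (by positivity)]
      constructor <;> intro h <;> nlinarith
    · rw [indicator_of_notMem (show a ∉ Ioi (0:ℝ) from ha)]
      have : Prod.mk a ⁻¹' {x : ℝ × ℝ × ℝ | u * rad3 x < x.1} = ∅ := by
        ext y
        simp only [mem_preimage, mem_ofPred_eq, mem_empty_iff_false, iff_false, not_lt]
        push Not at ha
        exact ha.trans (mul_nonneg hu0.le (rad3_nonneg _))
      rw [this, measure_empty]
  simp_rw [h1]
  rw [lintegral_indicator measurableSet_Ioi, gaussianReal_of_var_ne_zero 0 (by simp),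
    restrict_withDensity measurableSet_Ioi, lintegral_withDensity_eq_lintegral_mul _ (by fun_prop) (by fun_prop)]
  have h2 : ∀ a : ℝ, ((gaussianPDF 0 1) * fun a => ENNReal.ofReal (1 - Real.exp (-(c * a ^ 2) / 2))) a
      = ENNReal.ofReal (gphi a - gphi a * Real.exp (-(c * a ^ 2) / 2)) := by
    intro a
    rw [Pi.mul_apply, gaussianPDF, ← ENNReal.ofReal_mul (gaussianPDFReal_nonneg _ _ _), ← gphi_eq_pdf]
    congr 1
    ring
  simp_rw [h2]
  have hexp : ∀ a : ℝ, Real.exp (-(c * a ^ 2) / 2) ≤ 1 := fun a =>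
    Real.exp_le_one_iff.2 (by have := mul_nonneg hc0 (sq_nonneg a); linarith)
  have i1 : IntegrableOn gphi (Ioi 0) := integrable_gphi.integrableOn
  have i2 : IntegrableOn (fun a => gphi a * Real.exp (-(c * a ^ 2) / 2)) (Ioi 0) := by
    refine i1.mono' ?_ ?_
    · have := continuous_gphi
      exact (by fun_prop : Continuous fun a : ℝ => gphi a * Real.exp (-(c * a ^ 2) / 2)).aestronglyMeasurable
    · refine Eventually.of_forall fun a => ?_
      rw [Real.norm_eq_abs, abs_of_nonneg (by have := gphi_pos a; positivity)]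
      exact mul_le_of_le_one_right (gphi_pos a).le (hexp a)
  have i3 : IntegrableOn (fun a => gphi a - gphi a * Real.exp (-(c * a ^ 2) / 2)) (Ioi 0) := i1.sub i2
  rw [← ofReal_integral_eq_lintegral_ofReal i3, integral_sub i1 i2, integral_gphi_Ioi c hc0]
  · have h0 := integral_gphi_Ioi 0 le_rfl
    simp only [zero_mul, neg_zero, zero_div, Real.exp_zero, mul_one, add_zero, Real.sqrt_one, inv_one] at h0
    rw [h0]
    have h5 : Real.sqrt (1 + c) = 1 / u := by
      have : 1 + c = (1 / u) ^ 2 := by rw [hc]; field_simp; ring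
      rw [this, Real.sqrt_sq (by positivity)]
    rw [h5]
    congr 1
    field_simp
  · refine Eventually.of_forall fun a => ?_
    have h6 := gphi_pos a
    have h7 := hexp a
    simp only [Pi.zero_apply]
    nlinarith

lemma layer_aux (R a τ : ℝ) (hR : 0 ≤ R) (ha : a ≤ R) (hτ : 0 ≤ τ) (ha0 : R = 0 → a = 0) :
    ENNReal.ofReal (a - τ * R)
      = ∫⁻ u in Ioo τ 1, {u : ℝ | u * R < a}.indicator (fun _ => ENNReal.ofReal R) u := by
  have hm : MeasurableSet {u : ℝ | u * R < a} := measurableSet_lt (by fun_prop) (by fun_prop)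
  rw [lintegral_indicator_const hm, Measure.restrict_apply hm]
  rcases hR.eq_or_lt with h0 | hpos
  · rw [← h0, ha0 h0.symm]; simp
  · have hset : {u : ℝ | u * R < a} ∩ Ioo τ 1 = Ioo τ (a / R) := by
      ext u
      simp only [mem_inter_iff, mem_ofPred_eq, mem_Ioo, lt_div_iff₀ hpos]
      constructor
      · rintro ⟨h1, h2, h3⟩; exact ⟨h2, h1⟩
      · rintro ⟨h1, h2⟩
        refine ⟨h2, h1, ?_⟩
        by_contra h
        push Not at h
        nlinarith
    rw [hset, Real.volume_Ioo, ← ENNReal.ofReal_mul hR]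
    congr 1
    field_simp

lemma fst_le_rad3 (x : ℝ × ℝ × ℝ) : |x.1| ≤ rad3 x := by
  unfold rad3
  rw [← Real.sqrt_sq_eq_abs]
  exact Real.sqrt_le_sqrt (by nlinarith [sq_nonneg x.2.1, sq_nonneg x.2.2])

lemma lint_J (τ : ℝ) (hτ0 : 0 ≤ τ) (hτ1 : τ ≤ 1) :
    ∫⁻ x, ENNReal.ofReal (x.1 - τ * rad3 x) ∂mu3 = ENNReal.ofReal (kap3 * ((1 - τ) ^ 2 / 4)) := by
  have hr := continuous_rad3
  have h1 : ∀ x : ℝ × ℝ × ℝ, ENNReal.ofReal (x.1 - τ * rad3 x)
      = ∫⁻ u in Ioo τ 1, {u : ℝ | u * rad3 x < x.1}.indicator (fun _ => ENNReal.ofReal (rad3 x)) u := by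
    intro x
    refine layer_aux _ _ _ (rad3_nonneg x) ((le_abs_self _).trans (fst_le_rad3 x)) hτ0 ?_
    intro h
    have := fst_le_rad3 x
    rw [h] at this
    exact abs_eq_zero.1 (le_antisymm this (abs_nonneg _))
  simp_rw [h1]
  have hS : MeasurableSet {q : (ℝ × ℝ × ℝ) × ℝ | q.2 * rad3 q.1 < q.1.1} :=
    measurableSet_lt (by fun_prop) (by fun_prop)
  have hmeas : Measurable (fun q : (ℝ × ℝ × ℝ) × ℝ => {q : (ℝ × ℝ × ℝ) × ℝ | q.2 * rad3 q.1 < q.1.1}.indicator
      (fun q => ENNReal.ofReal (rad3 q.1)) q) :=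
    (by fun_prop : Measurable fun q : (ℝ × ℝ × ℝ) × ℝ => ENNReal.ofReal (rad3 q.1)).indicator hS
  have hswap := lintegral_lintegral_swap (μ := mu3) (ν := (volume : Measure ℝ).restrict (Ioo τ 1))
    (f := fun x u => {q : (ℝ × ℝ × ℝ) × ℝ | q.2 * rad3 q.1 < q.1.1}.indicator
      (fun q => ENNReal.ofReal (rad3 q.1)) (x, u)) hmeas.aemeasurable
  have e1 : ∀ (x : ℝ × ℝ × ℝ) (u : ℝ), {q : (ℝ × ℝ × ℝ) × ℝ | q.2 * rad3 q.1 < q.1.1}.indicator
      (fun q => ENNReal.ofReal (rad3 q.1)) (x, u)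
      = {u : ℝ | u * rad3 x < x.1}.indicator (fun _ => ENNReal.ofReal (rad3 x)) u := by
    intro x u
    simp only [indicator_apply, mem_ofPred_eq]
  have e2 : ∀ (x : ℝ × ℝ × ℝ) (u : ℝ), {q : (ℝ × ℝ × ℝ) × ℝ | q.2 * rad3 q.1 < q.1.1}.indicator
      (fun q => ENNReal.ofReal (rad3 q.1)) (x, u)
      = {x : ℝ × ℝ × ℝ | u * rad3 x < x.1}.indicator (fun x => ENNReal.ofReal (rad3 x)) x := by
    intro x u
    simp only [indicator_apply, mem_ofPred_eq]
  have hswap2 : ∫⁻ x, (∫⁻ u in Ioo τ 1,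
      {u : ℝ | u * rad3 x < x.1}.indicator (fun _ => ENNReal.ofReal (rad3 x)) u) ∂mu3
      = ∫⁻ u in Ioo τ 1, (∫⁻ x, {x : ℝ × ℝ × ℝ | u * rad3 x < x.1}.indicator
        (fun x => ENNReal.ofReal (rad3 x)) x ∂mu3) := by
    simp_rw [← e1, ← e2]
    exact hswap
  rw [hswap2]
  have h3 : ∀ u ∈ Ioo τ 1, ∫⁻ x, {x : ℝ × ℝ × ℝ | u * rad3 x < x.1}.indicator
        (fun x => ENNReal.ofReal (rad3 x)) x ∂mu3 = ENNReal.ofReal (kap3 * ((1 - u) / 2)) := by
    intro u hu
    have hu0 : 0 < u := lt_of_le_of_lt hτ0 hu.1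
    have hm : MeasurableSet {x : ℝ × ℝ × ℝ | u * rad3 x < x.1} :=
      measurableSet_lt (by fun_prop) (by fun_prop)
    rw [lintegral_indicator hm, cone_rad _ hm, cap_measure u hu0 hu.2, ← ENNReal.ofReal_mul kap3_pos.le]
    intro t ht x
    simp only [mem_ofPred_eq, rad3_smul t ht.le, Prod.smul_fst, smul_eq_mul]
    constructor
    · intro h
      have : t * (u * rad3 x) < t * x.1 := by linarith
      exact lt_of_mul_lt_mul_left this ht.le
    · intro h
      have := mul_lt_mul_of_pos_left h ht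
      linarith
  rw [setLIntegral_congr_fun measurableSet_Ioo h3, restrict_Ioo_eq_restrict_Ioc,
    ← ofReal_integral_eq_lintegral_ofReal]
  · congr 1
    rw [← intervalIntegral.integral_of_le hτ1]
    have h4 : ∀ u ∈ uIcc τ 1, HasDerivAt (fun u : ℝ => -(kap3 * ((1 - u) ^ 2 / 4)))
        (kap3 * ((1 - u) / 2)) u := by
      intro u _
      have := (((((hasDerivAt_id u).const_sub 1).pow 2).div_const 4).const_mul kap3).neg
      have e : -(kap3 * (((2:ℕ):ℝ) * (1 - id u) ^ (2 - 1) * -1 / 4)) = kap3 * ((1 - u) / 2) := by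
        simp only [id]
        push_cast
        ring
      rw [e] at this
      exact this
    rw [intervalIntegral.integral_eq_sub_of_hasDerivAt h4
      ((by fun_prop : Continuous fun u : ℝ => kap3 * ((1 - u) / 2)).intervalIntegrable _ _)]
    ring
  · exact ((by fun_prop : Continuous fun u : ℝ => kap3 * ((1 - u) / 2)).integrableOn_Icc).mono_set Ioc_subset_Icc_self
  · rw [EventuallyLE, ae_restrict_iff' measurableSet_Ioc]
    exact Eventually.of_forall fun u hu => mul_nonneg kap3_pos.le (by linarith [hu.2])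

lemma integrable_rad3 : Integrable rad3 mu3 := by
  have hr := continuous_rad3
  have h := cone_rad univ MeasurableSet.univ (fun t _ x => by simp)
  rw [Measure.restrict_univ, measure_univ, mul_one] at h
  refine (lintegral_ofReal_ne_top_iff_integrable hr.aestronglyMeasurable
    (Eventually.of_forall fun x => rad3_nonneg x)).1 ?_
  rw [h]
  exact ENNReal.ofReal_ne_top

lemma integrable_fst3 : Integrable (fun x : ℝ × ℝ × ℝ => x.1) mu3 :=
  integrable_rad3.mono' (by fun_prop) (Eventually.of_forall fun x => fst_le_rad3 x)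

lemma integral_cone_rad (A : Set (ℝ × ℝ × ℝ)) (hA : MeasurableSet A)
    (hcone : ∀ t : ℝ, 0 < t → ∀ x, (t • x ∈ A ↔ x ∈ A)) :
    ∫ x in A, rad3 x ∂mu3 = kap3 * mu3.real A := by
  rw [integral_eq_lintegral_of_nonneg_ae (Eventually.of_forall fun x => rad3_nonneg x)
    continuous_rad3.aestronglyMeasurable, cone_rad A hA hcone, ENNReal.toReal_mul,
    ENNReal.toReal_ofReal kap3_pos.le]
  rfl

theorem cone3_le (A : Set (ℝ × ℝ × ℝ)) (hA : MeasurableSet A)
    (hcone : ∀ t : ℝ, 0 < t → ∀ x, (t • x ∈ A ↔ x ∈ A)) (τ : ℝ) (hτ0 : 0 ≤ τ) (hτ1 : τ ≤ 1) :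
    ∫ x in A, x.1 ∂mu3 ≤ kap3 * ((1 - τ) ^ 2 / 4) + τ * (kap3 * mu3.real A) := by
  have hr := continuous_rad3
  have hi1 := integrable_fst3
  have hi2 := integrable_rad3.const_mul τ
  have hi3 : Integrable (fun x : ℝ × ℝ × ℝ => x.1 - τ * rad3 x) mu3 := hi1.sub hi2
  have e1 : ∫ x in A, x.1 ∂mu3 = ∫ x in A, (x.1 - τ * rad3 x) ∂mu3 + τ * ∫ x in A, rad3 x ∂mu3 := by
    rw [← integral_const_mul, ← integral_add hi3.integrableOn hi2.integrableOn]
    congr 1
    ext x
    ring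
  have hi4 : Integrable (fun x : ℝ × ℝ × ℝ => max (x.1 - τ * rad3 x) 0) mu3 := hi3.pos_part
  have e2 : ∫ x in A, (x.1 - τ * rad3 x) ∂mu3 ≤ ∫ x, max (x.1 - τ * rad3 x) 0 ∂mu3 := by
    calc ∫ x in A, (x.1 - τ * rad3 x) ∂mu3 ≤ ∫ x in A, max (x.1 - τ * rad3 x) 0 ∂mu3 :=
          integral_mono hi3.integrableOn hi4.integrableOn (fun x => le_max_left _ _)
      _ ≤ ∫ x, max (x.1 - τ * rad3 x) 0 ∂mu3 :=
          setIntegral_le_integral hi4 (Eventually.of_forall fun x => le_max_right _ _)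
  have e3 : ∫ x, max (x.1 - τ * rad3 x) 0 ∂mu3 = kap3 * ((1 - τ) ^ 2 / 4) := by
    rw [integral_eq_lintegral_of_nonneg_ae (f := fun x : ℝ × ℝ × ℝ => max (x.1 - τ * rad3 x) 0)
      (Eventually.of_forall fun x => le_max_right _ _) hi4.1]
    have : ∀ x : ℝ × ℝ × ℝ, ENNReal.ofReal (max (x.1 - τ * rad3 x) 0)
        = ENNReal.ofReal (x.1 - τ * rad3 x) := by
      intro x
      rcases le_total (x.1 - τ * rad3 x) 0 with h | h
      · rw [max_eq_right h, ENNReal.ofReal_of_nonpos h, ENNReal.ofReal_zero]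
      · rw [max_eq_left h]
    simp_rw [this]
    rw [lint_J τ hτ0 hτ1, ENNReal.toReal_ofReal]
    have := kap3_pos
    positivity
  rw [e1, integral_cone_rad A hA hcone]
  linarith

section final
variable {E : Type*} [NormedAddCommGroup E] [InnerProductSpace ℝ E] [FiniteDimensional ℝ E]
  [MeasurableSpace E] [BorelSpace E]

theorem cone_three_half (b : Fin 3 → E) (hb : Orthonormal ℝ b) (A : Set E) (hA : MeasurableSet A)
    (hcyl : ∀ x y, (∀ i, ⟪b i, x⟫ = ⟪b i, y⟫) → (x ∈ A ↔ y ∈ A))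
    (hcone : ∀ t : ℝ, 0 < t → ∀ x, (t • x ∈ A ↔ x ∈ A)) (hp : (stdGaussian E).real A ≤ 1 / 2) :
    ∫ x in A, ⟪b 0, x⟫ ∂(stdGaussian E)
      ≤ 4 / Real.sqrt (2 * Real.pi) * ((stdGaussian E).real A * (1 - (stdGaussian E).real A)) := by
  set π3 : E → ℝ × ℝ × ℝ := fun x => (⟪b 0, x⟫, ⟪b 1, x⟫, ⟪b 2, x⟫) with hπ
  set lift : ℝ × ℝ × ℝ → E := fun q => q.1 • b 0 + q.2.1 • b 1 + q.2.2 • b 2 with hlift
  have hπm : Measurable π3 := by fun_prop
  have hlm : Measurable lift := by fun_prop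
  have hmap : (stdGaussian E).map π3 = mu3 := map_coord3 b hb
  set A3 : Set (ℝ × ℝ × ℝ) := lift ⁻¹' A with hA3
  have hA3m : MeasurableSet A3 := hlm hA
  have hin : ∀ (q : ℝ × ℝ × ℝ), ⟪b 0, lift q⟫ = q.1 ∧ ⟪b 1, lift q⟫ = q.2.1 ∧ ⟪b 2, lift q⟫ = q.2.2 := by
    intro q
    have h00 : ⟪b 0, b 0⟫ = 1 := by rw [real_inner_self_eq_norm_sq, hb.1 0]; norm_num
    have h11 : ⟪b 1, b 1⟫ = 1 := by rw [real_inner_self_eq_norm_sq, hb.1 1]; norm_num
    have h22 : ⟪b 2, b 2⟫ = 1 := by rw [real_inner_self_eq_norm_sq, hb.1 2]; norm_num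
    have h01 : ⟪b 0, b 1⟫ = 0 := hb.2 (by decide)
    have h02 : ⟪b 0, b 2⟫ = 0 := hb.2 (by decide)
    have h12 : ⟪b 1, b 2⟫ = 0 := hb.2 (by decide)
    have h10 : ⟪b 1, b 0⟫ = 0 := hb.2 (by decide)
    have h20 : ⟪b 2, b 0⟫ = 0 := hb.2 (by decide)
    have h21 : ⟪b 2, b 1⟫ = 0 := hb.2 (by decide)
    simp only [hlift, inner_add_right, real_inner_smul_right, h00, h11, h22, h01, h02, h12, h10,
      h20, h21]
    refine ⟨by ring, by ring, by ring⟩
  have hpre : π3 ⁻¹' A3 = A := by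
    ext x
    simp only [hA3, mem_preimage]
    apply hcyl
    intro i
    obtain ⟨h0, h1, h2⟩ := hin (π3 x)
    fin_cases i
    · simpa [hπ] using h0
    · simpa [hπ] using h1
    · simpa [hπ] using h2
  have hreal : mu3.real A3 = (stdGaussian E).real A := by
    rw [← hmap, measureReal_def, measureReal_def, Measure.map_apply hπm hA3m, hpre]
  have hint : ∫ x in A, ⟪b 0, x⟫ ∂(stdGaussian E) = ∫ x in A3, x.1 ∂mu3 := by
    rw [← hmap, setIntegral_map hA3m (by fun_prop) hπm.aemeasurable, hpre]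
  have hcone3 : ∀ t : ℝ, 0 < t → ∀ x, (t • x ∈ A3 ↔ x ∈ A3) := by
    intro t ht x
    simp only [hA3, mem_preimage]
    have : lift (t • x) = t • lift x := by
      simp only [hlift, Prod.smul_fst, Prod.smul_snd, smul_eq_mul, smul_add, smul_smul]
    rw [this]
    exact hcone t ht _
  rw [hint]
  set p := (stdGaussian E).real A with hpdef
  have hp0 : 0 ≤ p := measureReal_nonneg
  have h := cone3_le A3 hA3m hcone3 (1 - 2 * p) (by linarith) (by linarith)
  rw [hreal] at h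
  refine h.trans (le_of_eq ?_)
  unfold kap3
  ring

theorem cone_three (b : Fin 3 → E) (hb : Orthonormal ℝ b) (A : Set E) (hA : MeasurableSet A)
    (hcyl : ∀ x y, (∀ i, ⟪b i, x⟫ = ⟪b i, y⟫) → (x ∈ A ↔ y ∈ A))
    (hcone : ∀ t : ℝ, 0 < t → ∀ x, (t • x ∈ A ↔ x ∈ A)) :
    ∫ x in A, ⟪b 0, x⟫ ∂(stdGaussian E)
      ≤ 4 / Real.sqrt (2 * Real.pi) * ((stdGaussian E).real A * (1 - (stdGaussian E).real A)) := by
  by_cases hp : (stdGaussian E).real A ≤ 1 / 2
  · exact cone_three_half b hb A hA hcyl hcone hp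
  · push Not at hp
    set b' : Fin 3 → E := ![-b 0, b 1, b 2] with hb'
    have hbo : Orthonormal ℝ b' := by
      have h01 : ⟪b 0, b 1⟫ = 0 := hb.2 (by decide)
      have h02 : ⟪b 0, b 2⟫ = 0 := hb.2 (by decide)
      have h12 : ⟪b 1, b 2⟫ = 0 := hb.2 (by decide)
      have h10 : ⟪b 1, b 0⟫ = 0 := hb.2 (by decide)
      have h20 : ⟪b 2, b 0⟫ = 0 := hb.2 (by decide)
      have h21 : ⟪b 2, b 1⟫ = 0 := hb.2 (by decide)
      have n0 := hb.1 0
      have n1 := hb.1 1
      have n2 := hb.1 2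
      constructor
      · intro i
        fin_cases i <;> simp [hb', n0, n1, n2]
      · intro i j hij
        fin_cases i <;> fin_cases j <;>
          first
          | (exfalso; exact hij rfl)
          | simp [hb', h01, h02, h12, h10, h20, h21]
    have hcompl : (stdGaussian E).real Aᶜ = 1 - (stdGaussian E).real A := by
      rw [measureReal_compl hA]; simp
    have h := cone_three_half b' hbo Aᶜ hA.compl (by
        intro x y hxy
        have : (x ∈ A ↔ y ∈ A) := by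
          apply hcyl
          intro i
          have h0 := hxy 0
          have h1 := hxy 1
          have h2 := hxy 2
          simp only [hb', Matrix.cons_val_zero, Matrix.cons_val_one, Matrix.cons_val_two,
            Matrix.head_cons, Matrix.tail_cons, inner_neg_left, neg_inj] at h0 h1 h2
          fin_cases i
          · exact h0
          · exact h1
          · exact h2
        simp only [mem_compl_iff, this])
      (fun t ht x => by simp only [mem_compl_iff, hcone t ht x]) (by rw [hcompl]; linarith)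
    have hid : Integrable (fun x : E => x) (stdGaussian E) := IsGaussian.integrable_id
    have hi : Integrable (fun x : E => ⟪b 0, x⟫) (stdGaussian E) := hid.const_inner (b 0)
    have h0 : ∫ x, ⟪b 0, x⟫ ∂(stdGaussian E) = 0 := by
      rw [integral_inner hid, integral_id_stdGaussian, inner_zero_right]
    have h1 := integral_add_compl hA hi
    have h2 : ∫ x in Aᶜ, ⟪b' 0, x⟫ ∂(stdGaussian E) = - ∫ x in Aᶜ, ⟪b 0, x⟫ ∂(stdGaussian E) := by
      rw [← integral_neg]
      simp [hb']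
    rw [h2, hcompl] at h
    have h3 : ∫ x in A, ⟪b 0, x⟫ ∂(stdGaussian E) = - ∫ x in Aᶜ, ⟪b 0, x⟫ ∂(stdGaussian E) := by
      linarith
    rw [h3]
    refine h.trans (le_of_eq ?_)
    ring

theorem linearIndependent_of_neg {κ : Type*} [Fintype κ] (z : κ → E) (w : E)
    (hneg : ∀ i j, i ≠ j → ⟪z i, z j⟫ ≤ 0) (hw : ∀ i, ⟪z i, w⟫ < 0) : LinearIndependent ℝ z := by
  classical
  rw [Fintype.linearIndependent_iff]
  intro g hg
  set P : E := ∑ i, max (g i) 0 • z i with hP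
  set N : E := ∑ i, max (-g i) 0 • z i with hN
  have hPN : P = N := by
    rw [← sub_eq_zero, hP, hN, ← Finset.sum_sub_distrib, ← hg]
    refine Finset.sum_congr rfl fun i _ => ?_
    rw [← sub_smul]
    congr 1
    rcases le_total (g i) 0 with h | h
    · rw [max_eq_right h, max_eq_left (by linarith)]; ring
    · rw [max_eq_left h, max_eq_right (by linarith)]; ring
  have hPP : ⟪P, N⟫ ≤ 0 := by
    rw [hP, hN, sum_inner]
    refine Finset.sum_nonpos fun i _ => ?_
    rw [inner_sum]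
    refine Finset.sum_nonpos fun j _ => ?_
    rw [real_inner_smul_left, real_inner_smul_right]
    by_cases hij : i = j
    · subst hij
      have : max (g i) 0 * max (-g i) 0 = 0 := by
        rcases le_total (g i) 0 with h | h
        · rw [max_eq_right h, zero_mul]
        · rw [max_eq_right (by linarith : -g i ≤ 0), mul_zero]
      rw [← mul_assoc, this, zero_mul]
    · have h1 := hneg i j hij
      have h2 : 0 ≤ max (g i) 0 := le_max_right _ _
      have h3 : 0 ≤ max (-g j) 0 := le_max_right _ _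
      have h4 : max (-g j) 0 * ⟪z i, z j⟫ ≤ 0 := mul_nonpos_of_nonneg_of_nonpos h3 h1
      exact mul_nonpos_of_nonneg_of_nonpos h2 h4
  have hP0 : P = 0 := by
    rw [← hPN, real_inner_self_eq_norm_sq] at hPP
    have : ‖P‖ ^ 2 = 0 := le_antisymm hPP (by positivity)
    exact norm_eq_zero.1 (pow_eq_zero_iff (by norm_num) |>.1 this)
  have hN0 : N = 0 := by rw [← hPN, hP0]
  have key : ∀ c : κ → ℝ, (∀ i, 0 ≤ c i) → ∑ i, c i • z i = 0 → ∀ i, c i = 0 := by
    intro c hc hs i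
    have h1 : ∑ i, c i * ⟪z i, w⟫ = 0 := by
      have : ⟪∑ i, c i • z i, w⟫ = 0 := by rw [hs, inner_zero_left]
      rw [sum_inner] at this
      simpa [real_inner_smul_left] using this
    have h2 : ∀ j ∈ Finset.univ, c j * ⟪z j, w⟫ ≤ 0 := fun j _ =>
      mul_nonpos_of_nonneg_of_nonpos (hc j) (hw j).le
    have h3 := (Finset.sum_eq_zero_iff_of_nonpos h2).1 h1 i (Finset.mem_univ i)
    rcases mul_eq_zero.1 h3 with h | h
    · exact h
    · exact absurd h (hw i).ne
  intro i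
  have h1 := key (fun i => max (g i) 0) (fun i => le_max_right _ _) hP0 i
  have h2 := key (fun i => max (-g i) 0) (fun i => le_max_right _ _) hN0 i
  have h3 : g i ≤ 0 := by rw [← h1]; exact le_max_left _ _
  have h4 : -g i ≤ 0 := by rw [← h2]; exact le_max_left _ _
  linarith

/-- application to four vectors. -/
theorem cell_four (z : Fin 4 → E) (h0 : ∑ i, z i = 0) (hneg : ∀ i j, i ≠ j → ⟪z i, z j⟫ < 0)
    (h : ℝ) (hh : 0 < h)
    (j : Fin 4) (hw : ∫ x in cell z j, x ∂(stdGaussian E) = h • z j) :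
    h * ‖z j‖ ≤ 4 / Real.sqrt (2 * Real.pi) *
      ((stdGaussian E).real (cell z j) * (1 - (stdGaussian E).real (cell z j))) := by
  classical
  have hzj : z j ≠ 0 := by
    intro hz
    obtain ⟨i, hi⟩ : ∃ i : Fin 4, i ≠ j := exists_ne j
    have := hneg i j hi
    rw [hz, inner_zero_right] at this
    exact lt_irrefl _ this
  have hnj : 0 < ‖z j‖ := norm_pos_iff.2 hzj
  -- the span has dimension three
  set S : Submodule ℝ E := Submodule.span ℝ (Set.range z) with hS
  have hli : LinearIndependent ℝ (fun i : Fin 3 => z i.castSucc) := by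
    refine linearIndependent_of_neg _ (z (Fin.last 3)) ?_ ?_
    · intro i i' hii
      exact (hneg _ _ (fun h => hii (Fin.castSucc_injective _ h))).le
    · intro i
      exact hneg _ _ (Fin.castSucc_lt_last i).ne
  have hspan : S = Submodule.span ℝ (Set.range (fun i : Fin 3 => z i.castSucc)) := by
    apply le_antisymm
    · rw [hS, Submodule.span_le]
      rintro _ ⟨i, rfl⟩
      refine Fin.lastCases ?_ (fun i => ?_) i
      · have h1 : z (Fin.last 3) = -∑ i : Fin 3, z i.castSucc := by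
          rw [Fin.sum_univ_castSucc] at h0
          exact eq_neg_of_add_eq_zero_right h0
        rw [SetLike.mem_coe, h1]
        exact Submodule.neg_mem _ (Submodule.sum_mem _ fun i _ => Submodule.subset_span ⟨i, rfl⟩)
      · exact Submodule.subset_span ⟨i, rfl⟩
    · rw [Submodule.span_le]
      rintro _ ⟨i, rfl⟩
      exact Submodule.subset_span ⟨_, rfl⟩
  have hfin : Module.finrank ℝ S = Fintype.card (Fin 3) := by
    rw [hspan]
    exact finrank_span_eq_card hli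
  have hmemS : ∀ i, z i ∈ S := fun i => Submodule.subset_span ⟨i, rfl⟩
  set e : S := ⟨(‖z j‖)⁻¹ • z j, S.smul_mem _ (hmemS j)⟩ with he
  have hen : ‖e‖ = 1 := by
    rw [he, Submodule.coe_norm, norm_smul, norm_inv, norm_norm, inv_mul_cancel₀ hnj.ne']
  have hort : Orthonormal ℝ (({0} : Set (Fin 3)).domRestrict (fun _ : Fin 3 => e)) := by
    constructor
    · intro i
      change ‖e‖ = 1
      exact hen
    · intro i i' hii
      exfalso
      apply hii
      have h1 := i.2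
      have h2 := i'.2
      simp only [mem_singleton_iff] at h1 h2
      exact Subtype.ext (h1.trans h2.symm)
  obtain ⟨bb, hbb⟩ := hort.exists_orthonormalBasis_extension_of_card_eq hfin
  have hbb0 : bb 0 = e := hbb 0 rfl
  set b : Fin 3 → E := fun i => (bb i : E) with hb
  have hbo : Orthonormal ℝ b := by
    have := bb.orthonormal.comp_linearIsometry S.subtypeₗᵢ
    exact this
  have hexp : ∀ (i : Fin 4) (x : E), ⟪z i, x⟫ = ∑ l, ⟪b l, z i⟫ * ⟪b l, x⟫ := by
    intro i x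
    have h1 : (⟨z i, hmemS i⟩ : S) = ∑ l, ⟪bb l, ⟨z i, hmemS i⟩⟫ • bb l := (bb.sum_repr' _).symm
    have h2 : z i = ∑ l, ⟪b l, z i⟫ • b l := by
      have := congrArg (fun s : S => (s : E)) h1
      simpa [hb] using this
    conv_lhs => rw [h2]
    rw [sum_inner]
    refine Finset.sum_congr rfl fun l _ => ?_
    rw [real_inner_smul_left]
  have hmeas : MeasurableSet (cell z j) := by
    have : cell z j = ⋂ l, {x | ⟪z l, x⟫ ≤ ⟪z j, x⟫} := by
      ext x; simp [cell]
    rw [this]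
    exact MeasurableSet.iInter fun l => measurableSet_le (by fun_prop) (by fun_prop)
  have hmain := cone_three b hbo (cell z j) hmeas (by
      intro x y hxy
      have hh : ∀ i, ⟪z i, x⟫ = ⟪z i, y⟫ := by
        intro i
        rw [hexp i x, hexp i y]
        exact Finset.sum_congr rfl fun l _ => by rw [hxy l]
      simp only [cell, mem_ofPred_eq, hh])
    (by
      intro t ht x
      simp only [cell, mem_ofPred_eq, real_inner_smul_right]
      exact forall_congr' fun l => mul_le_mul_iff_right₀ ht)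
  refine le_trans (le_of_eq ?_) hmain
  have hid : Integrable (fun x : E => x) ((stdGaussian E).restrict (cell z j)) :=
    (IsGaussian.integrable_id (μ := stdGaussian E)).integrableOn
  rw [integral_inner hid, hw]
  have hb0 : b 0 = (‖z j‖)⁻¹ • z j := by
    simp only [hb, hbb0, he]
  rw [hb0, real_inner_smul_left, real_inner_smul_right, real_inner_self_eq_norm_sq]
  field_simp

end final

end Crest.Agent.PH
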