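/-
Row 215 (S0334): one-dimensional analytic facts on the Gaussian tail.
-/
import Crest.Agent.PH.Basic

set_option autoImplicit false

namespace Crest.Agent.PH

open MeasureTheory ProbabilityTheory Set Filter Topology

lemma hasDerivAt_gPhi_neg (q : ℝ) : HasDerivAt (fun q : ℝ => gPhi (-q)) (-gphi q) q := by
  have h := (hasDerivAt_gPhi (-q)).comp q (hasDerivAt_neg q)
  have e : gphi (-q) * (-1) = -gphi q := by rw [gphi_neg]; ring
  rw [e] at h
  exact h

lemma tendsto_gPhi_neg : Tendsto (fun q : ℝ => gPhi (-q)) atTop (𝓝 0) :=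
  tendsto_gPhi_atBot.comp tendsto_neg_atTop_atBot

lemma tendsto_gphi : Tendsto gphi atTop (𝓝 0) := by
  have h1 : Tendsto (fun t : ℝ => -(t ^ 2) / 2) atTop atBot := by
    have h2 : Tendsto (fun t : ℝ => t ^ 2) atTop atTop := tendsto_pow_atTop (by norm_num)
    have h3 : Tendsto (fun t : ℝ => -(t ^ 2)) atTop atBot := tendsto_neg_atTop_atBot.comp h2
    exact h3.atBot_div_const (by norm_num)
  have h4 : Tendsto (fun t : ℝ => Real.exp (-(t ^ 2) / 2)) atTop (𝓝 0) :=
    Real.tendsto_exp_atBot.comp h1
  have h5 := h4.div_const (Real.sqrt (2 * Real.pi))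
  rw [zero_div] at h5
  exact h5

/-- a differentiable function on `[a, ∞)` with nonpositive derivative and limit `0` is `≥ 0` -/
lemma nonneg_of_antitone_tendsto (f f' : ℝ → ℝ) (a : ℝ) (hf : ∀ x, a < x → HasDerivAt f (f' x) x)
    (hf' : ∀ x, a < x → f' x ≤ 0) (hlim : Tendsto f atTop (𝓝 0)) : ∀ x, a < x → 0 ≤ f x := by
  intro x hx
  have hanti : AntitoneOn f (Ici x) := by
    apply antitoneOn_of_deriv_nonpos (convex_Ici x)
    · intro y hy
      exact (hf y (lt_of_lt_of_le hx hy)).continuousAt.continuousWithinAt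
    · intro y hy
      rw [interior_Ici] at hy
      exact (hf y (lt_trans hx hy)).differentiableAt.differentiableWithinAt
    · intro y hy
      rw [interior_Ici] at hy
      rw [(hf y (lt_trans hx hy)).deriv]
      exact hf' y (lt_trans hx hy)
  have : ∀ᶠ t in atTop, f t ≤ f x := by
    filter_upwards [eventually_ge_atTop x] with t ht
    exact hanti (mem_Ici.2 le_rfl) ht ht
  exact le_of_tendsto hlim this

lemma gL_nonneg (q : ℝ) : 0 ≤ gL q := by
  rcases le_or_gt q 0 with h | h
  · unfold gL
    have h1 := gphi_pos q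
    have h2 := gPhi_pos (-q)
    nlinarith
  · have key : ∀ x : ℝ, 0 < x → 0 ≤ gphi x / x - gPhi (-x) := by
      apply nonneg_of_antitone_tendsto (fun x => gphi x / x - gPhi (-x))
        (fun x => ((-x * gphi x) * x - gphi x * 1) / x ^ 2 - (-gphi x)) 0
      · intro x hx
        exact ((hasDerivAt_gphi x).div (hasDerivAt_id x) hx.ne').sub (hasDerivAt_gPhi_neg x)
      · intro x hx
        have h1 := gphi_pos x
        have e : ((-x * gphi x) * x - gphi x * 1) / x ^ 2 - (-gphi x) = - (gphi x / x ^ 2) := by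
          field_simp; ring
        rw [e]
        have : 0 < gphi x / x ^ 2 := by positivity
        linarith
      · have h1 : Tendsto (fun x : ℝ => gphi x / x) atTop (𝓝 0) := by
          have := tendsto_gphi.mul tendsto_inv_atTop_zero
          simpa [div_eq_mul_inv] using this
        simpa using h1.sub tendsto_gPhi_neg
    have h1 := key q h
    have h2 : gL q = q * (gphi q / q - gPhi (-q)) := by
      unfold gL; field_simp
    rw [h2]; positivity

lemma gL_antitone : Antitone gL :=
  antitone_of_deriv_nonpos (fun x => (hasDerivAt_gL x).differentiableAt) fun x => by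
    rw [(hasDerivAt_gL x).deriv]; have := gPhi_pos (-x); linarith

lemma gL_le_gphi {q : ℝ} (hq : 0 ≤ q) : gL q ≤ gphi q := by
  unfold gL
  have := gPhi_pos (-q)
  nlinarith

/-- `q φ(q) ≤ (1+q²) Φ(-q)` i.e. `q L ≤ Φ(-q)` -/
lemma q_mul_gL_le {q : ℝ} (hq : 0 ≤ q) : q * gL q ≤ gPhi (-q) := by
  rcases hq.eq_or_lt with h | h
  · rw [← h]; have := gPhi_pos (-0); simp only [neg_zero] at *; linarith
  · have key : ∀ x : ℝ, 0 < x → 0 ≤ gPhi (-x) - x * gphi x / (1 + x ^ 2) := by
      apply nonneg_of_antitone_tendsto (fun x => gPhi (-x) - x * gphi x / (1 + x ^ 2))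
        (fun x => -gphi x - ((1 * gphi x + x * (-x * gphi x)) * (1 + x ^ 2) - (x * gphi x) *
          (0 + (((2 : ℕ) : ℝ) * x ^ (2 - 1)))) / (1 + x ^ 2) ^ 2) 0
      · intro x hx
        have hne : (1 : ℝ) + x ^ 2 ≠ 0 := by positivity
        have h1 : HasDerivAt (fun x : ℝ => 1 + x ^ 2) (0 + (((2 : ℕ) : ℝ) * x ^ (2 - 1))) x :=
          (hasDerivAt_const x (1:ℝ)).add (hasDerivAt_pow 2 x)
        have h2 : HasDerivAt (fun x : ℝ => x * gphi x) (1 * gphi x + x * (-x * gphi x)) x :=
          (hasDerivAt_id x).mul (hasDerivAt_gphi x)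
        exact (hasDerivAt_gPhi_neg x).sub (h2.div h1 hne)
      · intro x hx
        have h1 := gphi_pos x
        have hne : (1 : ℝ) + x ^ 2 ≠ 0 := by positivity
        have e : -gphi x - ((1 * gphi x + x * (-x * gphi x)) * (1 + x ^ 2) - (x * gphi x) *
          (0 + (((2 : ℕ) : ℝ) * x ^ (2 - 1)))) / (1 + x ^ 2) ^ 2
          = - (2 * gphi x / (1 + x ^ 2) ^ 2) := by
          field_simp; push_cast; ring
        rw [e]
        have : 0 < 2 * gphi x / (1 + x ^ 2) ^ 2 := by positivity
        linarith
      · have h1 : Tendsto (fun x : ℝ => x * gphi x / (1 + x ^ 2)) atTop (𝓝 0) := by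
          apply tendsto_of_tendsto_of_tendsto_of_le_of_le' tendsto_const_nhds tendsto_gphi
          · filter_upwards [eventually_ge_atTop (0:ℝ)] with x hx
            have := gphi_pos x
            positivity
          · filter_upwards [eventually_ge_atTop (0:ℝ)] with x hx
            have h1 := gphi_pos x
            rw [div_le_iff₀ (by positivity)]
            nlinarith [sq_nonneg (x - 1), mul_nonneg h1.le (sq_nonneg (x - 1)),
              mul_nonneg h1.le (sq_nonneg x)]
        simpa using tendsto_gPhi_neg.sub h1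
    have h1 := key q h
    have h2 : 0 < 1 + q ^ 2 := by positivity
    rw [sub_nonneg, div_le_iff₀ h2] at h1
    unfold gL
    nlinarith

/-- `φ L ≤ Φ(-q)²`. -/
lemma psi_le_sq {q : ℝ} (hq : 0 ≤ q) : gphi q * gL q ≤ gPhi (-q) ^ 2 := by
  have key : ∀ x : ℝ, 0 < x → 0 ≤ gPhi (-x) ^ 2 - gphi x * gL x := by
    apply nonneg_of_antitone_tendsto (fun x => gPhi (-x) ^ 2 - gphi x * gL x)
      (fun x => ((2 : ℕ) : ℝ) * gPhi (-x) ^ (2 - 1) * (-gphi x)
        - ((-x * gphi x) * gL x + gphi x * (-gPhi (-x)))) 0
    · intro x hx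
      exact ((hasDerivAt_gPhi_neg x).pow 2).sub ((hasDerivAt_gphi x).mul (hasDerivAt_gL x))
    · intro x hx
      have h1 := gphi_pos x
      have h2 := q_mul_gL_le hx.le
      norm_num
      nlinarith
    · have h1 : Tendsto (fun x : ℝ => gPhi (-x) ^ 2) atTop (𝓝 0) := by
        simpa using tendsto_gPhi_neg.pow 2
      have h2 : Tendsto (fun x : ℝ => gphi x * gL x) atTop (𝓝 0) := by
        have h3 : Tendsto (fun x : ℝ => gphi x ^ 2) atTop (𝓝 0) := by
          simpa using tendsto_gphi.pow 2
        apply tendsto_of_tendsto_of_tendsto_of_le_of_le' tendsto_const_nhds h3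
        · filter_upwards with x
          exact mul_nonneg (gphi_pos x).le (gL_nonneg x)
        · filter_upwards [eventually_ge_atTop (0:ℝ)] with x hx
          have := gL_le_gphi hx
          have h1 := gphi_pos x
          nlinarith
      simpa using h1.sub h2
  rcases hq.eq_or_lt with h | h
  · -- `q = 0` by continuity
    have hc : Continuous (fun x : ℝ => gPhi (-x) ^ 2 - gphi x * gL x) := by
      have : Continuous gL := by
        unfold gL
        exact continuous_gphi.sub (continuous_id.mul (continuous_gPhi.comp continuous_neg))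
      exact ((continuous_gPhi.comp continuous_neg).pow 2).sub (continuous_gphi.mul this)
    have hcl : ∀ x : ℝ, 0 ≤ x → 0 ≤ gPhi (-x) ^ 2 - gphi x * gL x := by
      have hclosed : IsClosed {x : ℝ | 0 ≤ gPhi (-x) ^ 2 - gphi x * gL x} :=
        isClosed_le continuous_const hc
      have hsub : Ioi (0:ℝ) ⊆ {x : ℝ | 0 ≤ gPhi (-x) ^ 2 - gphi x * gL x} := fun x hx => key x hx
      have := closure_minimal hsub hclosed
      rw [closure_Ioi] at this
      exact fun x hx => this hx
    have := hcl q hq
    linarith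
  · have := key q h
    linarith

/-- `r(q) = q L + Φ(-q)` -/
lemma r_antitone : AntitoneOn (fun q : ℝ => q * gL q + gPhi (-q)) (Ici 0) := by
  apply antitoneOn_of_deriv_nonpos (convex_Ici 0)
  · intro y hy
    have h : HasDerivAt (fun q : ℝ => q * gL q + gPhi (-q))
      ((1 * gL y + y * (-gPhi (-y))) + (-gphi y)) y :=
      ((hasDerivAt_id y).mul (hasDerivAt_gL y)).add (hasDerivAt_gPhi_neg y)
    exact h.continuousAt.continuousWithinAt
  · intro y hy
    have h : HasDerivAt (fun q : ℝ => q * gL q + gPhi (-q))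
      ((1 * gL y + y * (-gPhi (-y))) + (-gphi y)) y :=
      ((hasDerivAt_id y).mul (hasDerivAt_gL y)).add (hasDerivAt_gPhi_neg y)
    exact h.differentiableAt.differentiableWithinAt
  · intro y hy
    rw [interior_Ici] at hy
    have h : HasDerivAt (fun q : ℝ => q * gL q + gPhi (-q))
      ((1 * gL y + y * (-gPhi (-y))) + (-gphi y)) y :=
      ((hasDerivAt_id y).mul (hasDerivAt_gL y)).add (hasDerivAt_gPhi_neg y)
    rw [h.deriv]
    have h1 := gPhi_pos (-y)
    have hy' : (0:ℝ) < y := hy
    unfold gL
    nlinarith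

/-- chord bound -/
lemma chord (c A B qb qa q : ℝ) (hc : 0 ≤ c) (hb0 : 0 ≤ qb) (hbq : qb ≤ q) (hqa : q ≤ qa)
    (hb : c * (gphi qb * gL qb) ≤ A * gPhi (-qb) + B)
    (ha : c * (gphi qa * gL qa) ≤ A * gPhi (-qa) + B) :
    c * (gphi q * gL q) ≤ A * gPhi (-q) + B := by
  set F : ℝ → ℝ := fun q => c * (gphi q * gL q) - (A * gPhi (-q) + B) with hF
  have hd : ∀ x, HasDerivAt F (gphi x * (A - c * (x * gL x + gPhi (-x)))) x := by
    intro x
    have h1 := (((hasDerivAt_gphi x).mul (hasDerivAt_gL x)).const_mul c).sub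
      (((hasDerivAt_gPhi_neg x).const_mul A).add_const B)
    have e : c * (-x * gphi x * gL x + gphi x * -gPhi (-x)) - A * -gphi x
      = gphi x * (A - c * (x * gL x + gPhi (-x))) := by ring
    rw [e] at h1
    exact h1
  have hcont : Continuous F := continuous_iff_continuousAt.2 fun x => (hd x).continuousAt
  suffices h : F q ≤ 0 by simp only [hF] at h; linarith
  have hFb : F qb ≤ 0 := by simp only [hF]; linarith
  have hFa : F qa ≤ 0 := by simp only [hF]; linarith
  rcases le_total 0 (A - c * (q * gL q + gPhi (-q))) with h | h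
  · have hmono : MonotoneOn F (Icc q qa) := by
      apply monotoneOn_of_deriv_nonneg (convex_Icc q qa) hcont.continuousOn
      · intro y hy
        exact (hd y).differentiableAt.differentiableWithinAt
      · intro y hy
        rw [interior_Icc] at hy
        rw [(hd y).deriv]
        have h1 := r_antitone (mem_Ici.2 (hb0.trans hbq))
          (mem_Ici.2 ((hb0.trans hbq).trans hy.1.le)) hy.1.le
        simp only at h1
        have h2 := mul_le_mul_of_nonneg_left h1 hc
        have h3 := gphi_pos y
        apply mul_nonneg h3.le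
        linarith
    exact (hmono ⟨le_rfl, hqa⟩ ⟨hqa, le_rfl⟩ hqa).trans hFa
  · have hanti : AntitoneOn F (Icc qb q) := by
      apply antitoneOn_of_deriv_nonpos (convex_Icc qb q) hcont.continuousOn
      · intro y hy
        exact (hd y).differentiableAt.differentiableWithinAt
      · intro y hy
        rw [interior_Icc] at hy
        rw [(hd y).deriv]
        have h1 := r_antitone (mem_Ici.2 (hb0.trans hy.1.le))
          (mem_Ici.2 (hb0.trans hbq)) hy.2.le
        simp only at h1
        have h2 := mul_le_mul_of_nonneg_left h1 hc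
        have h3 := gphi_pos y
        apply mul_nonpos_of_nonneg_of_nonpos h3.le
        linarith
    exact (hanti ⟨le_rfl, hbq⟩ ⟨hbq, le_rfl⟩ hbq).trans hFb

lemma gPhi_zero : gPhi 0 = 1 / 2 := by
  have := gPhi_neg 0
  simp only [neg_zero] at this
  linarith

lemma gL_zero : gL 0 = 1 / Real.sqrt (2 * Real.pi) := by
  simp [gL, gphi]

end Crest.Agent.PH
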