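/-
Row 215 (S0334): translates of a convex set, tangent line, deletion cost; bathtub inequality.
-/
import Crest.Agent.PH.A3
import Crest.Agent.PH.C2
import Crest.Agent.PH.E3
import Crest.Agent.PH.F1

set_option autoImplicit false
set_option linter.unusedSectionVars false

namespace Crest.Agent.PH

open MeasureTheory ProbabilityTheory Set Filter Topology
open scoped RealInnerProductSpace ENNReal

section oneD

lemma tendsto_gL : Tendsto gL atTop (𝓝 0) := by
  apply tendsto_of_tendsto_of_tendsto_of_le_of_le' tendsto_const_nhds tendsto_gphi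
  · exact Eventually.of_forall gL_nonneg
  · filter_upwards [eventually_ge_atTop (0:ℝ)] with x hx
    exact gL_le_gphi hx

/-- `∫_0^∞ Φ(-q - c t) dt = L(q) / c` and integrability -/
lemma integral_gPhi_line (q c : ℝ) (hc : 0 < c) :
    IntegrableOn (fun t : ℝ => gPhi (-q - c * t)) (Ioi 0) ∧
    ∫ t in Ioi (0:ℝ), gPhi (-q - c * t) = gL q / c := by
  have hderiv : ∀ t ∈ Ici (0:ℝ), HasDerivAt (fun t : ℝ => -(gL (q + c * t)) / c)
      (gPhi (-q - c * t)) t := by
    intro t _
    have h1 : HasDerivAt (fun t : ℝ => q + c * t) c t := by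
      simpa using ((hasDerivAt_id t).const_mul c).const_add q
    have h2 := (((hasDerivAt_gL (q + c * t)).comp t h1).neg).div_const c
    have e : -(-gPhi (-(q + c * t)) * c) / c = gPhi (-q - c * t) := by
      rw [show -(q + c * t) = -q - c * t by ring]
      field_simp
    rw [e] at h2
    exact h2
  have hlim : Tendsto (fun t : ℝ => -(gL (q + c * t)) / c) atTop (𝓝 0) := by
    have h1 : Tendsto (fun t : ℝ => q + c * t) atTop atTop :=
      tendsto_atTop_add_const_left _ _ (Tendsto.const_mul_atTop hc tendsto_id)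
    have h2 := ((tendsto_gL.comp h1).neg).div_const c
    simpa using h2
  have hnn : ∀ t ∈ Ioi (0:ℝ), 0 ≤ gPhi (-q - c * t) := fun t _ => gPhi_nonneg _
  refine ⟨integrableOn_Ioi_deriv_of_nonneg' hderiv hnn hlim, ?_⟩
  rw [integral_Ioi_of_hasDerivAt_of_nonneg' hderiv hnn hlim]
  simp [neg_div]

/-- `E (ξ - q)_+ = L(q)` -/
lemma integral_pos_part (q : ℝ) :
    Integrable (fun t : ℝ => max 0 (t - q)) (gaussianReal 0 1) ∧
    ∫ t, max 0 (t - q) ∂(gaussianReal 0 1) = gL q := by
  have hint : Integrable (fun t : ℝ => max 0 (t - q)) (gaussianReal 0 1) := by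
    have h1 : Integrable (fun t : ℝ => t) (gaussianReal 0 1) :=
      (memLp_id_gaussianReal 1).integrable le_rfl
    have h2 : Integrable (fun t : ℝ => t - q) (gaussianReal 0 1) := h1.sub (integrable_const q)
    have h3 := h2.pos_part
    simpa [max_comm] using h3
  refine ⟨hint, ?_⟩
  rw [integral_gaussianReal_eq_integral_smul (by simp)]
  have hderiv : ∀ t ∈ Ici q, HasDerivAt (fun t : ℝ => -gphi t + q * gPhi (-t))
      (gaussianPDFReal 0 1 t • max 0 (t - q)) t := by
    intro t ht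
    have h1 := (hasDerivAt_gphi t).neg.add ((hasDerivAt_gPhi_neg t).const_mul q)
    have e : -(-t * gphi t) + q * -gphi t = gaussianPDFReal 0 1 t • max 0 (t - q) := by
      rw [max_eq_right (sub_nonneg.2 ht), ← gphi_eq_pdf, smul_eq_mul]
      ring
    rw [e] at h1
    exact h1
  have hlim : Tendsto (fun t : ℝ => -gphi t + q * gPhi (-t)) atTop (𝓝 0) := by
    have := tendsto_gphi.neg.add (tendsto_gPhi_neg.const_mul q)
    simpa using this
  have hnn : ∀ t ∈ Ioi q, 0 ≤ gaussianPDFReal 0 1 t • max 0 (t - q) := fun t _ =>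
    mul_nonneg (gaussianPDFReal_nonneg _ _ _) (le_max_left _ _)
  have h1 := integral_Ioi_of_hasDerivAt_of_nonneg' hderiv hnn hlim
  have h2 : ∫ t, gaussianPDFReal 0 1 t • max 0 (t - q)
      = ∫ t in Ioi q, gaussianPDFReal 0 1 t • max 0 (t - q) := by
    symm
    apply setIntegral_eq_integral_of_forall_compl_eq_zero
    intro t ht
    rw [mem_Ioi, not_lt] at ht
    rw [max_eq_left (by linarith), smul_zero]
  rw [h2, h1]
  unfold gL
  ring

/-- one-dimensional Cameron-Martin -/
lemma cm_one (a : ℝ) (g : ℝ → ℝ≥0∞) (hg : Measurable g) :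
    ∫⁻ t, g (t + a) ∂(gaussianReal 0 1)
      = ∫⁻ t, ENNReal.ofReal (Real.exp (t * a - a ^ 2 / 2)) * g t ∂(gaussianReal 0 1) := by
  rw [← lintegral_map (f := g) (g := fun t => t + a) hg (by fun_prop), gaussianReal_map_add_const]
  rw [gaussianReal_of_var_ne_zero _ (by simp), gaussianReal_of_var_ne_zero _ (by simp),
    lintegral_withDensity_eq_lintegral_mul _ (measurable_gaussianPDF _ _) hg,
    lintegral_withDensity_eq_lintegral_mul _ (measurable_gaussianPDF _ _) (by fun_prop)]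
  apply lintegral_congr
  intro t
  simp only [Pi.mul_apply]
  rw [← mul_assoc]
  congr 1
  rw [gaussianPDF, gaussianPDF, ← ENNReal.ofReal_mul (gaussianPDFReal_nonneg _ _ _)]
  congr 1
  unfold gaussianPDFReal
  conv_rhs => rw [mul_assoc, ← Real.exp_add]
  congr 2
  simp
  ring

end oneD

variable {E : Type*} [NormedAddCommGroup E] [InnerProductSpace ℝ E] [FiniteDimensional ℝ E]
  [MeasurableSpace E] [BorelSpace E]

/-- bathtub: first moment of a set in a unit direction. -/
theorem bathtub (A : Set E) (hA : MeasurableSet A) (e : E) (he : ‖e‖ = 1) (q₀ : ℝ) :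
    ⟪∫ x in A, x ∂(stdGaussian E), e⟫ ≤ q₀ * (stdGaussian E).real A + gL q₀ := by
  have hm : Measurable (fun x : E => ⟪e, x⟫) := by fun_prop
  have h1 : ⟪∫ x in A, x ∂(stdGaussian E), e⟫ = ∫ x in A, ⟪e, x⟫ ∂(stdGaussian E) := by
    rw [real_inner_comm]
    exact (integral_inner integrable_id_std.integrableOn e).symm
  have hint : Integrable (fun x : E => max 0 (⟪e, x⟫ - q₀)) (stdGaussian E) := by
    have := (integral_pos_part q₀).1
    rw [← map_inner_std e he] at this
    exact this.comp_measurable hm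
  have h2 : ∫ x, max 0 (⟪e, x⟫ - q₀) ∂(stdGaussian E) = gL q₀ := by
    rw [← (integral_pos_part q₀).2, ← map_inner_std e he,
      integral_map hm.aemeasurable (by fun_prop)]
  have h3 : ∫ x in A, (⟪e, x⟫ - q₀) ∂(stdGaussian E)
      = ∫ x in A, ⟪e, x⟫ ∂(stdGaussian E) - q₀ * (stdGaussian E).real A := by
    rw [integral_sub (integrable_inner_std e).integrableOn (integrable_const q₀),
      setIntegral_const, smul_eq_mul, mul_comm]
  have h4 : ∫ x in A, (⟪e, x⟫ - q₀) ∂(stdGaussian E)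
      ≤ ∫ x in A, max 0 (⟪e, x⟫ - q₀) ∂(stdGaussian E) := by
    apply integral_mono ((integrable_inner_std e).integrableOn.sub (integrable_const q₀))
      hint.integrableOn
    intro x
    exact le_max_right _ _
  have h5 : ∫ x in A, max 0 (⟪e, x⟫ - q₀) ∂(stdGaussian E)
      ≤ ∫ x, max 0 (⟪e, x⟫ - q₀) ∂(stdGaussian E) :=
    setIntegral_le_integral hint (Eventually.of_forall fun x => le_max_left _ _)
  rw [h1]
  linarith

/-- Cameron-Martin formula (unit direction, lintegral form) -/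
lemma cm_unit (e : E) (he : ‖e‖ = 1) (a : ℝ) (g : E → ℝ≥0∞) (hg : Measurable g) :
    ∫⁻ x, g (x + a • e) ∂(stdGaussian E)
      = ∫⁻ x, ENNReal.ofReal (Real.exp (⟪e, x⟫ * a - a ^ 2 / 2)) * g x ∂(stdGaussian E) := by
  have hmeas : Measurable (fun p : E × ℝ => p.1 - ⟪e, p.1⟫ • e + p.2 • e) := by fun_prop
  conv_lhs => rw [← map_split e he]
  conv_rhs => rw [← map_split e he]
  rw [lintegral_map (by fun_prop) hmeas, lintegral_map (by fun_prop) hmeas,
    lintegral_prod _ (by fun_prop), lintegral_prod _ (by fun_prop)]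
  apply lintegral_congr
  intro z
  simp only [inner_split e z he]
  have := cm_one a (fun t => g (z - ⟪e, z⟫ • e + t • e)) (by fun_prop)
  rw [← this]
  apply lintegral_congr
  intro t
  rw [add_assoc, ← add_smul]

lemma cm_gen (v : E) (g : E → ℝ≥0∞) (hg : Measurable g) :
    ∫⁻ x, g (x + v) ∂(stdGaussian E)
      = ∫⁻ x, ENNReal.ofReal (Real.exp (⟪v, x⟫ - ‖v‖ ^ 2 / 2)) * g x ∂(stdGaussian E) := by
  rcases eq_or_ne v 0 with rfl | hv
  · simp
  have hn : ‖v‖ ≠ 0 := norm_ne_zero_iff.2 hv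
  have he : ‖(‖v‖)⁻¹ • v‖ = 1 := by rw [norm_smul, norm_inv, norm_norm, inv_mul_cancel₀ hn]
  have := cm_unit ((‖v‖)⁻¹ • v) he ‖v‖ g hg
  rw [smul_smul, mul_inv_cancel₀ hn, one_smul] at this
  rw [this]
  apply lintegral_congr
  intro x
  congr 3
  rw [real_inner_smul_left]
  field_simp

/-- measure of a translate -/
lemma translate_eq (A : Set E) (hA : MeasurableSet A) (y : E) (t : ℝ) :
    (stdGaussian E).real {x | x - t • y ∈ A}
      = ∫ x in A, Real.exp (-t * ⟪x, y⟫ - t ^ 2 * ‖y‖ ^ 2 / 2) ∂(stdGaussian E) := by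
  have h1 := cm_gen (-(t • y)) (A.indicator 1) (measurable_const.indicator hA)
  have h2 : ∫⁻ x, A.indicator (1 : E → ℝ≥0∞) (x + -(t • y)) ∂(stdGaussian E)
      = (stdGaussian E) {x | x - t • y ∈ A} := by
    have hm : MeasurableSet {x : E | x - t • y ∈ A} := by
      have : Measurable (fun x : E => x - t • y) := by fun_prop
      exact this hA
    rw [← lintegral_indicator_one hm]
    apply lintegral_congr
    intro x
    rw [← sub_eq_add_neg]
    rfl
  rw [h2] at h1
  rw [measureReal_def, h1, integral_eq_lintegral_of_nonneg_ae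
    (Eventually.of_forall fun x => (Real.exp_pos _).le) (by fun_prop)]
  congr 1
  rw [← lintegral_indicator hA]
  apply lintegral_congr
  intro x
  by_cases hx : x ∈ A
  · simp only [indicator_of_mem hx, Pi.one_apply, mul_one]
    congr 2
    rw [inner_neg_left, real_inner_smul_left, norm_neg, norm_smul, mul_pow, Real.norm_eq_abs,
      sq_abs, real_inner_comm]
    ring
  · simp [hx]

lemma integrable_exp_norm (a : ℝ) : Integrable (fun x : E => Real.exp (a * ‖x‖)) (stdGaussian E) := by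
  obtain ⟨C, hC, hint⟩ := IsGaussian.exists_integrable_exp_sq (stdGaussian E)
  have h2 : Integrable (fun x : E => Real.exp (a ^ 2 / (4 * C)) * Real.exp (C * ‖x‖ ^ 2))
    (stdGaussian E) := hint.const_mul _
  refine h2.mono' (by fun_prop) (Eventually.of_forall fun x => ?_)
  rw [Real.norm_eq_abs, abs_of_pos (Real.exp_pos _), ← Real.exp_add, Real.exp_le_exp]
  have : a * ‖x‖ ≤ a ^ 2 / (4 * C) + C * ‖x‖ ^ 2 := by
    have h3 : 0 ≤ (a / (2 * C) - ‖x‖) ^ 2 * C := by positivity
    have h4 : (a / (2 * C) - ‖x‖) ^ 2 * C = a ^ 2 / (4 * C) - a * ‖x‖ + C * ‖x‖ ^ 2 := by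
      field_simp
      ring
    linarith
  exact this

/-- derivative at `0` of the measure of the translates -/
lemma hasDerivAt_translate (A : Set E) (hA : MeasurableSet A) (y : E) :
    HasDerivAt (fun t : ℝ => (stdGaussian E).real {x | x - t • y ∈ A})
      (-⟪∫ x in A, x ∂(stdGaussian E), y⟫) 0 := by
  simp_rw [translate_eq A hA y]
  have key := hasDerivAt_integral_of_dominated_loc_of_deriv_le (μ := (stdGaussian E).restrict A)
    (F := fun (t : ℝ) (x : E) => Real.exp (-t * ⟪x, y⟫ - t ^ 2 * ‖y‖ ^ 2 / 2))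
    (F' := fun (t : ℝ) (x : E) => Real.exp (-t * ⟪x, y⟫ - t ^ 2 * ‖y‖ ^ 2 / 2)
      * (-⟪x, y⟫ - t * ‖y‖ ^ 2))
    (x₀ := (0:ℝ)) (s := Metric.ball (0:ℝ) 1)
    (bound := fun x : E => (1 + ‖y‖ ^ 2) * Real.exp (2 * ‖y‖ * ‖x‖))
    (Metric.ball_mem_nhds 0 one_pos)
    (Eventually.of_forall fun t => by fun_prop)
    (by simp only [neg_zero, zero_mul]; simp)
    (by fun_prop)
    (Eventually.of_forall fun x t ht => by
      rw [Metric.mem_ball, dist_zero_right, Real.norm_eq_abs] at ht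
      rw [norm_mul, Real.norm_eq_abs, abs_of_pos (Real.exp_pos _), Real.norm_eq_abs]
      have h1 : |⟪x, y⟫| ≤ ‖x‖ * ‖y‖ := abs_real_inner_le_norm x y
      have h2 : Real.exp (-t * ⟪x, y⟫ - t ^ 2 * ‖y‖ ^ 2 / 2) ≤ Real.exp (‖y‖ * ‖x‖) := by
        rw [Real.exp_le_exp]
        have h3 : -t * ⟪x, y⟫ ≤ |t| * |⟪x, y⟫| := by
          rw [← abs_mul]
          calc -t * ⟪x, y⟫ = -(t * ⟪x, y⟫) := by ring
            _ ≤ |t * ⟪x, y⟫| := neg_le_abs _
        have h4 : |t| * |⟪x, y⟫| ≤ 1 * (‖x‖ * ‖y‖) :=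
          mul_le_mul ht.le h1 (abs_nonneg _) zero_le_one
        have h5 : 0 ≤ t ^ 2 * ‖y‖ ^ 2 / 2 := by positivity
        linarith
      have h6 : |-⟪x, y⟫ - t * ‖y‖ ^ 2| ≤ ‖y‖ * ‖x‖ + ‖y‖ ^ 2 := by
        calc |-⟪x, y⟫ - t * ‖y‖ ^ 2| ≤ |-⟪x, y⟫| + |t * ‖y‖ ^ 2| := abs_sub _ _
          _ ≤ ‖y‖ * ‖x‖ + ‖y‖ ^ 2 := by
            rw [abs_neg, abs_mul, abs_of_nonneg (sq_nonneg ‖y‖)]
            have : |t| * ‖y‖ ^ 2 ≤ 1 * ‖y‖ ^ 2 :=
              mul_le_mul_of_nonneg_right ht.le (sq_nonneg _)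
            linarith
      have h7 : ‖y‖ * ‖x‖ + ‖y‖ ^ 2 ≤ (1 + ‖y‖ ^ 2) * Real.exp (‖y‖ * ‖x‖) := by
        have h8 : ‖y‖ * ‖x‖ ≤ Real.exp (‖y‖ * ‖x‖) := by
          have := Real.add_one_le_exp (‖y‖ * ‖x‖)
          linarith
        have h9 : 1 ≤ Real.exp (‖y‖ * ‖x‖) := Real.one_le_exp (by positivity)
        nlinarith [sq_nonneg ‖y‖]
      calc Real.exp (-t * ⟪x, y⟫ - t ^ 2 * ‖y‖ ^ 2 / 2) * |-⟪x, y⟫ - t * ‖y‖ ^ 2|
          ≤ Real.exp (‖y‖ * ‖x‖) * ((1 + ‖y‖ ^ 2) * Real.exp (‖y‖ * ‖x‖)) :=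
            mul_le_mul h2 (h6.trans h7) (abs_nonneg _) (Real.exp_pos _).le
        _ = (1 + ‖y‖ ^ 2) * Real.exp (2 * ‖y‖ * ‖x‖) := by
            rw [show 2 * ‖y‖ * ‖x‖ = ‖y‖ * ‖x‖ + ‖y‖ * ‖x‖ by ring, Real.exp_add]; ring)
    (((integrable_exp_norm (2 * ‖y‖)).const_mul _).integrableOn)
    (Eventually.of_forall fun x t ht => by
      have h1 : HasDerivAt (fun t : ℝ => -t * ⟪x, y⟫ - t ^ 2 * ‖y‖ ^ 2 / 2)
          (-⟪x, y⟫ - t * ‖y‖ ^ 2) t := by
        have h2 : HasDerivAt (fun t : ℝ => -t * ⟪x, y⟫) (-1 * ⟪x, y⟫) t :=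
          (hasDerivAt_neg t).mul_const _
        have h3 : HasDerivAt (fun t : ℝ => t ^ 2 * ‖y‖ ^ 2 / 2)
            ((((2 : ℕ) : ℝ) * t ^ (2 - 1)) * ‖y‖ ^ 2 / 2) t :=
          ((hasDerivAt_pow 2 t).mul_const _).div_const _
        have h4 := h2.sub h3
        have e : -1 * ⟪x, y⟫ - (((2 : ℕ) : ℝ) * t ^ (2 - 1)) * ‖y‖ ^ 2 / 2
          = -⟪x, y⟫ - t * ‖y‖ ^ 2 := by norm_num; ring
        rw [e] at h4
        exact h4
      exact h1.exp)
  have h := key.2
  have e : ∫ x in A, Real.exp (-0 * ⟪x, y⟫ - 0 ^ 2 * ‖y‖ ^ 2 / 2) * (-⟪x, y⟫ - 0 * ‖y‖ ^ 2)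
      ∂(stdGaussian E) = -⟪∫ x in A, x ∂(stdGaussian E), y⟫ := by
    have : ∀ x : E, Real.exp (-0 * ⟪x, y⟫ - 0 ^ 2 * ‖y‖ ^ 2 / 2) * (-⟪x, y⟫ - 0 * ‖y‖ ^ 2)
        = -⟪y, x⟫ := by
      intro x; simp [real_inner_comm]
    simp_rw [this]
    rw [integral_neg, real_inner_comm]
    congr 1
    exact (integral_inner integrable_id_std.integrableOn y)
  rw [e] at h
  exact h

/-- tangent line bound from Ehrhard's inequality -/
lemma translate_le (A : Set E) (hA : IsClosed A) (hconv : Convex ℝ A) (y : E) (q : ℝ)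
    (hq : gPhi (-q) = (stdGaussian E).real A) (t : ℝ) (ht : 0 < t) :
    (stdGaussian E).real {x | x - t • y ∈ A}
      ≤ gPhi (-q - ⟪∫ x in A, x ∂(stdGaussian E), y⟫ / gphi q * t) := by
  set f := ⟪∫ x in A, x ∂(stdGaussian E), y⟫ with hf
  set F : ℝ → ℝ := fun t => (stdGaussian E).real {x | x - t • y ∈ A} with hF
  have hF0 : F 0 = gPhi (-q) := by rw [hq]; simp [hF]
  by_contra hcon
  push Not at hcon
  have hφ := gphi_pos q
  -- a slightly larger value
  obtain ⟨α, hα1, hα2⟩ : ∃ α, gPhi α < F t ∧ -q - f / gphi q * t < α := by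
    have h1 : ∀ᶠ a in 𝓝 (-q - f / gphi q * t), gPhi a < F t :=
      (continuous_gPhi.tendsto _).eventually (gt_mem_nhds hcon)
    have h2 : ∀ᶠ a in 𝓝[>] (-q - f / gphi q * t), gPhi a < F t := h1.filter_mono nhdsWithin_le_nhds
    obtain ⟨a, ha⟩ := (h2.and self_mem_nhdsWithin).exists
    exact ⟨a, ha.1, ha.2⟩
  have hclosed : ∀ s : ℝ, IsClosed {x : E | x - s • y ∈ A} := fun s =>
    hA.preimage (continuous_id.sub continuous_const)
  have hconv' : ∀ s : ℝ, Convex ℝ {x : E | x - s • y ∈ A} := by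
    intro s x hx x' hx' a b ha hb hab
    have := hconv hx hx' ha hb hab
    simp only [mem_setOf_eq] at *
    have e : a • x + b • x' - s • y = a • (x - s • y) + b • (x' - s • y) := by
      rw [smul_sub, smul_sub, sub_add_sub_comm, ← add_smul, hab, one_smul]
    rw [e]
    exact this
  have hiter : ∀ n : ℕ, gPhi (-q + (α + q) / 2 ^ n) ≤ F (t / 2 ^ n) := by
    intro n
    induction n with
    | zero => simp only [pow_zero, div_one]; rw [show -q + (α + q) = α by ring]; exact hα1.le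
    | succ n ih =>
      have := ehrhard_midpoint {x : E | x - (t / 2 ^ (n + 1)) • y ∈ A}
        {x : E | x - (t / 2 ^ n) • y ∈ A} A (hconv' _) (hconv' _) hconv (hclosed _) (hclosed _) hA
        (by
          intro x hx x' hx'
          have h1 := hconv hx hx' (by norm_num : (0:ℝ) ≤ 1/2) (by norm_num : (0:ℝ) ≤ 1/2)
            (by norm_num)
          simp only [mem_setOf_eq] at *
          have e : (1/2 : ℝ) • (x + x') - (t / 2 ^ (n + 1)) • y
            = (1/2 : ℝ) • (x - (t / 2 ^ n) • y) + (1/2 : ℝ) • x' := by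
            rw [smul_sub, smul_add, smul_smul]
            have : (1/2 : ℝ) * (t / 2 ^ n) = t / 2 ^ (n + 1) := by rw [pow_succ]; field_simp
            rw [this]
            abel
          rw [e]
          exact h1)
        (-q + (α + q) / 2 ^ n) (-q) ih hq.le
      have e : (-q + (α + q) / 2 ^ n + -q) / 2 = -q + (α + q) / 2 ^ (n + 1) := by
        rw [pow_succ]; field_simp; ring
      rw [e] at this
      exact this
  -- derivative comparison
  set G : ℝ → ℝ := fun s => gPhi (-q + (α + q) / t * s) with hG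
  have hGd : HasDerivAt G (gphi q * ((α + q) / t)) 0 := by
    have h1 : HasDerivAt (fun s : ℝ => -q + (α + q) / t * s) ((α + q) / t) 0 := by
      simpa using ((hasDerivAt_id (0:ℝ)).const_mul ((α + q) / t)).const_add (-q)
    have h2 := (hasDerivAt_gPhi (-q + (α + q) / t * 0)).comp (0:ℝ) h1
    have e : gphi (-q + (α + q) / t * 0) = gphi q := by rw [mul_zero, add_zero, gphi_neg]
    rw [e] at h2
    exact h2
  have hFd : HasDerivAt F (-f) 0 := hasDerivAt_translate A hA.measurableSet y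
  have hsub := hFd.sub hGd
  have hslope := hsub.tendsto_slope_zero_right
  have hseq : Tendsto (fun n : ℕ => t / 2 ^ n) atTop (𝓝[>] 0) := by
    rw [tendsto_nhdsWithin_iff]
    refine ⟨?_, Eventually.of_forall fun n => ?_⟩
    · have := (tendsto_pow_atTop_nhds_zero_of_lt_one (by norm_num : (0:ℝ) ≤ 1/2)
        (by norm_num : (1/2 : ℝ) < 1)).const_mul t
      rw [mul_zero] at this
      refine this.congr fun n => ?_
      rw [one_div, inv_pow]; rfl
    · show 0 < t / 2 ^ n
      positivity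
  have hlim := hslope.comp hseq
  have hge : 0 ≤ -f - gphi q * ((α + q) / t) := by
    apply ge_of_tendsto hlim
    apply Eventually.of_forall
    intro n
    simp only [Function.comp, zero_add, Pi.sub_apply, smul_eq_mul]
    have h1 : F 0 - G 0 = 0 := by
      rw [hF0]; simp [hG]
    rw [h1, sub_zero]
    have h2 : 0 ≤ F (t / 2 ^ n) - G (t / 2 ^ n) := by
      have h3 : G (t / 2 ^ n) = gPhi (-q + (α + q) / 2 ^ n) := by
        simp only [hG]
        congr 2
        field_simp
      rw [h3]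
      linarith [hiter n]
    have h4 : 0 ≤ (t / 2 ^ n)⁻¹ := by positivity
    exact mul_nonneg h4 h2
  have h5 : gphi q * ((α + q) / t) ≤ -f := by linarith
  have h6 : α + q ≤ -f / gphi q * t := by
    rw [mul_div_assoc', div_le_iff₀ ht] at h5
    rw [div_mul_eq_mul_div, le_div_iff₀ hφ]
    linarith
  have h7 : -f / gphi q * t = -(f / gphi q * t) := by ring
  rw [h7] at h6
  linarith

theorem delCost_le {ι : Type*} [Fintype ι] [DecidableEq ι] (z : ι → E) (j : ι)
    (hex : ∃ i, i ≠ j) (y : E)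
    (hy : ∀ i, i ≠ j → ⟪z j - z i, y⟫ = 1) (q : ℝ)
    (hq : gPhi (-q) = (stdGaussian E).real (cell z j))
    (hf : 0 < ⟪∫ x in cell z j, x ∂(stdGaussian E), y⟫) :
    delCost z j ≤ gphi q * gL q / ⟪∫ x in cell z j, x ∂(stdGaussian E), y⟫ := by
  obtain ⟨i₀, hi₀⟩ := hex
  haveI : Nonempty {i // i ≠ j} := ⟨⟨i₀, hi₀⟩⟩
  have hφ := gphi_pos q
  set f := ⟪∫ x in cell z j, x ∂(stdGaussian E), y⟫ with hfdef
  have hclosed := isClosed_cell z j
  have hconv : Convex ℝ (cell z j) := by
    intro x hx x' hx' a b ha hb hab l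
    rw [inner_add_right, inner_add_right, real_inner_smul_right, real_inner_smul_right,
      real_inner_smul_right, real_inner_smul_right]
    exact add_le_add (mul_le_mul_of_nonneg_left (hx l) ha) (mul_le_mul_of_nonneg_left (hx' l) hb)
  have hint : Integrable (fun x : E => max 0 (⟪z j, x⟫ - ⨆ i : {i // i ≠ j}, ⟪z i.1, x⟫))
      (stdGaussian E) := by
    have h1 := ((integrable_inner_std (z j)).sub
      (integrable_sup_inner (fun i : {i // i ≠ j} => z i.1))).pos_part
    refine h1.congr (Eventually.of_forall fun x => ?_)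
    simp [max_comm]
  unfold delCost
  rw [hint.integral_eq_integral_meas_le (Eventually.of_forall fun x => le_max_left _ _)]
  have hc : 0 < f / gphi q := by positivity
  obtain ⟨hI1, hI2⟩ := integral_gPhi_line q (f / gphi q) hc
  have hle : ∫ t in Ioi (0:ℝ), (stdGaussian E).real
      {x : E | t ≤ max 0 (⟪z j, x⟫ - ⨆ i : {i // i ≠ j}, ⟪z i.1, x⟫)}
      ≤ ∫ t in Ioi (0:ℝ), gPhi (-q - f / gphi q * t) := by
    apply integral_mono_of_nonneg (Eventually.of_forall fun t => measureReal_nonneg) hI1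
    filter_upwards [ae_restrict_mem measurableSet_Ioi] with t ht
    have ht' : 0 < t := ht
    refine le_trans (le_of_eq ?_) (translate_le (cell z j) hclosed hconv y q hq t ht')
    congr 1
    ext x
    simp only [mem_setOf_eq, cell]
    have key : t ≤ max 0 (⟪z j, x⟫ - ⨆ i : {i // i ≠ j}, ⟪z i.1, x⟫) ↔
        ∀ i : {i // i ≠ j}, ⟪z i.1, x⟫ ≤ ⟪z j, x⟫ - t := by
      rw [le_max_iff]
      constructor
      · rintro (h | h)
        · exact absurd h (not_le.2 ht')
        · intro i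
          have := le_sup_inner (fun i : {i // i ≠ j} => z i.1) x i
          linarith
      · intro h
        right
        have := ciSup_le h
        linarith
    rw [key]
    constructor
    · intro h l
      rcases eq_or_ne l j with rfl | hl
      · exact le_rfl
      · have h1 := h ⟨l, hl⟩
        have h2 := hy l hl
        rw [inner_sub_left] at h2
        rw [inner_sub_right, inner_sub_right, real_inner_smul_right, real_inner_smul_right]
        simp only at h1
        nlinarith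
    · intro h i
      have h1 := h i.1
      have h2 := hy i.1 i.2
      rw [inner_sub_left] at h2
      rw [inner_sub_right, inner_sub_right, real_inner_smul_right, real_inner_smul_right] at h1
      nlinarith
  refine hle.trans (le_of_eq ?_)
  rw [hI2]
  field_simp

end Crest.Agent.PH
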