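import Crest.Agent.PH.Basic
import Crest.Agent.PH.F1
set_option autoImplicit false
namespace Crest.Agent.PH
open MeasureTheory ProbabilityTheory Set Filter
open scoped Topology

/-- tangent line bound from the midpoint inequality -/
theorem tangent_bound (F : ℝ → ℝ) (q f : ℝ) (hF0 : F 0 = gPhi (-q))
    (hmid : ∀ s t : ℝ, 0 ≤ s → 0 ≤ t → ∀ x y : ℝ, gPhi x ≤ F s → gPhi y ≤ F t →
      gPhi ((x + y) / 2) ≤ F ((s + t) / 2))
    (hd : HasDerivWithinAt F (-f) (Ici 0) 0) (t : ℝ) (ht : 0 ≤ t) :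
    F t ≤ gPhi (-q - f / gphi q * t) := by
  rcases ht.eq_or_lt with h0 | ht0
  · rw [← h0, hF0]; simp
  by_contra hcon
  push Not at hcon
  -- choose a slightly larger level
  obtain ⟨a, ha1, ha2⟩ : ∃ a, -q - f / gphi q * t < a ∧ gPhi a ≤ F t := by
    have h1 : ∀ᶠ a in 𝓝 (-q - f / gphi q * t), gPhi a < F t :=
      continuous_gPhi.continuousAt.eventually (gt_mem_nhds hcon)
    have h2 : ∀ᶠ a in 𝓝[>] (-q - f / gphi q * t), gPhi a < F t := h1.filter_mono nhdsWithin_le_nhds
    obtain ⟨a, ha1, ha2⟩ := (h2.and self_mem_nhdsWithin).exists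
    exact ⟨a, ha2, ha1.le⟩
  have hit : ∀ n : ℕ, gPhi (-q + (a + q) / 2 ^ n) ≤ F (t / 2 ^ n) := by
    intro n
    induction n with
    | zero =>
      rw [pow_zero, div_one, div_one]
      have : -q + (a + q) = a := by ring
      rw [this]; exact ha2
    | succ n ih =>
      have h1 := hmid 0 (t / 2 ^ n) le_rfl (by positivity) (-q) (-q + (a + q) / 2 ^ n)
        hF0.ge ih
      have e1 : (-q + (-q + (a + q) / 2 ^ n)) / 2 = -q + (a + q) / 2 ^ (n + 1) := by
        rw [pow_succ]; field_simp; ring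
      have e2 : (0 + t / 2 ^ n) / 2 = t / 2 ^ (n + 1) := by
        rw [pow_succ]; field_simp; ring
      rw [e1, e2] at h1
      exact h1
  have hs : Tendsto (fun n : ℕ => t / 2 ^ n) atTop (𝓝[Ioi 0] 0) := by
    apply tendsto_nhdsWithin_of_tendsto_nhds_of_eventually_within
    · have := (tendsto_pow_atTop_nhds_zero_of_lt_one (r := (1/2:ℝ)) (by norm_num) (by norm_num)).const_mul t
      rw [mul_zero] at this
      refine this.congr fun n => ?_
      rw [one_div, inv_pow, div_eq_mul_inv]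
    · exact Eventually.of_forall fun n => by
        show 0 < t / 2 ^ n
        positivity
  -- slopes
  have hslope : Tendsto (fun n : ℕ => (F (t / 2 ^ n) - F 0) / (t / 2 ^ n)) atTop (𝓝 (-f)) := by
    have h1 := (hasDerivWithinAt_iff_tendsto_slope' (by simp : (0:ℝ) ∉ Ioi (0:ℝ))).mp
      (hd.mono Ioi_subset_Ici_self)
    have h2 := h1.comp hs
    refine h2.congr fun n => ?_
    simp only [Function.comp_apply, slope_def_field, sub_zero]
  have hg : HasDerivAt (fun s : ℝ => gPhi (-q + (a + q) / t * s)) (gphi (-q) * ((a + q) / t)) 0 := by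
    have h1 : HasDerivAt (fun s : ℝ => -q + (a + q) / t * s) ((a + q) / t) 0 := by
      simpa using ((hasDerivAt_id (0:ℝ)).const_mul ((a + q) / t)).const_add (-q)
    have h2 : HasDerivAt gPhi (gphi (-q)) (-q + (a + q) / t * 0) := by
      rw [mul_zero, add_zero]; exact hasDerivAt_gPhi _
    exact h2.comp (0:ℝ) h1
  have hslope2 : Tendsto (fun n : ℕ => (gPhi (-q + (a + q) / 2 ^ n) - gPhi (-q)) / (t / 2 ^ n)) atTop
      (𝓝 (gphi (-q) * ((a + q) / t))) := by
    have h1 := (hasDerivWithinAt_iff_tendsto_slope' (by simp : (0:ℝ) ∉ Ioi (0:ℝ))).mp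
      (hg.hasDerivWithinAt (s := Ioi 0))
    have h2 := h1.comp hs
    refine h2.congr fun n => ?_
    simp only [Function.comp_apply, slope_def_field, sub_zero, mul_zero, add_zero]
    have : (a + q) / t * (t / 2 ^ n) = (a + q) / 2 ^ n := by field_simp
    rw [this]
  have hle := le_of_tendsto_of_tendsto' hslope2 hslope (fun n => by
    have hp : 0 < t / 2 ^ n := by positivity
    rw [hF0]
    exact div_le_div_of_nonneg_right (sub_le_sub_right (hit n) _) hp.le)
  rw [gphi_neg] at hle
  have hφ := gphi_pos q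
  have h3 : a + q ≤ -f / gphi q * t := by
    rw [div_mul_eq_mul_div, le_div_iff₀ hφ]
    rw [mul_div_assoc', div_le_iff₀ ht0] at hle
    linarith
  have h4 : -f / gphi q * t = -(f / gphi q * t) := by ring
  rw [h4] at h3
  linarith

theorem tendsto_gL_atTop : Tendsto gL atTop (𝓝 0) := by
  apply tendsto_of_tendsto_of_tendsto_of_le_of_le' tendsto_const_nhds tendsto_gphi
  · exact Eventually.of_forall fun q => gL_nonneg q
  · filter_upwards [eventually_ge_atTop (0:ℝ)] with q hq
    exact gL_le_gphi hq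

theorem hasDerivAt_gL_lin (q c : ℝ) (hc : 0 < c) (t : ℝ) :
    HasDerivAt (fun t : ℝ => -(gL (q + c * t)) / c) (gPhi (-q - c * t)) t := by
  have h1 : HasDerivAt (fun t : ℝ => q + c * t) c t := by
    simpa using ((hasDerivAt_id t).const_mul c).const_add q
  have h2 : HasDerivAt (fun t : ℝ => gL (q + c * t)) (-gPhi (-(q + c * t)) * c) t :=
    HasDerivAt.comp (h₂ := gL) (h := fun t : ℝ => q + c * t) t (hasDerivAt_gL (q + c * t)) h1
  have h3 := (h2.neg).div_const c
  have e : -(-gPhi (-(q + c * t)) * c) / c = gPhi (-q - c * t) := by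
    rw [neg_add']
    field_simp
  rw [e] at h3
  exact h3

theorem tendsto_gL_lin (q c : ℝ) (hc : 0 < c) :
    Tendsto (fun t : ℝ => -(gL (q + c * t)) / c) atTop (𝓝 0) := by
  have h1 : Tendsto (fun t : ℝ => q + c * t) atTop atTop :=
    tendsto_atTop_add_const_left _ _ (tendsto_id.const_mul_atTop hc)
  have h2 := ((tendsto_gL_atTop.comp h1).neg).div_const c
  simpa using h2

theorem integrableOn_gPhi_lin (q c : ℝ) (hc : 0 < c) :
    IntegrableOn (fun t : ℝ => gPhi (-q - c * t)) (Ioi 0) :=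
  integrableOn_Ioi_deriv_of_nonneg' (fun t _ => hasDerivAt_gL_lin q c hc t)
    (fun t _ => gPhi_nonneg _) (tendsto_gL_lin q c hc)

theorem integral_gPhi_lin (q c : ℝ) (hc : 0 < c) :
    ∫ t in Ioi (0:ℝ), gPhi (-q - c * t) = gL q / c := by
  have := integral_Ioi_of_hasDerivAt_of_nonneg' (a := 0) (fun t _ => hasDerivAt_gL_lin q c hc t)
    (fun t _ => gPhi_nonneg _) (tendsto_gL_lin q c hc)
  rw [this]
  simp only [mul_zero, add_zero]
  ring

end Crest.Agent.PH
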