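/-
Package B2 of row 215 (S0334, propeller bound): bathtub bound and Cameron-Martin translates.
-/
import Crest.Agent.PH.Basic
import Crest.Agent.PH.C1
import Crest.Agent.PH.E3

set_option autoImplicit false

namespace Crest.Agent.PH

open MeasureTheory ProbabilityTheory Set
open scoped RealInnerProductSpace ENNReal

variable {E : Type*} [NormedAddCommGroup E] [InnerProductSpace ℝ E] [FiniteDimensional ℝ E]
  [MeasurableSpace E] [BorelSpace E]

/-- `gL q = E (ξ - q)_+` -/
lemma gL_eq_integral (q : ℝ) : ∫ t, max 0 (t - q) ∂(gaussianReal 0 1) = gL q := by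
  rw [integral_gaussianReal_eq_integral_smul (by simp)]
  simp_rw [← gphi_eq_pdf, smul_eq_mul]
  have h1 : ∀ t, gphi t * max 0 (t - q) = (Ioi q).indicator (fun t => gphi t * (t - q)) t := by
    intro t
    by_cases ht : t ∈ Ioi q
    · rw [indicator_of_mem ht, max_eq_right (by linarith [mem_Ioi.1 ht])]
    · rw [indicator_of_notMem ht, max_eq_left (by rw [mem_Ioi] at ht; linarith), mul_zero]
  simp_rw [h1]
  rw [integral_indicator measurableSet_Ioi]
  have h2 : ∫ t in Ioi q, gphi t * (t - q) = (-0 - q * 1) - (-gphi q - q * gPhi q) := by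
    refine integral_Ioi_of_hasDerivAt_of_nonneg' (g := fun t => -gphi t - q * gPhi t) ?_ ?_ ?_
    · intro t _
      have h3 := (hasDerivAt_gphi t).neg.sub ((hasDerivAt_gPhi t).const_mul q)
      have e : -(-t * gphi t) - q * gphi t = gphi t * (t - q) := by ring
      rw [e] at h3
      exact h3
    · intro t ht
      exact mul_nonneg (gphi_pos t).le (by linarith [mem_Ioi.1 ht])
    · exact tendsto_gphi_atTop.neg.sub (tendsto_gPhi_atTop.const_mul q)
  rw [h2]
  unfold gL
  rw [gPhi_neg]
  ring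

/-- bathtub: first moment of a set in a unit direction. -/
theorem bathtub (A : Set E) (hA : MeasurableSet A) (e : E) (he : ‖e‖ = 1) (q₀ : ℝ) :
    ⟪∫ x in A, x ∂(stdGaussian E), e⟫ ≤ q₀ * (stdGaussian E).real A + gL q₀ := by
  rw [real_inner_comm, ← integral_inner integrable_id_std.integrableOn]
  have hi : Integrable (fun x : E => ⟪e, x⟫ - q₀) (stdGaussian E) :=
    (integrable_inner_std e).sub (integrable_const q₀)
  have hi2 : Integrable (fun x : E => max 0 (⟪e, x⟫ - q₀)) (stdGaussian E) :=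
    (integrable_const (0:ℝ)).sup hi
  have h1 : ∫ x in A, (⟪e, x⟫ - q₀) ∂(stdGaussian E) ≤ ∫ x in A, max 0 (⟪e, x⟫ - q₀) ∂(stdGaussian E) :=
    setIntegral_mono hi.integrableOn hi2.integrableOn fun x => le_max_right _ _
  have h2 : ∫ x in A, max 0 (⟪e, x⟫ - q₀) ∂(stdGaussian E) ≤ ∫ x, max 0 (⟪e, x⟫ - q₀) ∂(stdGaussian E) :=
    setIntegral_le_integral hi2 (Filter.Eventually.of_forall fun x => le_max_left _ _)
  have h3 : ∫ x, max 0 (⟪e, x⟫ - q₀) ∂(stdGaussian E) = gL q₀ := by
    rw [← gL_eq_integral, ← map_inner_std e he, integral_map (by fun_prop) (by fun_prop)]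
  rw [integral_sub (integrable_inner_std e).integrableOn (integrable_const q₀), setIntegral_const,
    smul_eq_mul] at h1
  linarith

lemma gaussian_shift (a : ℝ) : (gaussianReal 0 1).map (fun s => s - a)
    = (gaussianReal 0 1).withDensity (fun s => ENNReal.ofReal (Real.exp (-(a * s) - a ^ 2 / 2))) := by
  have h1 : (1 : NNReal) ≠ 0 := by simp
  rw [gaussianReal_map_sub_const, gaussianReal_of_var_ne_zero _ h1, gaussianReal_of_var_ne_zero _ h1,
    ← withDensity_mul _ (by fun_prop) (by fun_prop)]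
  congr 1
  ext s
  simp only [gaussianPDF, Pi.mul_apply]
  rw [← ENNReal.ofReal_mul (gaussianPDFReal_nonneg _ _ _)]
  congr 1
  simp only [gaussianPDFReal, NNReal.coe_one, mul_one, sub_zero, zero_sub]
  rw [mul_assoc (Real.sqrt (2 * Real.pi))⁻¹, ← Real.exp_add]
  congr 2
  ring

/-- Cameron-Martin formula -/
theorem cameron_martin (y : E) : (stdGaussian E).map (fun x => x - y)
    = (stdGaussian E).withDensity (fun x => ENNReal.ofReal (Real.exp (-⟪y, x⟫ - ‖y‖ ^ 2 / 2))) := by
  by_cases hy : y = 0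
  · subst hy
    simp
  set a := ‖y‖ with ha
  have ha0 : 0 < a := norm_pos_iff.2 hy
  set e : E := a⁻¹ • y with he
  have hen : ‖e‖ = 1 := by
    rw [he, norm_smul, norm_inv, Real.norm_of_nonneg ha0.le, ← ha]
    field_simp
  have hye : y = a • e := by rw [he, smul_smul, mul_inv_cancel₀ ha0.ne', one_smul]
  set T : E × ℝ → E := fun p => p.1 - ⟪e, p.1⟫ • e + p.2 • e with hT
  have hTm : Measurable T := by rw [hT]; fun_prop
  have hmap : ((stdGaussian E).prod (gaussianReal 0 1)).map T = stdGaussian E := map_split e hen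
  ext S hS
  rw [Measure.map_apply (by fun_prop) hS, withDensity_apply _ hS]
  have hL : (stdGaussian E) ((fun x => x - y) ⁻¹' S)
      = ((stdGaussian E).prod (gaussianReal 0 1)) {p | T (p.1, p.2 - a) ∈ S} := by
    conv_lhs => rw [← hmap]
    rw [Measure.map_apply hTm (measurableSet_preimage (by fun_prop) hS)]
    congr 1
    ext p
    simp only [mem_preimage, mem_ofPred_eq, hT]
    have : p.1 - ⟪e, p.1⟫ • e + p.2 • e - y = p.1 - ⟪e, p.1⟫ • e + (p.2 - a) • e := by
      rw [hye]; module
    rw [this]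
  have hR : ∫⁻ x in S, ENNReal.ofReal (Real.exp (-⟪y, x⟫ - a ^ 2 / 2)) ∂(stdGaussian E)
      = ∫⁻ p in T ⁻¹' S, ENNReal.ofReal (Real.exp (-(a * p.2) - a ^ 2 / 2))
        ∂((stdGaussian E).prod (gaussianReal 0 1)) := by
    conv_lhs => rw [← hmap]
    rw [setLIntegral_map hS (by fun_prop) hTm]
    refine setLIntegral_congr_fun (hTm hS) fun p _ => ?_
    have : ⟪y, T p⟫ = a * p.2 := by
      rw [hye, real_inner_smul_left, hT]
      simp only
      rw [inner_split e p.1 hen]
    simp only [this]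
  rw [hL, hR]
  have hm1 : MeasurableSet {p : E × ℝ | T (p.1, p.2 - a) ∈ S} :=
    (hTm.comp (by fun_prop : Measurable fun p : E × ℝ => (p.1, p.2 - a))) hS
  rw [Measure.prod_apply hm1, ← lintegral_indicator (hTm hS), lintegral_prod _ (by
    exact (Measurable.indicator (by fun_prop) (hTm hS)).aemeasurable)]
  congr 1
  ext z
  have hm2 : MeasurableSet {s : ℝ | T (z, s) ∈ S} :=
    (hTm.comp (by fun_prop : Measurable fun s : ℝ => (z, s))) hS
  have e1 : Prod.mk z ⁻¹' {p : E × ℝ | T (p.1, p.2 - a) ∈ S} = (fun s => s - a) ⁻¹' {s | T (z, s) ∈ S} := rfl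
  rw [e1, ← Measure.map_apply (by fun_prop) hm2, gaussian_shift, withDensity_apply _ hm2,
    ← lintegral_indicator hm2]
  rfl

/-- measure of a translate -/
theorem measure_translate (A : Set E) (hA : MeasurableSet A) (y : E) (t : ℝ) :
    (stdGaussian E).real {x | x - t • y ∈ A}
      = ∫ x in A, Real.exp (-(t * ⟪y, x⟫) - t ^ 2 * ‖y‖ ^ 2 / 2) ∂(stdGaussian E) := by
  have h1 := cameron_martin (t • y)
  have h2 : (stdGaussian E) {x | x - t • y ∈ A} = ((stdGaussian E).map (fun x => x - t • y)) A := by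
    rw [Measure.map_apply (by fun_prop) hA]; rfl
  rw [measureReal_def, h2, h1, withDensity_apply _ hA, integral_eq_lintegral_of_nonneg_ae
    (Filter.Eventually.of_forall fun x => (Real.exp_pos _).le) (by fun_prop)]
  congr 2
  ext x
  congr 2
  rw [real_inner_smul_left, norm_smul, mul_pow, Real.norm_eq_abs, sq_abs]

lemma integrable_exp_inner (y : E) (c : ℝ) :
    Integrable (fun x : E => Real.exp (c * ⟪y, x⟫)) (stdGaussian E) := by
  have h1 : Integrable (fun s : ℝ => Real.exp (c * s)) ((stdGaussian E).map (fun x : E => ⟪y, x⟫)) := by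
    rw [map_inner_gen, integrable_map_measure (by fun_prop) (by fun_prop)]
    have := integrable_exp_mul_gaussianReal (μ := 0) (v := 1) (c * ‖y‖)
    refine this.congr (Filter.Eventually.of_forall fun s => ?_)
    simp only [Function.comp]
    congr 1
    ring
  rw [integrable_map_measure (by fun_prop) (by fun_prop)] at h1
  exact h1

theorem hasDerivAt_translate (A : Set E) (hA : MeasurableSet A) (y : E) (t₀ : ℝ) :
    HasDerivAt (fun t : ℝ => (stdGaussian E).real {x | x - t • y ∈ A})
      (∫ x in A, (-⟪y, x⟫ - t₀ * ‖y‖ ^ 2) * Real.exp (-(t₀ * ⟪y, x⟫) - t₀ ^ 2 * ‖y‖ ^ 2 / 2)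
        ∂(stdGaussian E)) t₀ := by
  have hfun : (fun t : ℝ => (stdGaussian E).real {x | x - t • y ∈ A})
      = fun t => ∫ x in A, Real.exp (-(t * ⟪y, x⟫) - t ^ 2 * ‖y‖ ^ 2 / 2) ∂(stdGaussian E) := by
    ext t
    exact measure_translate A hA y t
  rw [hfun]
  set c := |t₀| + 1 with hc
  have hc0 : 0 ≤ c := by positivity
  set n := ‖y‖ ^ 2 with hn
  have hn0 : 0 ≤ n := by positivity
  refine (hasDerivAt_integral_of_dominated_loc_of_deriv_le (μ := (stdGaussian E).restrict A)
    (F := fun t x => Real.exp (-(t * ⟪y, x⟫) - t ^ 2 * n / 2))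
    (F' := fun t x => (-⟪y, x⟫ - t * n) * Real.exp (-(t * ⟪y, x⟫) - t ^ 2 * n / 2))
    (bound := fun x => (1 + c * n) * (Real.exp ((c + 1) * ⟪y, x⟫) + Real.exp (-(c + 1) * ⟪y, x⟫)))
    (s := Metric.ball t₀ 1) (Metric.ball_mem_nhds t₀ one_pos) ?_ ?_ ?_ ?_ ?_ ?_).2
  · exact Filter.Eventually.of_forall fun t => by fun_prop
  · have h1 := (integrable_exp_inner y (-t₀)).const_mul (Real.exp (-(t₀ ^ 2 * n / 2)))
    refine (h1.congr (Filter.Eventually.of_forall fun x => ?_)).integrableOn
    simp only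
    rw [← Real.exp_add]
    congr 1
    ring
  · fun_prop
  · refine Filter.Eventually.of_forall fun x t ht => ?_
    have ht1 : |t| ≤ c := by
      rw [Metric.mem_ball, Real.dist_eq] at ht
      have := abs_sub_abs_le_abs_sub t t₀
      rw [hc]; linarith
    set u := ⟪y, x⟫ with hu
    rw [Real.norm_eq_abs, abs_mul, abs_of_pos (Real.exp_pos _)]
    have q1 : |-u - t * n| ≤ |u| + c * n := by
      have : |-u - t * n| ≤ |-u| + |t * n| := abs_sub _ _
      rw [abs_neg, abs_mul, abs_of_nonneg hn0] at this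
      nlinarith [mul_le_mul_of_nonneg_right ht1 hn0]
    have q2 : Real.exp (-(t * u) - t ^ 2 * n / 2) ≤ Real.exp (c * |u|) := by
      apply Real.exp_le_exp.2
      have a1 : -(t * u) ≤ |t| * |u| := by rw [← abs_mul]; exact neg_le_abs _
      have a2 : |t| * |u| ≤ c * |u| := mul_le_mul_of_nonneg_right ht1 (abs_nonneg u)
      have a3 : 0 ≤ t ^ 2 * n / 2 := by positivity
      linarith
    have q3 : |u| ≤ Real.exp |u| := by linarith [Real.add_one_le_exp |u|]
    have q4 : 1 ≤ Real.exp |u| := Real.one_le_exp (abs_nonneg u)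
    have q5 : |u| + c * n ≤ (1 + c * n) * Real.exp |u| := by
      have : c * n * 1 ≤ c * n * Real.exp |u| := mul_le_mul_of_nonneg_left q4 (by positivity)
      linarith
    have q6 : Real.exp ((c + 1) * |u|) ≤ Real.exp ((c + 1) * u) + Real.exp (-(c + 1) * u) := by
      rcases abs_cases u with ⟨h, _⟩ | ⟨h, _⟩
      · rw [h]; linarith [Real.exp_pos (-(c + 1) * u)]
      · rw [h]
        have : (c + 1) * -u = -(c + 1) * u := by ring
        rw [this]; linarith [Real.exp_pos ((c + 1) * u)]
    calc |-u - t * n| * Real.exp (-(t * u) - t ^ 2 * n / 2)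
        ≤ ((1 + c * n) * Real.exp |u|) * Real.exp (c * |u|) :=
          mul_le_mul (q1.trans q5) q2 (Real.exp_pos _).le (by positivity)
      _ = (1 + c * n) * Real.exp ((c + 1) * |u|) := by
          rw [mul_assoc, ← Real.exp_add]
          congr 2
          ring
      _ ≤ _ := mul_le_mul_of_nonneg_left q6 (by positivity)
  · exact (((integrable_exp_inner y (c + 1)).add (integrable_exp_inner y (-(c + 1)))).const_mul
      (1 + c * n)).integrableOn
  · refine Filter.Eventually.of_forall fun x t _ => ?_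
    have h1 : HasDerivAt (fun t : ℝ => -(t * ⟪y, x⟫) - t ^ 2 * n / 2) (-⟪y, x⟫ - t * n) t := by
      have h2 := (((hasDerivAt_id t).mul_const ⟪y, x⟫).neg).sub
        (((hasDerivAt_pow 2 t).mul_const n).div_const 2)
      have e : -(1 * ⟪y, x⟫) - ((2 : ℕ) : ℝ) * t ^ (2 - 1) * n / 2 = -⟪y, x⟫ - t * n := by
        push_cast
        norm_num
        ring
      rw [e] at h2
      exact h2
    have h3 := h1.exp
    rw [mul_comm] at h3
    exact h3

theorem continuous_translate (A : Set E) (hA : MeasurableSet A) (y : E) :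
    Continuous (fun t : ℝ => (stdGaussian E).real {x | x - t • y ∈ A}) :=
  continuous_iff_continuousAt.2 fun t => (hasDerivAt_translate A hA y t).continuousAt

theorem hasDerivAt_translate_zero (A : Set E) (hA : MeasurableSet A) (y : E) :
    HasDerivAt (fun t : ℝ => (stdGaussian E).real {x | x - t • y ∈ A})
      (-⟪∫ x in A, x ∂(stdGaussian E), y⟫) 0 := by
  have h := hasDerivAt_translate A hA y 0
  have e : ∫ x in A, (-⟪y, x⟫ - 0 * ‖y‖ ^ 2) * Real.exp (-(0 * ⟪y, x⟫) - 0 ^ 2 * ‖y‖ ^ 2 / 2)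
        ∂(stdGaussian E) = -⟪∫ x in A, x ∂(stdGaussian E), y⟫ := by
    rw [real_inner_comm, ← integral_inner integrable_id_std.integrableOn, ← integral_neg]
    congr 1
    ext x
    simp
  rw [e] at h
  exact h

end Crest.Agent.PH
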