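/-
Package D of row 215 (S0334, propeller bound): small cell estimate.
-/
import Crest.Agent.PH.Basic
import Crest.Agent.PH.C1
import Crest.Agent.PH.C2
import Crest.Agent.PH.E3

set_option autoImplicit false

namespace Crest.Agent.PH

open MeasureTheory ProbabilityTheory Set
open scoped RealInnerProductSpace ENNReal

variable {E : Type*} [NormedAddCommGroup E] [InnerProductSpace ℝ E] [FiniteDimensional ℝ E]
  [MeasurableSpace E] [BorelSpace E]

lemma isClosed_three {X : Type*} [TopologicalSpace X] (f g h : X → ℝ) (hf : Continuous f)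
    (hg : Continuous g) (hh : Continuous h) (r : ℝ) :
    IsClosed {x | f x ≤ r ∧ g x ≤ r ∧ h x ≤ r} := by
  have e : {x | f x ≤ r ∧ g x ≤ r ∧ h x ≤ r} = {x | f x ≤ r} ∩ ({x | g x ≤ r} ∩ {x | h x ≤ r}) := by
    ext x; simp
  rw [e]
  exact (isClosed_le hf continuous_const).inter
    ((isClosed_le hg continuous_const).inter (isClosed_le hh continuous_const))

/-- Lebesgue area of the triangle `α s ≤ r`, `β s + κ t ≤ r`, `-α s - β s - κ t ≤ r`. -/
lemma triangle_area (α β κ r : ℝ) (hα : 0 < α) (hκ : 0 < κ) (hr : 0 ≤ r) :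
    (volume : Measure (ℝ × ℝ)) {p | α * p.1 ≤ r ∧ β * p.1 + κ * p.2 ≤ r ∧
      -(α * p.1) - (β * p.1 + κ * p.2) ≤ r} ≤ ENNReal.ofReal (9 * r ^ 2 / (2 * (α * κ))) := by
  set T : Set (ℝ × ℝ) := {p | α * p.1 ≤ r ∧ β * p.1 + κ * p.2 ≤ r ∧
      -(α * p.1) - (β * p.1 + κ * p.2) ≤ r} with hT
  have hTm : MeasurableSet T := by
    have : IsClosed T := isClosed_three (fun p : ℝ × ℝ => α * p.1)
      (fun p : ℝ × ℝ => β * p.1 + κ * p.2) (fun p : ℝ × ℝ => -(α * p.1) - (β * p.1 + κ * p.2))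
      (by fun_prop) (by fun_prop) (by fun_prop) r
    exact this.measurableSet
  have h1 : (volume : Measure (ℝ × ℝ)) T = ∫⁻ s, volume (Prod.mk s ⁻¹' T) := by
    exact Measure.prod_apply hTm
  rw [h1]
  have h2 : ∀ s : ℝ, volume (Prod.mk s ⁻¹' T)
      ≤ (Icc (-(2 * r) / α) (r / α)).indicator (fun s => ENNReal.ofReal ((2 * r + α * s) / κ)) s := by
    intro s
    by_cases hs : s ∈ Icc (-(2 * r) / α) (r / α)
    · rw [indicator_of_mem hs]
      have h3 : Prod.mk s ⁻¹' T ⊆ Icc ((-r - α * s - β * s) / κ) ((r - β * s) / κ) := by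
        intro t ht
        simp only [hT, mem_preimage, mem_ofPred_eq] at ht
        constructor
        · rw [div_le_iff₀ hκ]; linarith [ht.2.2]
        · rw [le_div_iff₀ hκ]; linarith [ht.2.1]
      refine (measure_mono h3).trans ?_
      rw [Real.volume_Icc]
      apply le_of_eq
      congr 1
      field_simp
      ring
    · rw [indicator_of_notMem hs]
      have h3 : Prod.mk s ⁻¹' T = ∅ := by
        ext t
        simp only [hT, mem_preimage, mem_ofPred_eq, mem_empty_iff_false, iff_false]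
        intro ht
        apply hs
        constructor
        · rw [div_le_iff₀ hα]; linarith [ht.2.2, ht.2.1]
        · rw [le_div_iff₀ hα]; linarith [ht.1]
      rw [h3]; simp
  refine (lintegral_mono h2).trans ?_
  rw [lintegral_indicator measurableSet_Icc]
  have hab : -(2 * r) / α ≤ r / α := by
    apply div_le_div_of_nonneg_right _ hα.le
    linarith
  have h4 : ∫⁻ s in Icc (-(2 * r) / α) (r / α), ENNReal.ofReal ((2 * r + α * s) / κ)
      = ENNReal.ofReal (∫ s in Icc (-(2 * r) / α) (r / α), (2 * r + α * s) / κ) := by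
    rw [ofReal_integral_eq_lintegral_ofReal]
    · exact (Continuous.continuousOn (by fun_prop)).integrableOn_compact isCompact_Icc
    · rw [Filter.EventuallyLE, ae_restrict_iff' measurableSet_Icc]
      refine Filter.Eventually.of_forall fun s hs => ?_
      have := hs.1
      rw [div_le_iff₀ hα] at this
      exact div_nonneg (by linarith) hκ.le
  rw [h4]
  apply ENNReal.ofReal_le_ofReal
  apply le_of_eq
  rw [integral_Icc_eq_integral_Ioc, ← intervalIntegral.integral_of_le hab]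
  have h5 : ∀ s ∈ uIcc (-(2 * r) / α) (r / α),
      HasDerivAt (fun s : ℝ => (2 * r + α * s) ^ 2 / (2 * α * κ)) ((2 * r + α * s) / κ) s := by
    intro s _
    have h6 : HasDerivAt (fun s : ℝ => 2 * r + α * s) (α * 1) s :=
      ((hasDerivAt_id s).const_mul α).const_add (2 * r)
    have h7 := (h6.pow 2).div_const (2 * α * κ)
    have e : (((2 : ℕ) : ℝ) * (2 * r + α * s) ^ (2 - 1) * (α * 1)) / (2 * α * κ) = (2 * r + α * s) / κ := by
      push_cast
      field_simp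
    rw [e] at h7
    exact h7
  rw [intervalIntegral.integral_eq_sub_of_hasDerivAt h5
    (Continuous.intervalIntegrable (by fun_prop) _ _)]
  field_simp
  ring

lemma g2_le_area (T : Set (ℝ × ℝ)) (hT : MeasurableSet T) :
    ((gaussianReal 0 1).prod (gaussianReal 0 1)) T
      ≤ ENNReal.ofReal ((2 * Real.pi)⁻¹) * (volume : Measure (ℝ × ℝ)) T := by
  rw [g2_eq, withDensity_apply _ hT, ← setLIntegral_const]
  refine setLIntegral_mono measurable_const fun y _ => ?_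
  apply ENNReal.ofReal_le_ofReal
  have h1 : Real.exp (-(y.1 ^ 2 + y.2 ^ 2) / 2) ≤ 1 := by
    rw [Real.exp_le_one_iff]
    nlinarith [sq_nonneg y.1, sq_nonneg y.2]
  have h2 : 0 ≤ (2 * Real.pi)⁻¹ := by positivity
  nlinarith

/-- Small ball estimate. `ζ₁ + ζ₂ + ζ₃ = 0`, `Δ² = |ζ₁|²|ζ₂|² - ⟪ζ₁,ζ₂⟫²`. -/
theorem small_ball (ζ₁ ζ₂ ζ₃ : E) (h0 : ζ₁ + ζ₂ + ζ₃ = 0) (Δ : ℝ) (hΔ : 0 < Δ)
    (hΔ2 : Δ ^ 2 ≤ ‖ζ₁‖ ^ 2 * ‖ζ₂‖ ^ 2 - ⟪ζ₁, ζ₂⟫ ^ 2) (r : ℝ) (hr : 0 ≤ r) :
    (stdGaussian E).real {x | ⟪ζ₁, x⟫ ≤ r ∧ ⟪ζ₂, x⟫ ≤ r ∧ ⟪ζ₃, x⟫ ≤ r}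
      ≤ 9 / (4 * Real.pi * Δ) * r ^ 2 := by
  have hD2 : 0 < Δ ^ 2 := by positivity
  have hζ₁ : ζ₁ ≠ 0 := by
    rintro rfl
    simp at hΔ2
    linarith
  set α := ‖ζ₁‖ with hα
  have hα0 : 0 < α := norm_pos_iff.2 hζ₁
  set e₁ : E := α⁻¹ • ζ₁ with he₁
  have he₁n : ‖e₁‖ = 1 := by
    rw [he₁, norm_smul, norm_inv, Real.norm_of_nonneg hα0.le, ← hα]
    field_simp
  have hζe : ζ₁ = α • e₁ := by rw [he₁, smul_smul, mul_inv_cancel₀ hα0.ne', one_smul]
  set β := ⟪e₁, ζ₂⟫ with hβ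
  have hin : ⟪ζ₁, ζ₂⟫ = α * β := by
    rw [hβ, ← real_inner_smul_left, ← hζe]
  set w : E := ζ₂ - β • e₁ with hw
  have hew : ⟪e₁, w⟫ = 0 := by
    rw [hw, inner_sub_right, real_inner_smul_right, real_inner_self_eq_norm_sq, he₁n, ← hβ]
    ring
  have hζw : ζ₂ = β • e₁ + w := by rw [hw]; abel
  have hn2 : ‖ζ₂‖ ^ 2 = β ^ 2 + ‖w‖ ^ 2 := by
    rw [hζw, norm_add_sq_real, real_inner_smul_left, hew, norm_smul, he₁n]
    simp
  set κ := ‖w‖ with hκ
  have hακ : Δ ^ 2 ≤ (α * κ) ^ 2 := by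
    rw [hin, hn2] at hΔ2
    nlinarith
  have hκ0 : 0 ≤ κ := norm_nonneg _
  have hακ' : Δ ≤ α * κ := by
    have : 0 ≤ α * κ := by positivity
    exact le_of_sq_le_sq hακ this
  have hκ1 : 0 < κ := by
    rcases eq_or_lt_of_le hκ0 with h | h
    · rw [← h] at hακ'; simp at hακ'; linarith
    · exact h
  set e₂ : E := κ⁻¹ • w with he₂
  have he₂n : ‖e₂‖ = 1 := by
    rw [he₂, norm_smul, norm_inv, Real.norm_of_nonneg hκ0, ← hκ]
    field_simp
  have hwe : w = κ • e₂ := by rw [he₂, smul_smul, mul_inv_cancel₀ hκ1.ne', one_smul]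
  have h12 : ⟪e₂, e₁⟫ = 0 := by
    rw [he₂, real_inner_smul_left, real_inner_comm, hew, mul_zero]
  -- the joint law
  have hlaw : (stdGaussian E).map (fun x => (⟪e₁, x⟫, ⟪e₂, x⟫))
      = (gaussianReal 0 1).prod (gaussianReal 0 1) := by
    rw [map_pair e₁ he₁n (fun x => ⟪e₂, x⟫) (by fun_prop), map_inner_std e₂ he₂n]
    intro z t
    simp only [inner_add_right, inner_sub_right, real_inner_smul_right, h12]
    ring
  set T : Set (ℝ × ℝ) := {p | α * p.1 ≤ r ∧ β * p.1 + κ * p.2 ≤ r ∧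
      -(α * p.1) - (β * p.1 + κ * p.2) ≤ r} with hT
  have hTm : MeasurableSet T := by
    have : IsClosed T := isClosed_three (fun p : ℝ × ℝ => α * p.1)
      (fun p : ℝ × ℝ => β * p.1 + κ * p.2) (fun p : ℝ × ℝ => -(α * p.1) - (β * p.1 + κ * p.2))
      (by fun_prop) (by fun_prop) (by fun_prop) r
    exact this.measurableSet
  have hset : {x : E | ⟪ζ₁, x⟫ ≤ r ∧ ⟪ζ₂, x⟫ ≤ r ∧ ⟪ζ₃, x⟫ ≤ r}
      = (fun x : E => (⟪e₁, x⟫, ⟪e₂, x⟫)) ⁻¹' T := by
    have h3 : ζ₃ = -ζ₁ - ζ₂ := by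
      have : ζ₃ = -(ζ₁ + ζ₂) := by rw [eq_neg_iff_add_eq_zero, add_comm]; exact h0
      rw [this]; abel
    ext x
    have a1 : ⟪ζ₁, x⟫ = α * ⟪e₁, x⟫ := by rw [← real_inner_smul_left, ← hζe]
    have a2 : ⟪ζ₂, x⟫ = β * ⟪e₁, x⟫ + κ * ⟪e₂, x⟫ := by
      rw [← real_inner_smul_left, ← real_inner_smul_left, ← inner_add_left, ← hwe, ← hζw]
    have a3 : ⟪ζ₃, x⟫ = -(α * ⟪e₁, x⟫) - (β * ⟪e₁, x⟫ + κ * ⟪e₂, x⟫) := by
      rw [h3, inner_sub_left, inner_neg_left, a1, a2]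
    simp only [mem_ofPred_eq, mem_preimage, hT, a1, a2, a3]
  rw [hset, measureReal_def, ← Measure.map_apply (by fun_prop) hTm, hlaw]
  have hfin := (g2_le_area T hTm).trans (mul_le_mul_right (triangle_area α β κ r hα0 hκ1 hr)
    (ENNReal.ofReal ((2 * Real.pi)⁻¹)))
  rw [← ENNReal.ofReal_mul (by positivity)] at hfin
  refine (ENNReal.toReal_le_of_le_ofReal (by positivity) hfin).trans ?_
  have hpi := Real.pi_pos
  have e1 : (2 * Real.pi)⁻¹ * (9 * r ^ 2 / (2 * (α * κ))) = 9 / (4 * Real.pi * (α * κ)) * r ^ 2 := by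
    field_simp
    ring
  rw [e1]
  apply mul_le_mul_of_nonneg_right _ (by positivity)
  apply div_le_div_of_nonneg_left (by norm_num) (by positivity)
  apply mul_le_mul_of_nonneg_left hακ' (by positivity)

/-- layer cake bound -/
lemma layer_bound {Ω : Type*} [MeasurableSpace Ω] (μ : Measure Ω) [IsFiniteMeasure μ] (M : Ω → ℝ)
    (hM : Measurable M) (hM0 : ∀ x, 0 ≤ M x) (K r : ℝ) (hr : 0 ≤ r)
    (h : ∀ ρ, 0 ≤ ρ → μ.real {x | M x ≤ ρ} ≤ K * ρ ^ 2) :
    ∫ x, max 0 (r - M x) ∂μ ≤ K * r ^ 3 / 3 := by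
  have hint : Integrable (fun x => max 0 (r - M x)) μ := by
    refine Integrable.of_bound (C := r) (by fun_prop) (Filter.Eventually.of_forall fun x => ?_)
    rw [Real.norm_of_nonneg (le_max_left _ _)]
    exact max_le hr (by linarith [hM0 x])
  rw [hint.integral_eq_integral_Ioc_meas_le (M := r)
    (Filter.Eventually.of_forall fun x => le_max_left _ _)
    (Filter.Eventually.of_forall fun x => max_le hr (by linarith [hM0 x]))]
  have h2 : ∫ t in Ioc 0 r, K * (r - t) ^ 2 = K * r ^ 3 / 3 := by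
    rw [← intervalIntegral.integral_of_le hr]
    have h5 : ∀ t ∈ uIcc 0 r,
        HasDerivAt (fun t : ℝ => -(K * (r - t) ^ 3 / 3)) (K * (r - t) ^ 2) t := by
      intro t _
      have h6 : HasDerivAt (fun t : ℝ => r - t) (-1) t := by
        simpa using (hasDerivAt_id t).const_sub r
      have h7 := (((h6.pow 3).const_mul K).div_const 3).neg
      have e : -(K * (((3 : ℕ) : ℝ) * (r - t) ^ (3 - 1) * (-1)) / 3) = K * (r - t) ^ 2 := by
        push_cast
        norm_num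
        ring
      rw [e] at h7
      exact h7
    rw [intervalIntegral.integral_eq_sub_of_hasDerivAt h5
      (Continuous.intervalIntegrable (by fun_prop) _ _)]
    ring
  rw [← h2]
  refine integral_mono_of_nonneg (Filter.Eventually.of_forall fun t => measureReal_nonneg) ?_ ?_
  · exact (Continuous.integrableOn_Ioc (by fun_prop))
  · rw [Filter.EventuallyLE, ae_restrict_iff' measurableSet_Ioc]
    refine Filter.Eventually.of_forall fun t ht => ?_
    refine le_trans (measureReal_mono ?_) (h (r - t) (by linarith [ht.2]))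
    intro x hx
    simp only [mem_ofPred_eq] at hx ⊢
    rcases le_max_iff.1 hx with h1 | h1
    · linarith [ht.1]
    · linarith

/-- the common part of the two estimates. -/
theorem delCost_le_aux {ι : Type*} [Fintype ι] [DecidableEq ι] (z : ι → E) (l i₁ i₂ i₃ : ι)
    (h1 : i₁ ≠ l) (h2 : i₂ ≠ l) (h3 : i₃ ≠ l) (c : E)
    (hc : c = (1/3 : ℝ) • (z i₁ + z i₂ + z i₃)) (K r : ℝ) (hr : 0 ≤ r)
    (hK : ∀ ρ, 0 ≤ ρ → (stdGaussian E).real (cell z l ∩
      {x | ⟪z i₁ - c, x⟫ ≤ ρ ∧ ⟪z i₂ - c, x⟫ ≤ ρ ∧ ⟪z i₃ - c, x⟫ ≤ ρ}) ≤ K * ρ ^ 2) :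
    delCost z l ≤ ⟪∫ x in cell z l, x ∂(stdGaussian E), z l - c⟫
      - (r * (stdGaussian E).real (cell z l) - K * r ^ 3 / 3) := by
  set M : E → ℝ := fun x => max ⟪z i₁ - c, x⟫ (max ⟪z i₂ - c, x⟫ ⟪z i₃ - c, x⟫) with hM
  have hMc : Continuous M := by rw [hM]; fun_prop
  have hsum : ∀ x : E, ⟪z i₁ - c, x⟫ + ⟪z i₂ - c, x⟫ + ⟪z i₃ - c, x⟫ = 0 := by
    intro x
    rw [← inner_add_left, ← inner_add_left]
    have : z i₁ - c + (z i₂ - c) + (z i₃ - c) = 0 := by
      rw [hc]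
      module
    rw [this, inner_zero_left]
  have hM0 : ∀ x, 0 ≤ M x := by
    intro x
    have a1 : ⟪z i₁ - c, x⟫ ≤ M x := le_max_left _ _
    have a2 : ⟪z i₂ - c, x⟫ ≤ M x := (le_max_left _ _).trans (le_max_right _ _)
    have a3 : ⟪z i₃ - c, x⟫ ≤ M x := (le_max_right _ _).trans (le_max_right _ _)
    linarith [hsum x]
  have hcm : MeasurableSet (cell z l) := measurableSet_cell z l
  have hiM : Integrable M (stdGaussian E) :=
    (integrable_inner_std _).sup ((integrable_inner_std _).sup (integrable_inner_std _))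
  -- pointwise bound
  have hpt : ∀ x : E, max 0 (⟪z l, x⟫ - ⨆ i : {i // i ≠ l}, ⟪z i.1, x⟫)
      ≤ (cell z l).indicator (fun x => ⟪z l - c, x⟫ - M x) x := by
    intro x
    by_cases hx : x ∈ cell z l
    · rw [indicator_of_mem hx]
      have b1 : M x ≤ ⟪z l - c, x⟫ := by
        rw [hM]
        simp only [inner_sub_left]
        refine max_le ?_ (max_le ?_ ?_)
        · linarith [hx i₁]
        · linarith [hx i₂]
        · linarith [hx i₃]
      have b2 : M x + ⟪c, x⟫ ≤ ⨆ i : {i // i ≠ l}, ⟪z i.1, x⟫ := by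
        have c1 := le_sup_inner (fun i : {i // i ≠ l} => z i.1) x ⟨i₁, h1⟩
        have c2 := le_sup_inner (fun i : {i // i ≠ l} => z i.1) x ⟨i₂, h2⟩
        have c3 := le_sup_inner (fun i : {i // i ≠ l} => z i.1) x ⟨i₃, h3⟩
        have : M x ≤ (⨆ i : {i // i ≠ l}, ⟪z i.1, x⟫) - ⟪c, x⟫ := by
          rw [hM]
          simp only [inner_sub_left]
          refine max_le ?_ (max_le ?_ ?_)
          · linarith
          · linarith
          · linarith
        linarith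
      refine max_le (by linarith) ?_
      rw [inner_sub_left]
      linarith
    · rw [indicator_of_notMem hx]
      refine max_le le_rfl ?_
      simp only [cell, mem_ofPred_eq, not_forall, not_le] at hx
      obtain ⟨i, hi⟩ := hx
      have hil : i ≠ l := by rintro rfl; exact lt_irrefl _ hi
      have c1 := le_sup_inner (fun i : {i // i ≠ l} => z i.1) x ⟨i, hil⟩
      simp only at c1
      linarith
  have hi1 : Integrable (fun x => ⟪z l - c, x⟫ - M x) (stdGaussian E) :=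
    (integrable_inner_std _).sub hiM
  have hd : delCost z l ≤ ∫ x in cell z l, (⟪z l - c, x⟫ - M x) ∂(stdGaussian E) := by
    rw [← integral_indicator hcm]
    unfold delCost
    exact integral_mono_of_nonneg (Filter.Eventually.of_forall fun x => le_max_left _ _)
      (hi1.indicator hcm) (Filter.Eventually.of_forall hpt)
  have he : ∫ x in cell z l, (⟪z l - c, x⟫ - M x) ∂(stdGaussian E)
      = ⟪∫ x in cell z l, x ∂(stdGaussian E), z l - c⟫ - ∫ x in cell z l, M x ∂(stdGaussian E) := by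
    rw [integral_sub (integrable_inner_std _).integrableOn hiM.integrableOn,
      integral_inner integrable_id_std.integrableOn, real_inner_comm]
  have hlay : ∫ x in cell z l, max 0 (r - M x) ∂(stdGaussian E) ≤ K * r ^ 3 / 3 := by
    refine layer_bound ((stdGaussian E).restrict (cell z l)) M hMc.measurable hM0 K r hr ?_
    intro ρ hρ
    rw [measureReal_restrict_apply (by
      exact measurableSet_le hMc.measurable measurable_const)]
    refine le_trans (measureReal_mono ?_) (hK ρ hρ)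
    rintro x ⟨hx1, hx2⟩
    refine ⟨hx2, ?_⟩
    have hx1' : M x ≤ ρ := hx1
    rw [hM] at hx1'
    simp only [max_le_iff] at hx1'
    exact hx1'
  have hrM : r * (stdGaussian E).real (cell z l) - K * r ^ 3 / 3
      ≤ ∫ x in cell z l, M x ∂(stdGaussian E) := by
    have hmax : Integrable (fun x => max 0 (r - M x)) (stdGaussian E) :=
      (integrable_const (0:ℝ)).sup ((integrable_const r).sub hiM)
    have q1 : ∫ x in cell z l, (r - max 0 (r - M x)) ∂(stdGaussian E)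
        ≤ ∫ x in cell z l, M x ∂(stdGaussian E) := by
      refine setIntegral_mono ((integrable_const r).sub hmax).integrableOn hiM.integrableOn
        fun x => ?_
      have := le_max_right 0 (r - M x)
      simp only
      linarith
    rw [integral_sub (integrable_const r) hmax.integrableOn, setIntegral_const, smul_eq_mul] at q1
    linarith
  rw [he] at hd
  linarith

/-- cap-1 version of the small cell estimate. `c` is the centroid of three other vectors. -/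
theorem delCost_le_cap_one {ι : Type*} [Fintype ι] [DecidableEq ι] (z : ι → E) (l i₁ i₂ i₃ : ι)
    (h1 : i₁ ≠ l) (h2 : i₂ ≠ l) (h3 : i₃ ≠ l) (c : E)
    (hc : c = (1/3 : ℝ) • (z i₁ + z i₂ + z i₃)) (Δ : ℝ) (hΔ : 0 < Δ)
    (hΔ2 : Δ ^ 2 ≤ ‖z i₁ - c‖ ^ 2 * ‖z i₂ - c‖ ^ 2 - ⟪z i₁ - c, z i₂ - c⟫ ^ 2)
    (r : ℝ) (hr : 0 ≤ r) :
    delCost z l ≤ ⟪∫ x in cell z l, x ∂(stdGaussian E), z l - c⟫
      - (r * (stdGaussian E).real (cell z l) - 3 / (4 * Real.pi * Δ) * r ^ 3) := by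
  have h0 : (z i₁ - c) + (z i₂ - c) + (z i₃ - c) = 0 := by rw [hc]; module
  have h := delCost_le_aux z l i₁ i₂ i₃ h1 h2 h3 c hc (9 / (4 * Real.pi * Δ)) r hr (by
    intro ρ hρ
    exact (measureReal_mono inter_subset_right).trans
      (small_ball _ _ _ h0 Δ hΔ hΔ2 ρ hρ))
  have e : 9 / (4 * Real.pi * Δ) * r ^ 3 / 3 = 3 / (4 * Real.pi * Δ) * r ^ 3 := by ring
  rwa [e] at h

/-- a set invariant under the reflection in `uᗮ` : half of it lies in `⟪u, x⟫ ≥ 0`. -/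
lemma half_measure (u : E) (hu0 : u ≠ 0) (A : Set E) (hA : MeasurableSet A)
    (hinv : ∀ x, Submodule.reflection (ℝ ∙ u)ᗮ x ∈ A ↔ x ∈ A) :
    (stdGaussian E).real (A ∩ {x | 0 ≤ ⟪u, x⟫}) ≤ (stdGaussian E).real A / 2 := by
  set R := Submodule.reflection (ℝ ∙ u)ᗮ with hR
  have hmap : (stdGaussian E).map R = stdGaussian E := stdGaussian_map R
  have hRu : ∀ x, ⟪u, R x⟫ = - ⟪u, x⟫ := by
    intro x
    have a1 : R u = -u := Submodule.reflection_orthogonalComplement_singleton_eq_neg u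
    have a2 : ⟪R u, R x⟫ = ⟪u, x⟫ := R.inner_map_map u x
    rw [a1, inner_neg_left] at a2
    linarith
  have m1 : MeasurableSet {x : E | 0 < ⟪u, x⟫} := measurableSet_lt measurable_const (by fun_prop)
  have m2 : MeasurableSet {x : E | ⟪u, x⟫ < 0} := measurableSet_lt (by fun_prop) measurable_const
  have e1 : (stdGaussian E) (A ∩ {x | 0 < ⟪u, x⟫}) = (stdGaussian E) (A ∩ {x | ⟪u, x⟫ < 0}) := by
    conv_lhs => rw [← hmap]
    rw [Measure.map_apply R.continuous.measurable (hA.inter m1)]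
    congr 1
    ext x
    simp only [mem_preimage, mem_inter_iff, mem_ofPred_eq, hRu]
    rw [hinv]
    constructor
    · rintro ⟨q1, q2⟩; exact ⟨q1, by linarith⟩
    · rintro ⟨q1, q2⟩; exact ⟨q1, by linarith⟩
  have e2 : (stdGaussian E) (A ∩ {x | 0 ≤ ⟪u, x⟫}) ≤ (stdGaussian E) (A ∩ {x | 0 < ⟪u, x⟫}) := by
    have hsub : A ∩ {x | 0 ≤ ⟪u, x⟫} ⊆ (A ∩ {x | 0 < ⟪u, x⟫}) ∪ {x : E | ⟪u, x⟫ = 0} := by
      rintro x ⟨q1, q2⟩
      rcases eq_or_lt_of_le (show (0:ℝ) ≤ ⟪u, x⟫ from q2) with q | q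
      · right; exact q.symm
      · left; exact ⟨q1, q⟩
    refine (measure_mono hsub).trans ((measure_union_le _ _).trans ?_)
    rw [hyperplane_null u hu0, add_zero]
  have e3 : (stdGaussian E) (A ∩ {x | 0 < ⟪u, x⟫}) + (stdGaussian E) (A ∩ {x | ⟪u, x⟫ < 0})
      ≤ (stdGaussian E) A := by
    rw [← measure_union]
    · apply measure_mono
      rintro x (hx | hx)
      · exact hx.1
      · exact hx.1
    · rw [Set.disjoint_left]
      rintro x ⟨_, q1⟩ ⟨_, q2⟩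
      simp only [mem_ofPred_eq] at q1 q2
      linarith
    · exact hA.inter m2
  have r1 : (stdGaussian E).real (A ∩ {x | 0 ≤ ⟪u, x⟫}) ≤ (stdGaussian E).real (A ∩ {x | 0 < ⟪u, x⟫}) :=
    ENNReal.toReal_mono (measure_ne_top _ _) e2
  have r2 : (stdGaussian E).real (A ∩ {x | 0 < ⟪u, x⟫}) + (stdGaussian E).real (A ∩ {x | ⟪u, x⟫ < 0})
      ≤ (stdGaussian E).real A := by
    simp only [measureReal_def]
    rw [← ENNReal.toReal_add (measure_ne_top _ _) (measure_ne_top _ _)]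
    exact ENNReal.toReal_mono (measure_ne_top _ _) e3
  have r3 : (stdGaussian E).real (A ∩ {x | 0 < ⟪u, x⟫}) = (stdGaussian E).real (A ∩ {x | ⟪u, x⟫ < 0}) := by
    simp only [measureReal_def, e1]
  linarith

/-- cap-1/2 version : the orthogonal projection of `z l` on the plane of the triangle lies in
the triangle (weights `t₁ t₂ t₃`). -/
theorem delCost_le_cap_half {ι : Type*} [Fintype ι] [DecidableEq ι] (z : ι → E) (l i₁ i₂ i₃ : ι)
    (h1 : i₁ ≠ l) (h2 : i₂ ≠ l) (h3 : i₃ ≠ l) (c : E)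
    (hc : c = (1/3 : ℝ) • (z i₁ + z i₂ + z i₃)) (Δ : ℝ) (hΔ : 0 < Δ)
    (hΔ2 : Δ ^ 2 ≤ ‖z i₁ - c‖ ^ 2 * ‖z i₂ - c‖ ^ 2 - ⟪z i₁ - c, z i₂ - c⟫ ^ 2)
    (t₁ t₂ t₃ : ℝ) (ht₁ : 0 ≤ t₁) (ht₂ : 0 ≤ t₂) (ht₃ : 0 ≤ t₃) (hts : t₁ + t₂ + t₃ = 1)
    (u : E) (hu : u = z l - (t₁ • z i₁ + t₂ • z i₂ + t₃ • z i₃)) (hu0 : u ≠ 0)
    (hu1 : ⟪u, z i₁ - c⟫ = 0) (hu2 : ⟪u, z i₂ - c⟫ = 0) (hu3 : ⟪u, z i₃ - c⟫ = 0)
    (r : ℝ) (hr : 0 ≤ r) :
    delCost z l ≤ ⟪∫ x in cell z l, x ∂(stdGaussian E), z l - c⟫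
      - (r * (stdGaussian E).real (cell z l) - 3 / (8 * Real.pi * Δ) * r ^ 3) := by
  have h0 : (z i₁ - c) + (z i₂ - c) + (z i₃ - c) = 0 := by rw [hc]; module
  have hperp : ∀ v : E, ⟪u, v⟫ = 0 → ∀ x, ⟪v, Submodule.reflection (ℝ ∙ u)ᗮ x⟫ = ⟪v, x⟫ := by
    intro v hv x
    have hmem : v ∈ (ℝ ∙ u)ᗮ := by
      rw [Submodule.mem_orthogonal_singleton_iff_inner_right]
      exact hv
    have a1 := Submodule.reflection_mem_subspace_eq_self hmem
    have a2 := (Submodule.reflection (ℝ ∙ u)ᗮ).inner_map_map v x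
    rw [a1] at a2
    exact a2
  have h := delCost_le_aux z l i₁ i₂ i₃ h1 h2 h3 c hc (9 / (8 * Real.pi * Δ)) r hr (by
    intro ρ hρ
    set A : Set E := {x | ⟪z i₁ - c, x⟫ ≤ ρ ∧ ⟪z i₂ - c, x⟫ ≤ ρ ∧ ⟪z i₃ - c, x⟫ ≤ ρ} with hA
    have hAm : MeasurableSet A := by
      have : IsClosed A := isClosed_three (fun x : E => ⟪z i₁ - c, x⟫)
        (fun x : E => ⟪z i₂ - c, x⟫) (fun x : E => ⟪z i₃ - c, x⟫)
        (by fun_prop) (by fun_prop) (by fun_prop) ρ
      exact this.measurableSet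
    have hinv : ∀ x, Submodule.reflection (ℝ ∙ u)ᗮ x ∈ A ↔ x ∈ A := by
      intro x
      simp only [hA, mem_ofPred_eq, hperp _ hu1, hperp _ hu2, hperp _ hu3]
    have hsub : cell z l ∩ A ⊆ A ∩ {x | 0 ≤ ⟪u, x⟫} := by
      rintro x ⟨q1, q2⟩
      refine ⟨q2, ?_⟩
      simp only [mem_ofPred_eq]
      rw [hu, inner_sub_left, inner_add_left, inner_add_left, real_inner_smul_left,
        real_inner_smul_left, real_inner_smul_left]
      have b1 := mul_le_mul_of_nonneg_left (q1 i₁) ht₁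
      have b2 := mul_le_mul_of_nonneg_left (q1 i₂) ht₂
      have b3 := mul_le_mul_of_nonneg_left (q1 i₃) ht₃
      have b4 : t₁ * ⟪z l, x⟫ + t₂ * ⟪z l, x⟫ + t₃ * ⟪z l, x⟫ = ⟪z l, x⟫ := by
        rw [← add_mul, ← add_mul, hts, one_mul]
      linarith
    refine (measureReal_mono hsub).trans ((half_measure u hu0 A hAm hinv).trans ?_)
    have := small_ball _ _ _ h0 Δ hΔ hΔ2 ρ hρ
    have e : 9 / (8 * Real.pi * Δ) * ρ ^ 2 = (9 / (4 * Real.pi * Δ) * ρ ^ 2) / 2 := by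
      have hpi := Real.pi_pos
      field_simp
      ring
    rw [e]
    exact div_le_div_of_nonneg_right this (by norm_num))
  have e : 9 / (8 * Real.pi * Δ) * r ^ 3 / 3 = 3 / (8 * Real.pi * Δ) * r ^ 3 := by ring
  rwa [e] at h

end Crest.Agent.PH
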