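/-
Row 215 (S0334): Euclidean geometry of the critical configuration.
-/
import Crest.Agent.PH.Basic

set_option autoImplicit false

namespace Crest.Agent.PH

open MeasureTheory ProbabilityTheory Set Finset
open scoped RealInnerProductSpace

lemma foot_real {d₁ d₂ d₃ B₁₂ B₁₃ B₂₃ G : ℝ} (h0 : d₁ + d₂ + d₃ = 0) (hG : 0 < G)
    (h12 : G ≤ B₁₂) (h13 : G ≤ B₁₃) (h23 : G ≤ B₂₃)
    (g1 : -G ≤ B₁₂ * (d₁ - d₂) + B₁₃ * (d₁ - d₃))
    (g2 : -G ≤ B₁₂ * (d₂ - d₁) + B₂₃ * (d₂ - d₃))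
    (g3 : -G ≤ B₁₃ * (d₃ - d₁) + B₂₃ * (d₃ - d₂)) :
    -(1/3) ≤ d₁ ∧ -(1/3) ≤ d₂ ∧ -(1/3) ≤ d₃ := by
  have key : ∀ a b c P Q : ℝ, a + b + c = 0 → a ≤ b → a ≤ c → G ≤ P → G ≤ Q →
      -G ≤ P * (a - b) + Q * (a - c) → -(1/3) ≤ a := by
    intro a b c P Q habc hab hac hP hQ hg
    have h1 : P * (a - b) ≤ G * (a - b) := by
      have : 0 ≤ (P - G) * (b - a) := mul_nonneg (by linarith) (by linarith)
      linarith
    have h2 : Q * (a - c) ≤ G * (a - c) := by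
      have : 0 ≤ (Q - G) * (c - a) := mul_nonneg (by linarith) (by linarith)
      linarith
    have h3 : -G ≤ G * (3 * a) := by
      have : G * (a - b) + G * (a - c) = G * (3 * a) := by
        have : b + c = -a := by linarith
        linear_combination (-G) * this
      linarith
    by_contra hc
    push Not at hc
    nlinarith
  rcases le_total d₁ d₂ with h | h <;> rcases le_total d₁ d₃ with h' | h' <;>
    rcases le_total d₂ d₃ with h'' | h''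
  · have := key d₁ d₂ d₃ _ _ h0 h h' h12 h13 g1
    exact ⟨this, by linarith, by linarith⟩
  · have := key d₁ d₂ d₃ _ _ h0 h h' h12 h13 g1
    exact ⟨this, by linarith, by linarith⟩
  · have := key d₃ d₁ d₂ _ _ (by linarith) h' (by linarith) h13 h23 g3
    exact ⟨by linarith, by linarith, this⟩
  · have := key d₃ d₁ d₂ _ _ (by linarith) h' h'' h13 h23 g3
    exact ⟨by linarith, by linarith, this⟩
  · have := key d₂ d₁ d₃ _ _ (by linarith) h h'' h12 h23 g2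
    exact ⟨by linarith, this, by linarith⟩
  · have := key d₃ d₁ d₂ _ _ (by linarith) (by linarith) h'' h13 h23 g3
    exact ⟨by linarith, by linarith, this⟩
  · have := key d₂ d₁ d₃ _ _ (by linarith) h h'' h12 h23 g2
    exact ⟨by linarith, this, by linarith⟩
  · have := key d₃ d₁ d₂ _ _ (by linarith) h' h'' h13 h23 g3
    exact ⟨by linarith, by linarith, this⟩

variable {E : Type*} [NormedAddCommGroup E] [InnerProductSpace ℝ E] [FiniteDimensional ℝ E]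
  [MeasurableSpace E] [BorelSpace E]

/-- `y i = 1/2 - 7/9 S_R - s_i` are lower bounds for the triangle weights. -/
theorem triangle_bounds {ι : Type*} [Fintype ι] [DecidableEq ι] (z : ι → E)
    (hS : ∑ i, ‖z i‖ ^ 2 = 1) (h0 : ∑ i, z i = 0) (hneg : ∀ i j, i ≠ j → ⟪z i, z j⟫ < 0)
    (i₁ i₂ i₃ l : ι) (h12 : i₁ ≠ i₂) (h13 : i₁ ≠ i₃) (h23 : i₂ ≠ i₃)
    (h1 : i₁ ≠ l) (h2 : i₂ ≠ l) (h3 : i₃ ≠ l) (c : E)
    (hc : c = (1/3 : ℝ) • (z i₁ + z i₂ + z i₃)) (SR y₁ y₂ y₃ : ℝ)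
    (hSR : SR = 1 - ‖z i₁‖ ^ 2 - ‖z i₂‖ ^ 2 - ‖z i₃‖ ^ 2)
    (hy₁ : y₁ = 1/2 - 7/9 * SR - ‖z i₁‖ ^ 2) (hy₂ : y₂ = 1/2 - 7/9 * SR - ‖z i₂‖ ^ 2)
    (hy₃ : y₃ = 1/2 - 7/9 * SR - ‖z i₃‖ ^ 2) (p₁ : 0 < y₁) (p₂ : 0 < y₂) (p₃ : 0 < y₃) :
    -- area
    y₁ * y₂ + y₁ * y₃ + y₂ * y₃ ≤ ‖z i₁ - c‖ ^ 2 * ‖z i₂ - c‖ ^ 2 - ⟪z i₁ - c, z i₂ - c⟫ ^ 2 ∧
    -- centroid term
    ⟪z l, z l - c⟫ ≤ 4/3 * ‖z l‖ ^ 2 ∧
    -- foot of the perpendicular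
    ((∀ i ∈ ({i₁, i₂, i₃} : Set ι), ‖z i‖ ^ 2 + SR + 2/3 * ‖z l‖ ^ 2 ≤ 1/2) →
      ∃ t₁ t₂ t₃ : ℝ, 0 ≤ t₁ ∧ 0 ≤ t₂ ∧ 0 ≤ t₃ ∧ t₁ + t₂ + t₃ = 1 ∧
        z l - (t₁ • z i₁ + t₂ • z i₂ + t₃ • z i₃) ≠ 0 ∧
        ⟪z l - (t₁ • z i₁ + t₂ • z i₂ + t₃ • z i₃), z i₁ - c⟫ = 0 ∧
        ⟪z l - (t₁ • z i₁ + t₂ • z i₂ + t₃ • z i₃), z i₂ - c⟫ = 0 ∧
        ⟪z l - (t₁ • z i₁ + t₂ • z i₂ + t₃ • z i₃), z i₃ - c⟫ = 0) := by
  classical
  set R : Finset ι := ((univ.erase i₁).erase i₂).erase i₃ with hR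
  have hmem : ∀ j, j ∈ R ↔ j ≠ i₁ ∧ j ≠ i₂ ∧ j ≠ i₃ := by
    intro j
    rw [hR]
    simp only [mem_erase, Finset.mem_univ, and_true]
    tauto
  have hlR : l ∈ R := (hmem l).2 ⟨h1.symm, h2.symm, h3.symm⟩
  have m2 : i₂ ∈ (univ : Finset ι).erase i₁ := mem_erase.2 ⟨h12.symm, mem_univ _⟩
  have m3 : i₃ ∈ ((univ : Finset ι).erase i₁).erase i₂ :=
    mem_erase.2 ⟨h23.symm, mem_erase.2 ⟨h13.symm, mem_univ _⟩⟩
  have hS' : ‖z i₁‖ ^ 2 + ‖z i₂‖ ^ 2 + ‖z i₃‖ ^ 2 + ∑ j ∈ R, ‖z j‖ ^ 2 = 1 := by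
    rw [← hS, ← add_sum_erase univ (fun j => ‖z j‖ ^ 2) (mem_univ i₁),
      ← add_sum_erase _ (fun j => ‖z j‖ ^ 2) m2, ← add_sum_erase _ (fun j => ‖z j‖ ^ 2) m3]
    ring
  set Z : E := ∑ j ∈ R, z j with hZ
  have h0' : z i₁ + z i₂ + z i₃ = -Z := by
    have : z i₁ + (z i₂ + (z i₃ + Z)) = 0 := by
      rw [hZ, hR, add_sum_erase _ z m3, add_sum_erase _ z m2, add_sum_erase _ z (mem_univ i₁), h0]
    rw [eq_neg_iff_add_eq_zero, ← this]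
    abel
  have hcZ : c = -((1/3 : ℝ) • Z) := by rw [hc, h0', smul_neg]
  -- ‖Z‖² ≤ SR
  have hZn : ‖Z‖ ^ 2 ≤ SR := by
    have e1 : ‖Z‖ ^ 2 = ∑ j ∈ R, ∑ j' ∈ R, ⟪z j, z j'⟫ := by
      rw [← real_inner_self_eq_norm_sq, hZ, sum_inner]
      simp_rw [inner_sum]
    have e2 : ∑ j ∈ R, ∑ j' ∈ R, ⟪z j, z j'⟫ ≤ ∑ j ∈ R, ‖z j‖ ^ 2 := by
      apply sum_le_sum
      intro j hj
      rw [← add_sum_erase R _ hj, real_inner_self_eq_norm_sq]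
      have : ∑ j' ∈ R.erase j, ⟪z j, z j'⟫ ≤ 0 :=
        sum_nonpos fun j' hj' => (hneg j j' (ne_of_mem_erase hj').symm).le
      linarith
    rw [e1]
    refine e2.trans (le_of_eq ?_)
    rw [hSR]
    linarith
  -- β
  have hβ : ∀ i, i ∉ R → 0 ≤ -⟪Z, z i⟫ ∧ -⟪z l, z i⟫ ≤ -⟪Z, z i⟫ := by
    intro i hi
    have e1 : -⟪Z, z i⟫ = ∑ j ∈ R, -⟪z j, z i⟫ := by
      rw [hZ, sum_inner, sum_neg_distrib]
    have hnn : ∀ j ∈ R, 0 ≤ -⟪z j, z i⟫ := by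
      intro j hj
      have : j ≠ i := fun h => hi (h ▸ hj)
      have := hneg j i this
      linarith
    rw [e1]
    exact ⟨sum_nonneg hnn, single_le_sum (f := fun j => -⟪z j, z i⟫) hnn hlR⟩
  have n1 : i₁ ∉ R := fun h => ((hmem _).1 h).1 rfl
  have n2 : i₂ ∉ R := fun h => ((hmem _).1 h).2.1 rfl
  have n3 : i₃ ∉ R := fun h => ((hmem _).1 h).2.2 rfl
  obtain ⟨hb1, hbl1⟩ := hβ i₁ n1
  obtain ⟨hb2, hbl2⟩ := hβ i₂ n2
  obtain ⟨hb3, hbl3⟩ := hβ i₃ n3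
  -- names
  set s₁ := ‖z i₁‖ ^ 2 with hs₁
  set s₂ := ‖z i₂‖ ^ 2 with hs₂
  set s₃ := ‖z i₃‖ ^ 2 with hs₃
  set N := ‖Z‖ ^ 2 with hN
  set b₁ := -⟪Z, z i₁⟫ with hb₁
  set b₂ := -⟪Z, z i₂⟫ with hb₂
  set b₃ := -⟪Z, z i₃⟫ with hb₃
  set q₁₂ := -⟪z i₁, z i₂⟫ with hq₁₂
  set q₁₃ := -⟪z i₁, z i₃⟫ with hq₁₃
  set q₂₃ := -⟪z i₂, z i₃⟫ with hq₂₃
  have ZZ : ⟪Z, Z⟫ = N := real_inner_self_eq_norm_sq Z
  have zz1 : ⟪z i₁, z i₁⟫ = s₁ := real_inner_self_eq_norm_sq _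
  have zz2 : ⟪z i₂, z i₂⟫ = s₂ := real_inner_self_eq_norm_sq _
  have zz3 : ⟪z i₃, z i₃⟫ = s₃ := real_inner_self_eq_norm_sq _
  have i12 : ⟪z i₁, z i₂⟫ = -q₁₂ := by rw [hq₁₂]; ring
  have i21 : ⟪z i₂, z i₁⟫ = -q₁₂ := by rw [real_inner_comm, i12]
  have i13 : ⟪z i₁, z i₃⟫ = -q₁₃ := by rw [hq₁₃]; ring
  have i31 : ⟪z i₃, z i₁⟫ = -q₁₃ := by rw [real_inner_comm, i13]
  have i23 : ⟪z i₂, z i₃⟫ = -q₂₃ := by rw [hq₂₃]; ring
  have i32 : ⟪z i₃, z i₂⟫ = -q₂₃ := by rw [real_inner_comm, i23]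
  have Z1 : ⟪Z, z i₁⟫ = -b₁ := by rw [hb₁]; ring
  have Z2 : ⟪Z, z i₂⟫ = -b₂ := by rw [hb₂]; ring
  have Z3 : ⟪Z, z i₃⟫ = -b₃ := by rw [hb₃]; ring
  have Z1' : ⟪z i₁, Z⟫ = -b₁ := by rw [real_inner_comm, Z1]
  have Z2' : ⟪z i₂, Z⟫ = -b₂ := by rw [real_inner_comm, Z2]
  have Z3' : ⟪z i₃, Z⟫ = -b₃ := by rw [real_inner_comm, Z3]
  have r1 : s₁ - q₁₂ - q₁₃ = b₁ := by
    have : ⟪z i₁, z i₁ + z i₂ + z i₃⟫ = ⟪z i₁, -Z⟫ := by rw [h0']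
    rw [inner_add_right, inner_add_right, inner_neg_right, zz1, i12, i13, Z1'] at this
    linarith
  have r2 : s₂ - q₁₂ - q₂₃ = b₂ := by
    have : ⟪z i₂, z i₁ + z i₂ + z i₃⟫ = ⟪z i₂, -Z⟫ := by rw [h0']
    rw [inner_add_right, inner_add_right, inner_neg_right, zz2, i21, i23, Z2'] at this
    linarith
  have r3 : s₃ - q₁₃ - q₂₃ = b₃ := by
    have : ⟪z i₃, z i₁ + z i₂ + z i₃⟫ = ⟪z i₃, -Z⟫ := by rw [h0']
    rw [inner_add_right, inner_add_right, inner_neg_right, zz3, i31, i32, Z3'] at this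
    linarith
  have rN : b₁ + b₂ + b₃ = N := by
    have : ⟪Z, z i₁ + z i₂ + z i₃⟫ = ⟪Z, -Z⟫ := by rw [h0']
    rw [inner_add_right, inner_add_right, inner_neg_right, ZZ, Z1, Z2, Z3] at this
    linarith
  -- Gram matrix of the ζ's
  have ζ : ∀ a b : E, ⟪a - c, b - c⟫ = ⟪a, b⟫ + (1/3) * ⟪a, Z⟫ + (1/3) * ⟪Z, b⟫ + (1/9) * ⟪Z, Z⟫ := by
    intro a b
    rw [hcZ, sub_neg_eq_add, sub_neg_eq_add, inner_add_left, inner_add_right, inner_add_right,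
      real_inner_smul_left, real_inner_smul_right, real_inner_smul_left, real_inner_smul_right]
    ring
  set B₁₂ := -⟪z i₁ - c, z i₂ - c⟫ with hB₁₂
  set B₁₃ := -⟪z i₁ - c, z i₃ - c⟫ with hB₁₃
  set B₂₃ := -⟪z i₂ - c, z i₃ - c⟫ with hB₂₃
  have eB12 : B₁₂ = q₁₂ + (b₁ + b₂) / 3 - N / 9 := by
    rw [hB₁₂, ζ, i12, Z1', Z2, ZZ]; ring
  have eB13 : B₁₃ = q₁₃ + (b₁ + b₃) / 3 - N / 9 := by
    rw [hB₁₃, ζ, i13, Z1', Z3, ZZ]; ring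
  have eB23 : B₂₃ = q₂₃ + (b₂ + b₃) / 3 - N / 9 := by
    rw [hB₂₃, ζ, i23, Z2', Z3, ZZ]; ring
  have n11 : ‖z i₁ - c‖ ^ 2 = B₁₂ + B₁₃ := by
    rw [← real_inner_self_eq_norm_sq, ζ, zz1, Z1', Z1, ZZ, eB12, eB13]; linarith
  have n22 : ‖z i₂ - c‖ ^ 2 = B₁₂ + B₂₃ := by
    rw [← real_inner_self_eq_norm_sq, ζ, zz2, Z2', Z2, ZZ, eB12, eB23]; linarith
  have n33 : ‖z i₃ - c‖ ^ 2 = B₁₃ + B₂₃ := by
    rw [← real_inner_self_eq_norm_sq, ζ, zz3, Z3', Z3, ZZ, eB13, eB23]; linarith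
  have y3B : y₃ ≤ B₁₂ := by rw [eB12, hy₃]; linarith
  have y2B : y₂ ≤ B₁₃ := by rw [eB13, hy₂]; linarith
  have y1B : y₁ ≤ B₂₃ := by rw [eB23, hy₁]; linarith
  have hinner12 : ⟪z i₁ - c, z i₂ - c⟫ = -B₁₂ := by rw [hB₁₂]; ring
  have hdet : ‖z i₁ - c‖ ^ 2 * ‖z i₂ - c‖ ^ 2 - ⟪z i₁ - c, z i₂ - c⟫ ^ 2
      = B₁₂ * B₁₃ + B₁₂ * B₂₃ + B₁₃ * B₂₃ := by
    rw [n11, n22, hinner12]; ring
  have hBp12 : 0 < B₁₂ := p₃.trans_le y3B
  have hBp13 : 0 < B₁₃ := p₂.trans_le y2B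
  have hBp23 : 0 < B₂₃ := p₁.trans_le y1B
  -- inner products with z l
  set w₁ := -⟪z l, z i₁⟫ with hw₁
  set w₂ := -⟪z l, z i₂⟫ with hw₂
  set w₃ := -⟪z l, z i₃⟫ with hw₃
  have w1p : 0 < w₁ := by have := hneg l i₁ h1.symm; rw [hw₁]; linarith
  have w2p : 0 < w₂ := by have := hneg l i₂ h2.symm; rw [hw₂]; linarith
  have w3p : 0 < w₃ := by have := hneg l i₃ h3.symm; rw [hw₃]; linarith
  have hlsum : w₁ + w₂ + w₃ ≤ ‖z l‖ ^ 2 := by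
    have e1 : ⟪z l, z i₁ + z i₂ + z i₃⟫ = ⟪z l, -Z⟫ := by rw [h0']
    rw [inner_add_right, inner_add_right, inner_neg_right] at e1
    have e2 : ⟪z l, Z⟫ ≤ ‖z l‖ ^ 2 := by
      rw [hZ, inner_sum, ← add_sum_erase R _ hlR, real_inner_self_eq_norm_sq]
      have : ∑ j ∈ R.erase l, ⟪z l, z j⟫ ≤ 0 :=
        sum_nonpos fun j' hj' => (hneg l j' (ne_of_mem_erase hj').symm).le
      linarith
    linarith
  have hlc : ⟪z l, c⟫ = -(1/3) * (w₁ + w₂ + w₃) := by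
    rw [hc, real_inner_smul_right, inner_add_right, inner_add_right]
    rw [hw₁, hw₂, hw₃]; ring
  refine ⟨?_, ?_, ?_⟩
  · rw [hdet]
    have a1 := mul_le_mul y1B y2B p₂.le hBp23.le
    have a2 := mul_le_mul y1B y3B p₃.le hBp23.le
    have a3 := mul_le_mul y2B y3B p₃.le hBp13.le
    linarith
  · rw [inner_sub_right, real_inner_self_eq_norm_sq, hlc]
    linarith
  · intro hfoot
    have f1 := hfoot i₁ (by simp)
    have f2 := hfoot i₂ (by simp)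
    have f3 := hfoot i₃ (by simp)
    set D := B₁₂ * B₁₃ + B₁₂ * B₂₃ + B₁₃ * B₂₃ with hD
    have hDp : 0 < D := by positivity
    set g₁ := ⟪z l - c, z i₁ - c⟫ with hg₁
    set g₂ := ⟪z l - c, z i₂ - c⟫ with hg₂
    set g₃ := ⟪z l - c, z i₃ - c⟫ with hg₃
    have hζ0 : (z i₁ - c) + (z i₂ - c) + (z i₃ - c) = 0 := by
      rw [hc]
      module
    have hg0 : g₁ + g₂ + g₃ = 0 := by
      rw [hg₁, hg₂, hg₃, ← inner_add_right, ← inner_add_right, hζ0, inner_zero_right]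
    -- solve
    set u := (g₁ * (B₁₂ + B₂₃) + g₂ * B₁₂) / D with hu
    set v := (g₂ * (B₁₂ + B₁₃) + g₁ * B₁₂) / D with hv
    set d₁ := u - (u + v) / 3 with hd₁
    set d₂ := v - (u + v) / 3 with hd₂
    set d₃ := -((u + v) / 3) with hd₃
    have hd0 : d₁ + d₂ + d₃ = 0 := by rw [hd₁, hd₂, hd₃]; ring
    have huD : u * D = g₁ * (B₁₂ + B₂₃) + g₂ * B₁₂ := by rw [hu]; field_simp
    have hvD : v * D = g₂ * (B₁₂ + B₁₃) + g₁ * B₁₂ := by rw [hv]; field_simp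
    have E1 : u * (B₁₂ + B₁₃) - v * B₁₂ = g₁ := by
      have : (u * (B₁₂ + B₁₃) - v * B₁₂) * D = g₁ * D := by
        calc (u * (B₁₂ + B₁₃) - v * B₁₂) * D = (u * D) * (B₁₂ + B₁₃) - (v * D) * B₁₂ := by ring
          _ = g₁ * D := by rw [huD, hvD, hD]; ring
      exact mul_right_cancel₀ hDp.ne' this
    have E2 : v * (B₁₂ + B₂₃) - u * B₁₂ = g₂ := by
      have : (v * (B₁₂ + B₂₃) - u * B₁₂) * D = g₂ * D := by
        calc (v * (B₁₂ + B₂₃) - u * B₁₂) * D = (v * D) * (B₁₂ + B₂₃) - (u * D) * B₁₂ := by ring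
          _ = g₂ * D := by rw [huD, hvD, hD]; ring
      exact mul_right_cancel₀ hDp.ne' this
    have G1 : B₁₂ * (d₁ - d₂) + B₁₃ * (d₁ - d₃) = g₁ := by
      rw [hd₁, hd₂, hd₃]; linarith
    have G2 : B₁₂ * (d₂ - d₁) + B₂₃ * (d₂ - d₃) = g₂ := by
      rw [hd₁, hd₂, hd₃]; linarith
    have G3 : B₁₃ * (d₃ - d₁) + B₂₃ * (d₃ - d₂) = g₃ := by linarith
    -- lower bounds for g
    have hcc : ∀ i, ⟪c, z i - c⟫ = (1/3) * (-⟪Z, z i⟫) - N / 9 := by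
      intro i
      rw [hcZ, sub_neg_eq_add, inner_neg_left, real_inner_smul_left, inner_add_right,
        real_inner_smul_right, ZZ]
      ring
    have hlcc : ∀ i, ⟪z l, z i - c⟫ = ⟪z l, z i⟫ + (1/3) * (w₁ + w₂ + w₃) := by
      intro i
      rw [inner_sub_right, hlc]; ring
    have eg1 : g₁ = -w₁ + (1/3) * (w₁ + w₂ + w₃) - (1/3) * b₁ + N / 9 := by
      rw [hg₁, inner_sub_left, hcc, hlcc, ← hb₁, hw₁]; ring
    have eg2 : g₂ = -w₂ + (1/3) * (w₁ + w₂ + w₃) - (1/3) * b₂ + N / 9 := by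
      rw [hg₂, inner_sub_left, hcc, hlcc, ← hb₂, hw₂]; ring
    have eg3 : g₃ = -w₃ + (1/3) * (w₁ + w₂ + w₃) - (1/3) * b₃ + N / 9 := by
      rw [hg₃, inner_sub_left, hcc, hlcc, ← hb₃, hw₃]; ring
    have hsl : 0 < ‖z l‖ ^ 2 := by linarith
    set G := 2/3 * ‖z l‖ ^ 2 + 2/9 * SR with hG
    have hNn : 0 ≤ N := by rw [hN]; positivity
    have hGp : 0 < G := by rw [hG]; linarith
    have hfr := foot_real hd0 hGp (B₁₂ := B₁₂) (B₁₃ := B₁₃) (B₂₃ := B₂₃)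
      (by rw [hG]; linarith) (by rw [hG]; linarith) (by rw [hG]; linarith)
      (by rw [G1, eg1, hG]; linarith) (by rw [G2, eg2, hG]; linarith)
      (by rw [G3, eg3, hG]; linarith)
    obtain ⟨t1, t2, t3⟩ := hfr
    have hcomb : (1/3 + d₁) • z i₁ + (1/3 + d₂) • z i₂ + (1/3 + d₃) • z i₃
        = c + u • (z i₁ - c) + v • (z i₂ - c) := by
      have e3 : z i₃ - c = -(z i₁ - c) - (z i₂ - c) := by
        rw [← sub_eq_zero, ← hζ0]; abel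
      have e4 : z i₃ = c - (z i₁ - c) - (z i₂ - c) := by
        have := congrArg (fun w => w + c) e3
        simp only [sub_add_cancel] at this
        rw [this]; abel
      rw [e4, hd₁, hd₂, hd₃]
      module
    refine ⟨1/3 + d₁, 1/3 + d₂, 1/3 + d₃, by linarith, by linarith, by linarith, by linarith,
      ?_, ?_, ?_, ?_⟩
    · intro hzero
      rw [sub_eq_zero] at hzero
      have e1 : ⟪z l, z l⟫ = -((1/3 + d₁) * w₁ + (1/3 + d₂) * w₂ + (1/3 + d₃) * w₃) := by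
        conv_lhs => rw [show ⟪z l, z l⟫ = ⟪z l, (1/3 + d₁) • z i₁ + (1/3 + d₂) • z i₂
          + (1/3 + d₃) • z i₃⟫ by rw [← hzero]]
        rw [inner_add_right, inner_add_right, real_inner_smul_right, real_inner_smul_right,
          real_inner_smul_right, hw₁, hw₂, hw₃]
        ring
      rw [real_inner_self_eq_norm_sq] at e1
      have e2 : 0 ≤ (1/3 + d₁) * w₁ := mul_nonneg (by linarith) w1p.le
      have e3 : 0 ≤ (1/3 + d₂) * w₂ := mul_nonneg (by linarith) w2p.le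
      have e4 : 0 ≤ (1/3 + d₃) * w₃ := mul_nonneg (by linarith) w3p.le
      linarith
    · rw [hcomb]
      have : z l - (c + u • (z i₁ - c) + v • (z i₂ - c))
        = (z l - c) - u • (z i₁ - c) - v • (z i₂ - c) := by abel
      rw [this, inner_sub_left, inner_sub_left, real_inner_smul_left, real_inner_smul_left,
        real_inner_self_eq_norm_sq, n11, real_inner_comm (z i₁ - c) (z i₂ - c), hinner12, ← hg₁]
      linarith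
    · rw [hcomb]
      have : z l - (c + u • (z i₁ - c) + v • (z i₂ - c))
        = (z l - c) - u • (z i₁ - c) - v • (z i₂ - c) := by abel
      rw [this, inner_sub_left, inner_sub_left, real_inner_smul_left, real_inner_smul_left,
        real_inner_self_eq_norm_sq, n22, hinner12, ← hg₂]
      linarith
    · rw [hcomb]
      have : z l - (c + u • (z i₁ - c) + v • (z i₂ - c))
        = (z l - c) - u • (z i₁ - c) - v • (z i₂ - c) := by abel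
      rw [this, inner_sub_left, inner_sub_left, real_inner_smul_left, real_inner_smul_left,
        ← hg₃]
      have e13 : ⟪z i₁ - c, z i₃ - c⟫ = -B₁₃ := by rw [hB₁₃]; ring
      have e23 : ⟪z i₂ - c, z i₃ - c⟫ = -B₂₃ := by rw [hB₂₃]; ring
      rw [e13, e23]
      have : g₃ = -g₁ - g₂ := by linarith
      rw [this, ← E1, ← E2]
      ring

end Crest.Agent.PH
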