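/-
Row 215 (S0334): numerical enclosures for the Gaussian tail.
-/
import Crest.Agent.PH.F1

set_option autoImplicit false

namespace Crest.Agent.PH

open MeasureTheory ProbabilityTheory Set Filter Topology

/-- Taylor polynomial of `exp (-u)` -/
noncomputable def TN (N : ℕ) (u : ℝ) : ℝ := ∑ n ∈ Finset.range N, (-u) ^ n / (n.factorial : ℝ)

/-- Taylor polynomial of `∫₀^q exp (-t²/2)` -/
noncomputable def IN (N : ℕ) (q : ℝ) : ℝ :=
  ∑ n ∈ Finset.range N, (-1) ^ n * q ^ (2 * n + 1) / (2 ^ n * (n.factorial : ℝ) * (2 * n + 1))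

lemma hasDerivAt_TN_succ (N : ℕ) (u : ℝ) : HasDerivAt (TN (N + 1)) (-TN N u) u := by
  unfold TN
  have h1 : ∀ n ∈ Finset.range (N + 1), HasDerivAt (fun u : ℝ => (-u) ^ n / (n.factorial : ℝ))
      (((n : ℝ) * (-u) ^ (n - 1) * (-1)) / (n.factorial : ℝ)) u := by
    intro n _
    exact (((hasDerivAt_neg u).pow n)).div_const _
  have h2 := HasDerivAt.fun_sum h1
  have e : ∑ n ∈ Finset.range (N + 1), ((n : ℝ) * (-u) ^ (n - 1) * (-1)) / (n.factorial : ℝ)
      = -∑ n ∈ Finset.range N, (-u) ^ n / (n.factorial : ℝ) := by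
    rw [Finset.sum_range_succ']
    simp only [Nat.cast_zero, zero_mul, zero_div, add_zero, Nat.add_sub_cancel]
    rw [← Finset.sum_neg_distrib]
    apply Finset.sum_congr rfl
    intro n _
    rw [Nat.factorial_succ]
    push_cast
    have h3 : ((n : ℝ) + 1) ≠ 0 := by positivity
    have h4 : (n.factorial : ℝ) ≠ 0 := by positivity
    field_simp
  rw [e] at h2
  exact h2

lemma TN_bound (N : ℕ) : ∀ u : ℝ, 0 ≤ u → 0 ≤ (-1) ^ N * (Real.exp (-u) - TN N u) := by
  induction N with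
  | zero => intro u _; simp [TN, (Real.exp_pos _).le]
  | succ N ih =>
    intro u hu
    set F : ℝ → ℝ := fun u => (-1) ^ (N + 1) * (Real.exp (-u) - TN (N + 1) u) with hF
    have hd : ∀ x, HasDerivAt F ((-1) ^ N * (Real.exp (-x) - TN N x)) x := by
      intro x
      have h1 := (((hasDerivAt_neg x).exp.sub (hasDerivAt_TN_succ N x)).const_mul
        ((-1 : ℝ) ^ (N + 1)))
      have e : (-1 : ℝ) ^ (N + 1) * (Real.exp (-x) * -1 - -TN N x)
        = (-1) ^ N * (Real.exp (-x) - TN N x) := by rw [pow_succ]; ring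
      rw [e] at h1
      exact h1
    have hmono : MonotoneOn F (Ici 0) := by
      apply monotoneOn_of_deriv_nonneg (convex_Ici 0)
      · exact (continuous_iff_continuousAt.2 fun x => (hd x).continuousAt).continuousOn
      · intro y _; exact (hd y).differentiableAt.differentiableWithinAt
      · intro y hy
        rw [interior_Ici] at hy
        rw [(hd y).deriv]
        exact ih y (le_of_lt hy)
    have h0 : F 0 = 0 := by
      simp only [hF, neg_zero, Real.exp_zero, TN]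
      rw [Finset.sum_range_succ']
      simp
    have := hmono (mem_Ici.2 le_rfl) (mem_Ici.2 hu) hu
    rw [h0] at this
    exact this

lemma hasDerivAt_IN (N : ℕ) (q : ℝ) : HasDerivAt (IN N) (TN N (q ^ 2 / 2)) q := by
  unfold IN TN
  have h1 : ∀ n ∈ Finset.range N, HasDerivAt
      (fun q : ℝ => (-1) ^ n * q ^ (2 * n + 1) / (2 ^ n * (n.factorial : ℝ) * (2 * n + 1)))
      ((-1) ^ n * (((2 * n + 1 : ℕ) : ℝ) * q ^ (2 * n + 1 - 1)) /
        (2 ^ n * (n.factorial : ℝ) * (2 * n + 1))) q := by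
    intro n _
    exact ((hasDerivAt_pow (2 * n + 1) q).const_mul _).div_const _
  have h2 := HasDerivAt.fun_sum h1
  have e : ∑ n ∈ Finset.range N, (-1 : ℝ) ^ n * (((2 * n + 1 : ℕ) : ℝ) * q ^ (2 * n + 1 - 1)) /
        (2 ^ n * (n.factorial : ℝ) * (2 * n + 1))
      = ∑ n ∈ Finset.range N, (-(q ^ 2 / 2)) ^ n / (n.factorial : ℝ) := by
    apply Finset.sum_congr rfl
    intro n _
    have h3 : (2 * (n : ℝ) + 1) ≠ 0 := by positivity
    have h4 : (n.factorial : ℝ) ≠ 0 := by positivity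
    rw [Nat.add_sub_cancel, neg_pow (q ^ 2 / 2), div_pow, ← pow_mul]
    push_cast
    field_simp
  rw [e] at h2
  exact h2

/-- `√(2π)` -/
noncomputable def ww : ℝ := Real.sqrt (2 * Real.pi)

lemma ww_pos : 0 < ww := by unfold ww; positivity

lemma ww_sq : ww ^ 2 = 2 * Real.pi := by unfold ww; exact Real.sq_sqrt (by positivity)

lemma ww_lo : 2.506628 < ww := by
  unfold ww
  apply Real.lt_sqrt_of_sq_lt
  have := Real.pi_gt_d6
  norm_num at this ⊢
  linarith

lemma ww_hi : ww < 2.506629 := by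
  unfold ww
  rw [Real.sqrt_lt' (by norm_num)]
  have := Real.pi_lt_d6
  norm_num at this ⊢
  linarith

/-- `J q = √(2π) (Φ(q) - 1/2) = ∫₀^q exp(-t²/2)` -/
noncomputable def JJ (q : ℝ) : ℝ := ww * (gPhi q - 1 / 2)

lemma hasDerivAt_JJ (q : ℝ) : HasDerivAt JJ (Real.exp (-(q ^ 2 / 2))) q := by
  unfold JJ
  have h1 := ((hasDerivAt_gPhi q).sub_const (1/2)).const_mul ww
  have e : ww * gphi q = Real.exp (-(q ^ 2 / 2)) := by
    unfold gphi
    have h := ww_pos.ne'
    rw [show Real.sqrt (2 * Real.pi) = ww from rfl]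
    field_simp
  rw [e] at h1
  exact h1

lemma JJ_bound (N : ℕ) (q : ℝ) (hq : 0 ≤ q) : 0 ≤ (-1) ^ N * (JJ q - IN N q) := by
  set F : ℝ → ℝ := fun q => (-1) ^ N * (JJ q - IN N q) with hF
  have hd : ∀ x, HasDerivAt F ((-1) ^ N * (Real.exp (-(x ^ 2 / 2)) - TN N (x ^ 2 / 2))) x := by
    intro x
    exact ((hasDerivAt_JJ x).sub (hasDerivAt_IN N x)).const_mul ((-1 : ℝ) ^ N)
  have hmono : Monotone F := by
    apply monotone_of_deriv_nonneg
    · intro y; exact (hd y).differentiableAt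
    · intro y
      rw [(hd y).deriv]
      exact TN_bound N _ (by positivity)
  have h0 : F 0 = 0 := by
    simp only [hF, JJ, gPhi_zero, IN]
    simp
  have := hmono hq
  rw [h0] at this
  exact this

lemma exp_le_TN (q Ahi : ℝ) (h : TN 19 (q ^ 2 / 2) ≤ Ahi) : Real.exp (-(q ^ 2 / 2)) ≤ Ahi := by
  have := TN_bound 19 (q ^ 2 / 2) (by positivity)
  norm_num at this
  linarith

/-- node lemma -/
lemma node (q Ahi Jlo Jhi Plo Phi X : ℝ) (hq : 0 ≤ q) (hA : TN 19 (q ^ 2 / 2) ≤ Ahi)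
    (h1 : Jlo ≤ IN 18 q) (h2 : IN 19 q ≤ Jhi) (hJ : 0 ≤ Jlo)
    (hPlo : Plo ≤ 1 / 2 - Jhi / 2.506628) (hPhi : 1 / 2 - Jlo / 2.506629 ≤ Phi)
    (hX : 4 / 9 * Ahi * (Ahi + q * Jhi - q * 2.506628 / 2) ≤ X) :
    Plo ≤ gPhi (-q) ∧ gPhi (-q) ≤ Phi ∧ 8 * Real.pi / 9 * (gphi q * gL q) ≤ X := by
  have hAq := exp_le_TN q Ahi hA
  have hw1 := ww_lo
  have hw2 := ww_hi
  have hw0 := ww_pos
  have hJ1 : IN 18 q ≤ JJ q := by
    have := JJ_bound 18 q hq
    norm_num at this
    linarith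
  have hJ2 : JJ q ≤ IN 19 q := by
    have := JJ_bound 19 q hq
    norm_num at this
    linarith
  have hp : gPhi (-q) = 1 / 2 - JJ q / ww := by
    rw [gPhi_neg]
    unfold JJ
    field_simp
    ring
  have hJlo : Jlo ≤ JJ q := h1.trans hJ1
  have hJhi : JJ q ≤ Jhi := hJ2.trans h2
  have hJ0 : 0 ≤ JJ q := hJ.trans hJlo
  refine ⟨?_, ?_, ?_⟩
  · rw [hp]
    have : JJ q / ww ≤ Jhi / 2.506628 := by
      apply div_le_div₀ (hJ0.trans hJhi) hJhi (by norm_num) hw1.le
    linarith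
  · rw [hp]
    have : Jlo / 2.506629 ≤ JJ q / ww := by
      apply div_le_div₀ hJ0 hJlo hw0 hw2.le
    linarith
  · have hA0 : 0 < Real.exp (-(q ^ 2 / 2)) := Real.exp_pos _
    have hphi : gphi q = Real.exp (-(q ^ 2 / 2)) / ww := by
      unfold gphi ww
      congr 2
      ring
    have hL : gL q = (Real.exp (-(q ^ 2 / 2)) - q * ww / 2 + q * JJ q) / ww := by
      unfold gL
      rw [hp, hphi]
      field_simp
      ring
    have hin0 : 0 ≤ Real.exp (-(q ^ 2 / 2)) - q * ww / 2 + q * JJ q := by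
      have := gL_nonneg q
      rw [hL] at this
      have h3 : Real.exp (-(q ^ 2 / 2)) - q * ww / 2 + q * JJ q
        = (Real.exp (-(q ^ 2 / 2)) - q * ww / 2 + q * JJ q) / ww * ww := by field_simp
      rw [h3]
      positivity
    have e : 8 * Real.pi / 9 * (gphi q * gL q) = 4 / 9 * Real.exp (-(q ^ 2 / 2)) *
        (Real.exp (-(q ^ 2 / 2)) - q * ww / 2 + q * JJ q) := by
      rw [hL, hphi]
      have : 8 * Real.pi / 9 = 4 / 9 * ww ^ 2 := by rw [ww_sq]; ring
      rw [this]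
      field_simp
    rw [e]
    refine le_trans ?_ hX
    have h5 : Real.exp (-(q ^ 2 / 2)) - q * ww / 2 + q * JJ q
      ≤ Ahi + q * Jhi - q * 2.506628 / 2 := by nlinarith
    have h6 : 0 ≤ Ahi := hA0.le.trans hAq
    apply mul_le_mul (by linarith) h5 hin0 (by positivity)

/-- upper bound on `L` -/
lemma gL_le_num (q Ahi Jhi Lh : ℝ) (hq : 0 ≤ q) (hA : TN 19 (q ^ 2 / 2) ≤ Ahi)
    (h2 : IN 19 q ≤ Jhi)
    (hX : (Ahi + q * Jhi - q * 2.506628 / 2) / 2.506628 ≤ Lh) : gL q ≤ Lh := by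
  have hAq := exp_le_TN q Ahi hA
  have hw1 := ww_lo
  have hw0 := ww_pos
  have hJ2 : JJ q ≤ IN 19 q := by
    have := JJ_bound 19 q hq
    norm_num at this
    linarith
  have hJhi : JJ q ≤ Jhi := hJ2.trans h2
  have hp : gPhi (-q) = 1 / 2 - JJ q / ww := by
    rw [gPhi_neg]
    unfold JJ
    field_simp
    ring
  have hphi : gphi q = Real.exp (-(q ^ 2 / 2)) / ww := by
    unfold gphi ww
    congr 2
    ring
  have hL : gL q = (Real.exp (-(q ^ 2 / 2)) - q * ww / 2 + q * JJ q) / ww := by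
    unfold gL
    rw [hp, hphi]
    field_simp
    ring
  have hin0 : 0 ≤ Real.exp (-(q ^ 2 / 2)) - q * ww / 2 + q * JJ q := by
    have := gL_nonneg q
    rw [hL] at this
    have h3 : Real.exp (-(q ^ 2 / 2)) - q * ww / 2 + q * JJ q
      = (Real.exp (-(q ^ 2 / 2)) - q * ww / 2 + q * JJ q) / ww * ww := by field_simp
    rw [h3]
    positivity
  have h5 : Real.exp (-(q ^ 2 / 2)) - q * ww / 2 + q * JJ q
      ≤ Ahi + q * Jhi - q * 2.506628 / 2 := by nlinarith
  rw [hL]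
  refine le_trans ?_ hX
  apply div_le_div₀ (hin0.trans h5) h5 (by norm_num) hw1.le

end Crest.Agent.PH
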