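/-
Row 215 (S0334): interval bounds `s ≤ a p + b` (numerical data).
-/
import Crest.Agent.PH.F2

set_option autoImplicit false

namespace Crest.Agent.PH

open MeasureTheory ProbabilityTheory Set Filter Topology

/-- one dimensional data of a cell : `s = |z|²`, `p` = measure. -/
structure CellData (s p : ℝ) : Prop where
  hq : ∃ q, gPhi (-q) = p ∧ (0 ≤ q → s ≤ 2 * (8 * Real.pi / 9 * (gphi q * gL q))
    - (8 * Real.pi / 9 * (gphi q * gL q)) ^ 2)
  h3 : ∀ q₀ : ℝ, 0 ≤ q₀ → s ≤ 8 * Real.pi / 9 * (q₀ * p + gL q₀) ^ 2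
  s0 : 0 ≤ s

lemma gPhi_neg_anti {a b : ℝ} (h : a ≤ b) : gPhi (-b) ≤ gPhi (-a) :=
  strictMono_gPhi.monotone (by linarith)

lemma interval_gen {qb qa q s A B x0 a b Pa Pah Pb Pbh Xa Xb : ℝ} (h0 : 0 ≤ qb) (h1 : qb ≤ q)
    (h2 : q ≤ qa)
    (na : Pa ≤ gPhi (-qa) ∧ gPhi (-qa) ≤ Pah ∧ 8 * Real.pi / 9 * (gphi qa * gL qa) ≤ Xa)
    (nb : Pb ≤ gPhi (-qb) ∧ gPhi (-qb) ≤ Pbh ∧ 8 * Real.pi / 9 * (gphi qb * gL qb) ≤ Xb)
    (hs : s ≤ 2 * (8 * Real.pi / 9 * (gphi q * gL q)) - (8 * Real.pi / 9 * (gphi q * gL q)) ^ 2)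
    (hA : 0 ≤ A) (ha : Xa ≤ A * Pa + B) (hb : Xb ≤ A * Pb + B) (hx0 : x0 ≤ 1)
    (hfa : 2 * (1 - x0) * (A * Pa + B) + x0 ^ 2 ≤ a * Pa + b)
    (hfb : 2 * (1 - x0) * (A * Pbh + B) + x0 ^ 2 ≤ a * Pbh + b) :
    Pa ≤ gPhi (-q) ∧ gPhi (-q) ≤ Pbh ∧ s ≤ a * gPhi (-q) + b := by
  obtain ⟨na1, na2, na3⟩ := na
  obtain ⟨nb1, nb2, nb3⟩ := nb
  have hp1 : Pa ≤ gPhi (-q) := na1.trans (gPhi_neg_anti h2)
  have hp2 : gPhi (-q) ≤ Pbh := (gPhi_neg_anti h1).trans nb2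
  refine ⟨hp1, hp2, ?_⟩
  have hch := chord (8 * Real.pi / 9) A B qb qa q (by positivity) h0 h1 h2
    (by nlinarith) (by nlinarith)
  set x := 8 * Real.pi / 9 * (gphi q * gL q) with hx
  set p := gPhi (-q) with hp
  have h3 : s ≤ 2 * (1 - x0) * (A * p + B) + x0 ^ 2 := by
    nlinarith [sq_nonneg (x - x0)]
  refine h3.trans ?_
  rcases le_total 0 (a - 2 * (1 - x0) * A) with h | h
  · nlinarith [mul_nonneg h (sub_nonneg.2 hp1)]
  · nlinarith [mul_nonneg (neg_nonneg.2 h) (sub_nonneg.2 hp2)]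

lemma c3_gen {s p q₀ Lh a b pa pb : ℝ} (hq : 0 ≤ q₀) (hL : gL q₀ ≤ Lh) (hp0 : 0 ≤ pa)
    (h3 : s ≤ 8 * Real.pi / 9 * (q₀ * p + gL q₀) ^ 2)
    (hpa : pa ≤ p) (hpb : p ≤ pb) (hfa : 2.792528 * (q₀ * pa + Lh) ^ 2 ≤ a * pa + b)
    (hfb : 2.792528 * (q₀ * pb + Lh) ^ 2 ≤ a * pb + b) (hab : pa < pb) : s ≤ a * p + b := by
  have hpi : 8 * Real.pi / 9 ≤ 2.792528 := by
    have := Real.pi_lt_d6
    norm_num at this ⊢
    linarith
  have hL0 := gL_nonneg q₀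
  have hp : 0 ≤ p := hp0.trans hpa
  have h4 : (q₀ * p + gL q₀) ^ 2 ≤ (q₀ * p + Lh) ^ 2 := by
    apply pow_le_pow_left₀ (by positivity)
    linarith
  have h5 : s ≤ 2.792528 * (q₀ * p + Lh) ^ 2 := by
    refine h3.trans ?_
    apply mul_le_mul hpi h4 (by positivity) (by norm_num)
  refine h5.trans ?_
  have h6 : (a * p + b - 2.792528 * (q₀ * p + Lh) ^ 2) * (pb - pa)
      = (pb - p) * (a * pa + b - 2.792528 * (q₀ * pa + Lh) ^ 2)
        + (p - pa) * (a * pb + b - 2.792528 * (q₀ * pb + Lh) ^ 2)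
        + 2.792528 * q₀ ^ 2 * ((p - pa) * (pb - p)) * (pb - pa) := by ring
  have h7 : 0 ≤ (a * p + b - 2.792528 * (q₀ * p + Lh) ^ 2) * (pb - pa) := by
    rw [h6]
    have e1 : 0 ≤ pb - p := by linarith
    have e2 : 0 ≤ p - pa := by linarith
    have e3 : 0 ≤ a * pa + b - 2.792528 * (q₀ * pa + Lh) ^ 2 := by linarith
    have e4 : 0 ≤ a * pb + b - 2.792528 * (q₀ * pb + Lh) ^ 2 := by linarith
    have e5 : 0 ≤ pb - pa := by linarith
    positivity
  have h8 : 0 < pb - pa := by linarith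
  have := nonneg_of_mul_nonneg_left h7 h8
  linarith

lemma nd0 : (0.012545 : ℝ) ≤ gPhi (-(56/25)) ∧ gPhi (-(56/25)) ≤ 0.012546 ∧
    8 * Real.pi / 9 * (gphi (56/25) * gL (56/25)) ≤ 0.000396 := by
  apply node (56/25) 0.0813659 1.2218673 1.2218674 <;>
    norm_num [TN, IN, Finset.sum_range_succ, Nat.factorial]

lemma nd1 : (0.017864 : ℝ) ≤ gPhi (-(21/10)) ∧ gPhi (-(21/10)) ≤ 0.017865 ∧
    8 * Real.pi / 9 * (gphi (21/10) * gL (21/10)) ≤ 0.000795 := by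
  apply node (21/10) 0.1102506 1.2085346 1.2085347 <;>
    norm_num [TN, IN, Finset.sum_range_succ, Nat.factorial]

lemma nd2 : (0.024707 : ℝ) ≤ gPhi (-(393/200)) ∧ gPhi (-(393/200)) ≤ 0.024708 ∧
    8 * Real.pi / 9 * (gphi (393/200) * gL (393/200)) ≤ 0.001507 := by
  apply node (393/200) 0.1450594 1.1913825 1.1913826 <;>
    norm_num [TN, IN, Finset.sum_range_succ, Nat.factorial]

lemma nd3 : (0.032156 : ℝ) ≤ gPhi (-(37/20)) ∧ gPhi (-(37/20)) ≤ 0.032157 ∧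
    8 * Real.pi / 9 * (gphi (37/20) * gL (37/20)) ≤ 0.002531 := by
  apply node (37/20) 0.1806399 1.172709 1.1727091 <;>
    norm_num [TN, IN, Finset.sum_range_succ, Nat.factorial]

lemma nd4 : (0.039203 : ℝ) ≤ gPhi (-(44/25)) ∧ gPhi (-(44/25)) ≤ 0.039205 ∧
    8 * Real.pi / 9 * (gphi (44/25) * gL (44/25)) ≤ 0.003736 := by
  apply node (44/25) 0.2125029 1.1550445 1.1550446 <;>
    norm_num [TN, IN, Finset.sum_range_succ, Nat.factorial]

lemma nd5 : (0.046478 : ℝ) ≤ gPhi (-(42/25)) ∧ gPhi (-(42/25)) ≤ 0.046479 ∧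
    8 * Real.pi / 9 * (gphi (42/25) * gL (42/25)) ≤ 0.005216 := by
  apply node (42/25) 0.2438505 1.1368094 1.1368095 <;>
    norm_num [TN, IN, Finset.sum_range_succ, Nat.factorial]

lemma nd6 : (0.055356 : ℝ) ≤ gPhi (-(319/200)) ∧ gPhi (-(319/200)) ≤ 0.055357 ∧
    8 * Real.pi / 9 * (gphi (319/200) * gL (319/200)) ≤ 0.007343 := by
  apply node (319/200) 0.2802671 1.1145569 1.114557 <;>
    norm_num [TN, IN, Finset.sum_range_succ, Nat.factorial]

lemma nd7 : (0.064886 : ℝ) ≤ gPhi (-(303/200)) ∧ gPhi (-(303/200)) ≤ 0.064887 ∧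
    8 * Real.pi / 9 * (gphi (303/200) * gL (303/200)) ≤ 0.010014 := by
  apply node (303/200) 0.3173937 1.0906685 1.0906686 <;>
    norm_num [TN, IN, Finset.sum_range_succ, Nat.factorial]

lemma nd8 : (0.08001 : ℝ) ≤ gPhi (-(281/200)) ∧ gPhi (-(281/200)) ≤ 0.080011 ∧
    8 * Real.pi / 9 * (gphi (281/200) * gL (281/200)) ≤ 0.015058 := by
  apply node (281/200) 0.3726885 1.0527572 1.0527573 <;>
    norm_num [TN, IN, Finset.sum_range_succ, Nat.factorial]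

lemma nd9 : (0.0968 : ℝ) ≤ gPhi (-(13/10)) ∧ gPhi (-(13/10)) ≤ 0.096801 ∧
    8 * Real.pi / 9 * (gphi (13/10) * gL (13/10)) ≤ 0.021788 := by
  apply node (13/10) 0.4295574 1.0106713 1.0106714 <;>
    norm_num [TN, IN, Finset.sum_range_succ, Nat.factorial]

lemma nd10 : (0.115069 : ℝ) ≤ gPhi (-(6/5)) ∧ gPhi (-(6/5)) ≤ 0.11507 ∧
    8 * Real.pi / 9 * (gphi (6/5) * gL (6/5)) ≤ 0.030423 := by
  apply node (6/5) 0.4867523 0.9648772 0.9648773 <;>
    norm_num [TN, IN, Finset.sum_range_succ, Nat.factorial]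

lemma nd11 : (0.134579 : ℝ) ≤ gPhi (-(221/200)) ∧ gPhi (-(221/200)) ≤ 0.13458 ∧
    8 * Real.pi / 9 * (gphi (221/200) * gL (221/200)) ≤ 0.041108 := by
  apply node (221/200) 0.5430725 0.9159726 0.9159727 <;>
    norm_num [TN, IN, Finset.sum_range_succ, Nat.factorial]

lemma nd12 : (0.151504 : ℝ) ≤ gPhi (-(103/100)) ∧ gPhi (-(103/100)) ≤ 0.151506 ∧
    8 * Real.pi / 9 * (gphi (103/100) * gL (103/100)) ≤ 0.05156 := by
  apply node (103/100) 0.5883402 0.8735474 0.8735475 <;>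
    norm_num [TN, IN, Finset.sum_range_succ, Nat.factorial]

lemma nd13 : (0.171056 : ℝ) ≤ gPhi (-(19/20)) ∧ gPhi (-(19/20)) ≤ 0.171057 ∧
    8 * Real.pi / 9 * (gphi (19/20) * gL (19/20)) ≤ 0.064956 := by
  apply node (19/20) 0.6368317 0.82454 0.8245401 <;>
    norm_num [TN, IN, Finset.sum_range_succ, Nat.factorial]

lemma nd14 : (0.188078 : ℝ) ≤ gPhi (-(177/200)) ∧ gPhi (-(177/200)) ≤ 0.188079 ∧
    8 * Real.pi / 9 * (gphi (177/200) * gL (177/200)) ≤ 0.077734 := by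
  apply node (177/200) 0.6759661 0.7818717 0.7818718 <;>
    norm_num [TN, IN, Finset.sum_range_succ, Nat.factorial]

lemma nd15 : (0.204685 : ℝ) ≤ gPhi (-(33/40)) ∧ gPhi (-(33/40)) ≤ 0.204686 ∧
    8 * Real.pi / 9 * (gphi (33/40) * gL (33/40)) ≤ 0.091162 := by
  apply node (33/40) 0.711548 0.7402429 0.740243 <;>
    norm_num [TN, IN, Finset.sum_range_succ, Nat.factorial]

lemma nd16 : (0.220649 : ℝ) ≤ gPhi (-(77/100)) ∧ gPhi (-(77/100)) ≤ 0.220651 ∧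
    8 * Real.pi / 9 * (gphi (77/100) * gL (77/100)) ≤ 0.104935 := by
  apply node (77/100) 0.7434528 0.7002267 0.7002268 <;>
    norm_num [TN, IN, Finset.sum_range_succ, Nat.factorial]

lemma nd17 : (0.237304 : ℝ) ≤ gPhi (-(143/200)) ∧ gPhi (-(143/200)) ≤ 0.237305 ∧
    8 * Real.pi / 9 * (gphi (143/200) * gL (143/200)) ≤ 0.120172 := by
  apply node (143/200) 0.7744421 0.6584799 0.65848 <;>
    norm_num [TN, IN, Finset.sum_range_succ, Nat.factorial]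

lemma nd18 : (0.251428 : ℝ) ≤ gPhi (-(67/100)) ∧ gPhi (-(67/100)) ≤ 0.251429 ∧
    8 * Real.pi / 9 * (gphi (67/100) * gL (67/100)) ≤ 0.133762 := by
  apply node (67/100) 0.7989556 0.6230753 0.6230754 <;>
    norm_num [TN, IN, Finset.sum_range_succ, Nat.factorial]

lemma nd19 : (0.269277 : ℝ) ≤ gPhi (-(123/200)) ∧ gPhi (-(123/200)) ≤ 0.269278 ∧
    8 * Real.pi / 9 * (gphi (123/200) * gL (123/200)) ≤ 0.151774 := by
  apply node (123/200) 0.8276934 0.5783358 0.5783359 <;>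
    norm_num [TN, IN, Finset.sum_range_succ, Nat.factorial]

lemma nd20 : (0.286036 : ℝ) ≤ gPhi (-(113/200)) ∧ gPhi (-(113/200)) ≤ 0.286037 ∧
    8 * Real.pi / 9 * (gphi (113/200) * gL (113/200)) ≤ 0.169501 := by
  apply node (113/200) 0.8524741 0.536326 0.5363261 <;>
    norm_num [TN, IN, Finset.sum_range_succ, Nat.factorial]

lemma nd21 : (0.302403 : ℝ) ≤ gPhi (-(207/400)) ∧ gPhi (-(207/400)) ≤ 0.302404 ∧
    8 * Real.pi / 9 * (gphi (207/400) * gL (207/400)) ≤ 0.187532 := by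
  apply node (207/400) 0.8746748 0.4953007 0.4953008 <;>
    norm_num [TN, IN, Finset.sum_range_succ, Nat.factorial]

lemma nL0 : gL (1/2) ≤ 0.197797 := by
  apply gL_le_num (1/2) 0.882497 0.4799253 <;>
    norm_num [TN, IN, Finset.sum_range_succ, Nat.factorial]

lemma nL1 : gL (91/200) ≤ 0.21204 := by
  apply gL_le_num (91/200) 0.9016648 0.4397764 <;>
    norm_num [TN, IN, Finset.sum_range_succ, Nat.factorial]

lemma nL2 : gL (79/200) ≤ 0.232167 := by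
  apply gL_le_num (79/200) 0.9249529 0.3849644 <;>
    norm_num [TN, IN, Finset.sum_range_succ, Nat.factorial]

lemma nL3 : gL (13/40) ≤ 0.257328 := by
  apply gL_le_num (13/40) 0.9485579 0.3193682 <;>
    norm_num [TN, IN, Finset.sum_range_succ, Nat.factorial]

lemma nL4 : gL (51/200) ≤ 0.284344 := by
  apply gL_le_num (51/200) 0.9680104 0.2522632 <;>
    norm_num [TN, IN, Finset.sum_range_succ, Nat.factorial]

lemma nL5 : gL (33/200) ≤ 0.321861 := by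
  apply gL_le_num (33/200) 0.9864798 0.1642544 <;>
    norm_num [TN, IN, Finset.sum_range_succ, Nat.factorial]

lemma nL6 : gL (3/50) ≤ 0.369661 := by
  apply gL_le_num (3/50) 0.9982017 0.0599641 <;>
    norm_num [TN, IN, Finset.sum_range_succ, Nat.factorial]

/-- the list of intervals -/
def Ints (s p : ℝ) : Prop :=
  (0 ≤ p ∧ p ≤ 0.012546 ∧ s ≤ 5.586 * p ^ 2) ∨
  (0.012545 ≤ p ∧ p ≤ 0.017865 ∧ s ≤ 0.1499 * p + (-0.001088)) ∨
  (0.017864 ≤ p ∧ p ≤ 0.024708 ∧ s ≤ 0.2079 * p + (-0.002124)) ∨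
  (0.024707 ≤ p ∧ p ≤ 0.032157 ∧ s ≤ 0.2744 * p + (-0.003767)) ∨
  (0.032156 ≤ p ∧ p ≤ 0.039205 ∧ s ≤ 0.3409 * p + (-0.005905)) ∨
  (0.039203 ≤ p ∧ p ≤ 0.046479 ∧ s ≤ 0.405 * p + (-0.008418)) ∨
  (0.046478 ≤ p ∧ p ≤ 0.055357 ∧ s ≤ 0.4761 * p + (-0.011721)) ∨
  (0.055356 ≤ p ∧ p ≤ 0.064887 ∧ s ≤ 0.5557 * p + (-0.016127)) ∨
  (0.064886 ≤ p ∧ p ≤ 0.080011 ∧ s ≤ 0.6587 * p + (-0.022806)) ∨
  (0.08001 ≤ p ∧ p ≤ 0.096801 ∧ s ≤ 0.7869 * p + (-0.033059)) ∨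
  (0.0968 ≤ p ∧ p ≤ 0.11507 ∧ s ≤ 0.9206 * p + (-0.045993)) ∨
  (0.115069 ≤ p ∧ p ≤ 0.13458 ∧ s ≤ 1.0561 * p + (-0.061574)) ∨
  (0.134579 ≤ p ∧ p ≤ 0.151506 ∧ s ≤ 1.1779 * p + (-0.077967)) ∨
  (0.151504 ≤ p ∧ p ≤ 0.171057 ∧ s ≤ 1.2904 * p + (-0.094993)) ∨
  (0.171056 ≤ p ∧ p ≤ 0.188079 ∧ s ≤ 1.3943 * p + (-0.11277)) ∨
  (0.188078 ≤ p ∧ p ≤ 0.204686 ∧ s ≤ 1.4807 * p + (-0.129016)) ∨
  (0.204685 ≤ p ∧ p ≤ 0.220651 ∧ s ≤ 1.5564 * p + (-0.144511)) ∨
  (0.220649 ≤ p ∧ p ≤ 0.237305 ∧ s ≤ 1.6237 * p + (-0.15935)) ∨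
  (0.237304 ≤ p ∧ p ≤ 0.251429 ∧ s ≤ 1.68 * p + (-0.172721)) ∨
  (0.251428 ≤ p ∧ p ≤ 0.269278 ∧ s ≤ 1.7301 * p + (-0.185281)) ∨
  (0.269277 ≤ p ∧ p ≤ 0.286037 ∧ s ≤ 1.7758 * p + (-0.197591)) ∨
  (0.286036 ≤ p ∧ p ≤ 0.302404 ∧ s ≤ 1.81 * p + (-0.207371)) ∨
  (0.302403 ≤ p ∧ p ≤ 0.315 ∧ s ≤ 0.9834 * p + 0.042747) ∨
  (0.315 ≤ p ∧ p ≤ 0.335 ∧ s ≤ 0.9146 * p + 0.064554) ∨
  (0.335 ≤ p ∧ p ≤ 0.36 ∧ s ≤ 0.815 * p + 0.097975) ∨
  (0.36 ≤ p ∧ p ≤ 0.385 ∧ s ≤ 0.6868 * p + 0.144046) ∨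
  (0.385 ≤ p ∧ p ≤ 0.415 ∧ s ≤ 0.5502 * p + 0.196779) ∨
  (0.415 ≤ p ∧ p ≤ 0.455 ∧ s ≤ 0.3627 * p + 0.274958) ∨
  (0.455 ≤ p ∧ p ≤ 0.5 ∧ s ≤ 0.1335 * p + 0.379299) ∨
  (1 / 2 ≤ p ∧ s ≤ 4 / 9)

lemma cellData_s_le {s p : ℝ} (h : CellData s p) : s ≤ 4 / 9 := by
  have h1 := h.h3 0 le_rfl
  rw [gL_zero] at h1
  have h2 : (0 * p + 1 / Real.sqrt (2 * Real.pi)) ^ 2 = 1 / (2 * Real.pi) := by
    rw [zero_mul, zero_add, div_pow, Real.sq_sqrt (by positivity)]; norm_num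
  rw [h2] at h1
  have h3 : 8 * Real.pi / 9 * (1 / (2 * Real.pi)) = 4 / 9 := by
    field_simp; norm_num
  linarith

lemma cellData_s_le_sq {s p : ℝ} (h : CellData s p) : s ≤ 5.586 * p ^ 2 := by
  obtain ⟨q, hqp, hs⟩ := h.hq
  rcases le_total 0 q with hq | hq
  · have h1 := psi_le_sq hq
    have h2 := hs hq
    rw [hqp] at h1
    have hpi : 8 * Real.pi / 9 ≤ 2.793 := by
      have := Real.pi_lt_d6
      norm_num at this ⊢
      linarith
    have h3 : 0 ≤ gphi q * gL q := mul_nonneg (gphi_pos q).le (gL_nonneg q)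
    have h4 : 8 * Real.pi / 9 * (gphi q * gL q) ≤ 2.793 * p ^ 2 := by
      apply mul_le_mul hpi h1 h3 (by norm_num)
    nlinarith [sq_nonneg (8 * Real.pi / 9 * (gphi q * gL q))]
  · have h1 : 1 / 2 ≤ p := by
      rw [← hqp, ← gPhi_zero]
      exact strictMono_gPhi.monotone (by linarith)
    have h2 := cellData_s_le h
    nlinarith

theorem ints_of_cellData {s p : ℝ} (h : CellData s p) : Ints s p := by
  have hs49 := cellData_s_le h
  have hsq := cellData_s_le_sq h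
  have hh3 := h.h3
  obtain ⟨q, hqp, hs'⟩ := h.hq
  unfold Ints
  rcases lt_or_ge q 0 with hq | hq
  · have h1 : 1 / 2 ≤ p := by
      rw [← hqp, ← gPhi_zero]
      exact strictMono_gPhi.monotone (by linarith)
    exact Or.inr (Or.inr (Or.inr (Or.inr (Or.inr (Or.inr (Or.inr (Or.inr (Or.inr (Or.inr (Or.inr (Or.inr (Or.inr (Or.inr (Or.inr (Or.inr (Or.inr (Or.inr (Or.inr (Or.inr (Or.inr (Or.inr (Or.inr (Or.inr (Or.inr (Or.inr (Or.inr (Or.inr (Or.inr (⟨h1, hs49⟩)))))))))))))))))))))))))))))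
  have hs := hs' hq
  rcases le_total (56/25) q with g0 | g0
  · have h1 : p ≤ 0.012546 := by
      rw [← hqp]
      exact (gPhi_neg_anti g0).trans nd0.2.1
    have h0 : 0 ≤ p := by rw [← hqp]; exact gPhi_nonneg _
    exact Or.inl (⟨h0, h1, hsq⟩)
  rcases le_total (21/10) q with g1 | g1
  · have h1 := interval_gen (A := 0.07501) (B := (-0.0005449)) (x0 := 0.0006) (a := 0.1499) (b := (-0.001088))
      (by norm_num : (0:ℝ) ≤ 21/10) g1 g0 nd0 nd1 hs (by norm_num) (by norm_num) (by norm_num)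
      (by norm_num) (by norm_num) (by norm_num)
    rw [hqp] at h1
    exact Or.inr (Or.inl (h1))
  rcases le_total (393/200) q with g2 | g2
  · have h1 := interval_gen (A := 0.10405) (B := (-0.0010637)) (x0 := 0.0012) (a := 0.2079) (b := (-0.002124))
      (by norm_num : (0:ℝ) ≤ 393/200) g2 g1 nd1 nd2 hs (by norm_num) (by norm_num) (by norm_num)
      (by norm_num) (by norm_num) (by norm_num)
    rw [hqp] at h1
    exact Or.inr (Or.inr (Or.inl (h1)))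
  rcases le_total (37/20) q with g3 | g3
  · have h1 := interval_gen (A := 0.13747) (B := (-0.0018894)) (x0 := 0.002) (a := 0.2744) (b := (-0.003767))
      (by norm_num : (0:ℝ) ≤ 37/20) g3 g2 nd2 nd3 hs (by norm_num) (by norm_num) (by norm_num)
      (by norm_num) (by norm_num) (by norm_num)
    rw [hqp] at h1
    exact Or.inr (Or.inr (Or.inr (Or.inl (h1))))
  rcases le_total (44/25) q with g4 | g4
  · have h1 := interval_gen (A := 0.17099) (B := (-0.0029673)) (x0 := 0.0031) (a := 0.3409) (b := (-0.005905))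
      (by norm_num : (0:ℝ) ≤ 44/25) g4 g3 nd3 nd4 hs (by norm_num) (by norm_num) (by norm_num)
      (by norm_num) (by norm_num) (by norm_num)
    rw [hqp] at h1
    exact Or.inr (Or.inr (Or.inr (Or.inr (Or.inl (h1)))))
  rcases le_total (42/25) q with g5 | g5
  · have h1 := interval_gen (A := 0.20344) (B := (-0.0042394)) (x0 := 0.0045) (a := 0.405) (b := (-0.008418))
      (by norm_num : (0:ℝ) ≤ 42/25) g5 g4 nd4 nd5 hs (by norm_num) (by norm_num) (by norm_num)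
      (by norm_num) (by norm_num) (by norm_num)
    rw [hqp] at h1
    exact Or.inr (Or.inr (Or.inr (Or.inr (Or.inr (Or.inl (h1))))))
  rcases le_total (319/200) q with g6 | g6
  · have h1 := interval_gen (A := 0.23958) (B := (-0.0059191)) (x0 := 0.0063) (a := 0.4761) (b := (-0.011721))
      (by norm_num : (0:ℝ) ≤ 319/200) g6 g5 nd5 nd6 hs (by norm_num) (by norm_num) (by norm_num)
      (by norm_num) (by norm_num) (by norm_num)
    rw [hqp] at h1
    exact Or.inr (Or.inr (Or.inr (Or.inr (Or.inr (Or.inr (Or.inl (h1)))))))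
  rcases le_total (303/200) q with g7 | g7
  · have h1 := interval_gen (A := 0.28027) (B := (-0.0081715)) (x0 := 0.0087) (a := 0.5557) (b := (-0.016127))
      (by norm_num : (0:ℝ) ≤ 303/200) g7 g6 nd6 nd7 hs (by norm_num) (by norm_num) (by norm_num)
      (by norm_num) (by norm_num) (by norm_num)
    rw [hqp] at h1
    exact Or.inr (Or.inr (Or.inr (Or.inr (Or.inr (Or.inr (Or.inr (Or.inl (h1))))))))
  rcases le_total (281/200) q with g8 | g8
  · have h1 := interval_gen (A := 0.33351) (B := (-0.0116261)) (x0 := 0.0125) (a := 0.6587) (b := (-0.022806))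
      (by norm_num : (0:ℝ) ≤ 281/200) g8 g7 nd7 nd8 hs (by norm_num) (by norm_num) (by norm_num)
      (by norm_num) (by norm_num) (by norm_num)
    rw [hqp] at h1
    exact Or.inr (Or.inr (Or.inr (Or.inr (Or.inr (Or.inr (Or.inr (Or.inr (Or.inl (h1)))))))))
  rcases le_total (13/10) q with g9 | g9
  · have h1 := interval_gen (A := 0.40083) (B := (-0.0170123)) (x0 := 0.0184) (a := 0.7869) (b := (-0.033059))
      (by norm_num : (0:ℝ) ≤ 13/10) g9 g8 nd8 nd9 hs (by norm_num) (by norm_num) (by norm_num)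
      (by norm_num) (by norm_num) (by norm_num)
    rw [hqp] at h1
    exact Or.inr (Or.inr (Or.inr (Or.inr (Or.inr (Or.inr (Or.inr (Or.inr (Or.inr (Or.inl (h1))))))))))
  rcases le_total (6/5) q with g10 | g10
  · have h1 := interval_gen (A := 0.47266) (B := (-0.0239654)) (x0 := 0.0261) (a := 0.9206) (b := (-0.045993))
      (by norm_num : (0:ℝ) ≤ 6/5) g10 g9 nd9 nd10 hs (by norm_num) (by norm_num) (by norm_num)
      (by norm_num) (by norm_num) (by norm_num)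
    rw [hqp] at h1
    exact Or.inr (Or.inr (Or.inr (Or.inr (Or.inr (Or.inr (Or.inr (Or.inr (Or.inr (Or.inr (Or.inl (h1)))))))))))
  rcases le_total (221/200) q with g11 | g11
  · have h1 := interval_gen (A := 0.54767) (B := (-0.0325968)) (x0 := 0.0358) (a := 1.0561) (b := (-0.061574))
      (by norm_num : (0:ℝ) ≤ 221/200) g11 g10 nd10 nd11 hs (by norm_num) (by norm_num) (by norm_num)
      (by norm_num) (by norm_num) (by norm_num)
    rw [hqp] at h1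
    exact Or.inr (Or.inr (Or.inr (Or.inr (Or.inr (Or.inr (Or.inr (Or.inr (Or.inr (Or.inr (Or.inr (Or.inl (h1))))))))))))
  rcases le_total (103/100) q with g12 | g12
  · have h1 := interval_gen (A := 0.61755) (B := (-0.0420012)) (x0 := 0.0463) (a := 1.1779) (b := (-0.077967))
      (by norm_num : (0:ℝ) ≤ 103/100) g12 g11 nd11 nd12 hs (by norm_num) (by norm_num) (by norm_num)
      (by norm_num) (by norm_num) (by norm_num)
    rw [hqp] at h1
    exact Or.inr (Or.inr (Or.inr (Or.inr (Or.inr (Or.inr (Or.inr (Or.inr (Or.inr (Or.inr (Or.inr (Or.inr (Or.inl (h1)))))))))))))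
  rcases le_total (19/20) q with g13 | g13
  · have h1 := interval_gen (A := 0.68515) (B := (-0.0522429)) (x0 := 0.0583) (a := 1.2904) (b := (-0.094993))
      (by norm_num : (0:ℝ) ≤ 19/20) g13 g12 nd12 nd13 hs (by norm_num) (by norm_num) (by norm_num)
      (by norm_num) (by norm_num) (by norm_num)
    rw [hqp] at h1
    exact Or.inr (Or.inr (Or.inr (Or.inr (Or.inr (Or.inr (Or.inr (Or.inr (Or.inr (Or.inr (Or.inr (Or.inr (Or.inr (Or.inl (h1))))))))))))))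
  rcases le_total (177/200) q with g14 | g14
  · have h1 := interval_gen (A := 0.75068) (B := (-0.0634523)) (x0 := 0.0713) (a := 1.3943) (b := (-0.11277))
      (by norm_num : (0:ℝ) ≤ 177/200) g14 g13 nd13 nd14 hs (by norm_num) (by norm_num) (by norm_num)
      (by norm_num) (by norm_num) (by norm_num)
    rw [hqp] at h1
    exact Or.inr (Or.inr (Or.inr (Or.inr (Or.inr (Or.inr (Or.inr (Or.inr (Or.inr (Or.inr (Or.inr (Or.inr (Or.inr (Or.inr (Or.inl (h1)))))))))))))))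
  rcases le_total (33/40) q with g15 | g15
  · have h1 := interval_gen (A := 0.80857) (B := (-0.0743401)) (x0 := 0.0844) (a := 1.4807) (b := (-0.129016))
      (by norm_num : (0:ℝ) ≤ 33/40) g15 g14 nd14 nd15 hs (by norm_num) (by norm_num) (by norm_num)
      (by norm_num) (by norm_num) (by norm_num)
    rw [hqp] at h1
    exact Or.inr (Or.inr (Or.inr (Or.inr (Or.inr (Or.inr (Or.inr (Or.inr (Or.inr (Or.inr (Or.inr (Or.inr (Or.inr (Or.inr (Or.inr (Or.inl (h1))))))))))))))))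
  rcases le_total (77/100) q with g16 | g16
  · have h1 := interval_gen (A := 0.86275) (B := (-0.0854299)) (x0 := 0.098) (a := 1.5564) (b := (-0.144511))
      (by norm_num : (0:ℝ) ≤ 77/100) g16 g15 nd15 nd16 hs (by norm_num) (by norm_num) (by norm_num)
      (by norm_num) (by norm_num) (by norm_num)
    rw [hqp] at h1
    exact Or.inr (Or.inr (Or.inr (Or.inr (Or.inr (Or.inr (Or.inr (Or.inr (Or.inr (Or.inr (Or.inr (Or.inr (Or.inr (Or.inr (Or.inr (Or.inr (Or.inl (h1)))))))))))))))))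
  rcases le_total (143/200) q with g17 | g17
  · have h1 := interval_gen (A := 0.91486) (B := (-0.0969279)) (x0 := 0.1126) (a := 1.6237) (b := (-0.15935))
      (by norm_num : (0:ℝ) ≤ 143/200) g17 g16 nd16 nd17 hs (by norm_num) (by norm_num) (by norm_num)
      (by norm_num) (by norm_num) (by norm_num)
    rw [hqp] at h1
    exact Or.inr (Or.inr (Or.inr (Or.inr (Or.inr (Or.inr (Or.inr (Or.inr (Or.inr (Or.inr (Or.inr (Or.inr (Or.inr (Or.inr (Or.inr (Or.inr (Or.inr (Or.inl (h1))))))))))))))))))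
  rcases le_total (67/100) q with g18 | g18
  · have h1 := interval_gen (A := 0.96219) (B := (-0.1081595)) (x0 := 0.127) (a := 1.68) (b := (-0.172721))
      (by norm_num : (0:ℝ) ≤ 67/100) g18 g17 nd17 nd18 hs (by norm_num) (by norm_num) (by norm_num)
      (by norm_num) (by norm_num) (by norm_num)
    rw [hqp] at h1
    exact Or.inr (Or.inr (Or.inr (Or.inr (Or.inr (Or.inr (Or.inr (Or.inr (Or.inr (Or.inr (Or.inr (Or.inr (Or.inr (Or.inr (Or.inr (Or.inr (Or.inr (Or.inr (Or.inl (h1)))))))))))))))))))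
  rcases le_total (123/200) q with g19 | g19
  · have h1 := interval_gen (A := 1.00913) (B := (-0.1199614)) (x0 := 0.1428) (a := 1.7301) (b := (-0.185281))
      (by norm_num : (0:ℝ) ≤ 123/200) g19 g18 nd18 nd19 hs (by norm_num) (by norm_num) (by norm_num)
      (by norm_num) (by norm_num) (by norm_num)
    rw [hqp] at h1
    exact Or.inr (Or.inr (Or.inr (Or.inr (Or.inr (Or.inr (Or.inr (Or.inr (Or.inr (Or.inr (Or.inr (Or.inr (Or.inr (Or.inr (Or.inr (Or.inr (Or.inr (Or.inr (Or.inr (Or.inl (h1))))))))))))))))))))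
  rcases le_total (113/200) q with g20 | g20
  · have h1 := interval_gen (A := 1.05776) (B := (-0.1330564)) (x0 := 0.1606) (a := 1.7758) (b := (-0.197591))
      (by norm_num : (0:ℝ) ≤ 113/200) g20 g19 nd19 nd20 hs (by norm_num) (by norm_num) (by norm_num)
      (by norm_num) (by norm_num) (by norm_num)
    rw [hqp] at h1
    exact Or.inr (Or.inr (Or.inr (Or.inr (Or.inr (Or.inr (Or.inr (Or.inr (Or.inr (Or.inr (Or.inr (Or.inr (Or.inr (Or.inr (Or.inr (Or.inr (Or.inr (Or.inr (Or.inr (Or.inr (Or.inl (h1)))))))))))))))))))))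
  rcases le_total (207/400) q with g21 | g21
  · have h1 := interval_gen (A := 1.10167) (B := (-0.1456162)) (x0 := 0.1785) (a := 1.81) (b := (-0.207371))
      (by norm_num : (0:ℝ) ≤ 207/400) g21 g20 nd20 nd21 hs (by norm_num) (by norm_num) (by norm_num)
      (by norm_num) (by norm_num) (by norm_num)
    rw [hqp] at h1
    exact Or.inr (Or.inr (Or.inr (Or.inr (Or.inr (Or.inr (Or.inr (Or.inr (Or.inr (Or.inr (Or.inr (Or.inr (Or.inr (Or.inr (Or.inr (Or.inr (Or.inr (Or.inr (Or.inr (Or.inr (Or.inr (Or.inl (h1))))))))))))))))))))))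
  have hp : 0.302403 ≤ p := by
    rw [← hqp]
    exact nd21.1.trans (gPhi_neg_anti g21)
  rcases le_total p (0.315) with k0 | k0
  · have h1 : s ≤ 0.9834 * p + 0.042747 := c3_gen (q₀ := 1/2) (by norm_num) nL0
      (by norm_num) (hh3 _ (by norm_num)) hp k0 (by norm_num) (by norm_num) (by norm_num)
    exact Or.inr (Or.inr (Or.inr (Or.inr (Or.inr (Or.inr (Or.inr (Or.inr (Or.inr (Or.inr (Or.inr (Or.inr (Or.inr (Or.inr (Or.inr (Or.inr (Or.inr (Or.inr (Or.inr (Or.inr (Or.inr (Or.inr (Or.inl (⟨hp, k0, h1⟩)))))))))))))))))))))))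
  rcases le_total p (0.335) with k1 | k1
  · have h1 : s ≤ 0.9146 * p + 0.064554 := c3_gen (q₀ := 91/200) (by norm_num) nL1
      (by norm_num) (hh3 _ (by norm_num)) k0 k1 (by norm_num) (by norm_num) (by norm_num)
    exact Or.inr (Or.inr (Or.inr (Or.inr (Or.inr (Or.inr (Or.inr (Or.inr (Or.inr (Or.inr (Or.inr (Or.inr (Or.inr (Or.inr (Or.inr (Or.inr (Or.inr (Or.inr (Or.inr (Or.inr (Or.inr (Or.inr (Or.inr (Or.inl (⟨k0, k1, h1⟩))))))))))))))))))))))))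
  rcases le_total p (0.36) with k2 | k2
  · have h1 : s ≤ 0.815 * p + 0.097975 := c3_gen (q₀ := 79/200) (by norm_num) nL2
      (by norm_num) (hh3 _ (by norm_num)) k1 k2 (by norm_num) (by norm_num) (by norm_num)
    exact Or.inr (Or.inr (Or.inr (Or.inr (Or.inr (Or.inr (Or.inr (Or.inr (Or.inr (Or.inr (Or.inr (Or.inr (Or.inr (Or.inr (Or.inr (Or.inr (Or.inr (Or.inr (Or.inr (Or.inr (Or.inr (Or.inr (Or.inr (Or.inr (Or.inl (⟨k1, k2, h1⟩)))))))))))))))))))))))))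
  rcases le_total p (0.385) with k3 | k3
  · have h1 : s ≤ 0.6868 * p + 0.144046 := c3_gen (q₀ := 13/40) (by norm_num) nL3
      (by norm_num) (hh3 _ (by norm_num)) k2 k3 (by norm_num) (by norm_num) (by norm_num)
    exact Or.inr (Or.inr (Or.inr (Or.inr (Or.inr (Or.inr (Or.inr (Or.inr (Or.inr (Or.inr (Or.inr (Or.inr (Or.inr (Or.inr (Or.inr (Or.inr (Or.inr (Or.inr (Or.inr (Or.inr (Or.inr (Or.inr (Or.inr (Or.inr (Or.inr (Or.inl (⟨k2, k3, h1⟩))))))))))))))))))))))))))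
  rcases le_total p (0.415) with k4 | k4
  · have h1 : s ≤ 0.5502 * p + 0.196779 := c3_gen (q₀ := 51/200) (by norm_num) nL4
      (by norm_num) (hh3 _ (by norm_num)) k3 k4 (by norm_num) (by norm_num) (by norm_num)
    exact Or.inr (Or.inr (Or.inr (Or.inr (Or.inr (Or.inr (Or.inr (Or.inr (Or.inr (Or.inr (Or.inr (Or.inr (Or.inr (Or.inr (Or.inr (Or.inr (Or.inr (Or.inr (Or.inr (Or.inr (Or.inr (Or.inr (Or.inr (Or.inr (Or.inr (Or.inr (Or.inl (⟨k3, k4, h1⟩)))))))))))))))))))))))))))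
  rcases le_total p (0.455) with k5 | k5
  · have h1 : s ≤ 0.3627 * p + 0.274958 := c3_gen (q₀ := 33/200) (by norm_num) nL5
      (by norm_num) (hh3 _ (by norm_num)) k4 k5 (by norm_num) (by norm_num) (by norm_num)
    exact Or.inr (Or.inr (Or.inr (Or.inr (Or.inr (Or.inr (Or.inr (Or.inr (Or.inr (Or.inr (Or.inr (Or.inr (Or.inr (Or.inr (Or.inr (Or.inr (Or.inr (Or.inr (Or.inr (Or.inr (Or.inr (Or.inr (Or.inr (Or.inr (Or.inr (Or.inr (Or.inr (Or.inl (⟨k4, k5, h1⟩))))))))))))))))))))))))))))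
  rcases le_total p (0.5) with k6 | k6
  · have h1 : s ≤ 0.1335 * p + 0.379299 := c3_gen (q₀ := 3/50) (by norm_num) nL6
      (by norm_num) (hh3 _ (by norm_num)) k5 k6 (by norm_num) (by norm_num) (by norm_num)
    exact Or.inr (Or.inr (Or.inr (Or.inr (Or.inr (Or.inr (Or.inr (Or.inr (Or.inr (Or.inr (Or.inr (Or.inr (Or.inr (Or.inr (Or.inr (Or.inr (Or.inr (Or.inr (Or.inr (Or.inr (Or.inr (Or.inr (Or.inr (Or.inr (Or.inr (Or.inr (Or.inr (Or.inr (Or.inl (⟨k5, k6, h1⟩)))))))))))))))))))))))))))))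
  exact Or.inr (Or.inr (Or.inr (Or.inr (Or.inr (Or.inr (Or.inr (Or.inr (Or.inr (Or.inr (Or.inr (Or.inr (Or.inr (Or.inr (Or.inr (Or.inr (Or.inr (Or.inr (Or.inr (Or.inr (Or.inr (Or.inr (Or.inr (Or.inr (Or.inr (Or.inr (Or.inr (Or.inr (Or.inr (⟨by norm_num at k6 ⊢; linarith, hs49⟩)))))))))))))))))))))))))))))

end Crest.Agent.PH
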