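/-
Row 215 (S0334): lines for `k = 4` (cone bound), and small-cell algebra.
-/
import Crest.Agent.PH.F4

set_option autoImplicit false
set_option linter.unusedVariables false

namespace Crest.Agent.PH

lemma cone_aux {t p P : ℝ} (hP : P ≤ 1 / 2) (hcone : t ≤ 8 / 3 * (p * (1 - p)))
    (hpoly : 8 / 3 * (P * (1 - P)) ≤ t) : P ≤ p := by
  by_contra hc
  push Not at hc
  have h1 : 0 < (P - p) * (1 - P - p) := by
    apply mul_pos <;> linarith
  nlinarith

lemma cone_C1 {s p : ℝ} (hs : s ≤ 4 / 9) (ha : 0.1 ≤ s)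
    (hcone : Real.sqrt s ≤ 8 / 3 * (p * (1 - p))) : 0.888 * s + 0.0205 ≤ p := by
  set t := Real.sqrt s with ht
  have hs0 : 0 ≤ s := by linarith
  have ht0 : 0 ≤ t := Real.sqrt_nonneg _
  have hts : t ^ 2 = s := Real.sq_sqrt hs0
  have ht1 : 0.316 ≤ t := by
    by_contra hc
    push Not at hc
    nlinarith
  have ht2 : t ≤ 2 / 3 := by
    by_contra hc
    push Not at hc
    nlinarith
  apply cone_aux (by linarith) hcone
  rw [← hts]
  have h1 : 0 ≤ t ^ 2 + 1.154 * t - 0.08116 := by nlinarith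
  nlinarith [mul_nonneg (sq_nonneg (t - 0.577)) h1]

lemma cone_C2 {s p : ℝ} (hs : s ≤ 4 / 9) (ha : 0.258 ≤ s)
    (hcone : Real.sqrt s ≤ 8 / 3 * (p * (1 - p))) : 0.688 * s + 0.0782 ≤ p := by
  set t := Real.sqrt s with ht
  have hs0 : 0 ≤ s := by linarith
  have ht0 : 0 ≤ t := Real.sqrt_nonneg _
  have hts : t ^ 2 = s := Real.sq_sqrt hs0
  have ht1 : 0.5079 ≤ t := by
    by_contra hc
    push Not at hc
    nlinarith
  have ht2 : t ≤ 2 / 3 := by
    by_contra hc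
    push Not at hc
    nlinarith
  apply cone_aux (by linarith) hcone
  rw [← hts]
  nlinarith [mul_nonneg (sub_nonneg.2 ht1) (sub_nonneg.2 ht2),
    mul_nonneg (mul_nonneg (sub_nonneg.2 ht1) (sub_nonneg.2 ht2)) (sq_nonneg t),
    mul_nonneg (mul_nonneg (sub_nonneg.2 ht1) (sub_nonneg.2 ht2)) ht0,
    mul_nonneg (sub_nonneg.2 ht1) (mul_nonneg ht0 ht0), sq_nonneg (t ^ 2 - 0.258),
    mul_nonneg (sub_nonneg.2 ht1) (sq_nonneg (t - 0.5079)), sq_nonneg (t - 0.5079)]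

end Crest.Agent.PH
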