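/-
Row 215 (S0334): polynomial inequalities for the final contradiction.
-/
import Crest.Agent.PH.F5

set_option autoImplicit false
set_option linter.unusedVariables false

namespace Crest.Agent.PH

lemma e2_lower {y1 y2 y3 Y : ℝ} (h : y1 + y2 + y3 = Y) (h2 : y1 ≤ y2) (h3 : y1 ≤ y3) :
    2 * Y * y1 - 3 * y1 ^ 2 ≤ y1 * y2 + y1 * y3 + y2 * y3 := by
  subst h
  nlinarith [mul_nonneg (sub_nonneg.2 h2) (sub_nonneg.2 h3)]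

lemma small_alg {e s p c κ : ℝ} (he : 0 ≤ e) (hs : 0 < s) (hc : 0 ≤ c) (hκ : 0 ≤ κ)
    (hsp : s ≤ c * p ^ 2) (h : e * p ^ 6 ≤ κ * s ^ 4) : e ≤ κ * c ^ 3 * s := by
  have h1 : s ^ 3 ≤ (c * p ^ 2) ^ 3 := pow_le_pow_left₀ hs.le hsp 3
  have h2 : e * s ^ 3 ≤ κ * c ^ 3 * s * s ^ 3 := by
    calc e * s ^ 3 ≤ e * (c * p ^ 2) ^ 3 := mul_le_mul_of_nonneg_left h1 he
      _ = c ^ 3 * (e * p ^ 6) := by ring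
      _ ≤ c ^ 3 * (κ * s ^ 4) := mul_le_mul_of_nonneg_left h (by positivity)
      _ = κ * c ^ 3 * s * s ^ 3 := by ring
  exact le_of_mul_le_mul_right h2 (by positivity)

lemma fin_b1 (a S : ℝ) (hS : 0 ≤ S) (hC : a ≤ 4 / 9)
    (hA : 0.99 * a + 0.912 * S ≤ 0.4687) (hB : 0.29 * a + 0.912 * S ≤ 0.2048)
    (hD : 1 - S ≤ 3 * a) :
    0.0212 ≤ 2 * (1 / 2 - 4 / 3 * S) * (1 / 2 - 7 / 9 * S - a) - 3 * (1 / 2 - 7 / 9 * S - a) ^ 2 := by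
  nlinarith [mul_nonneg (sub_nonneg.2 hA) (sub_nonneg.2 hD),
    mul_nonneg (sub_nonneg.2 hB) (sub_nonneg.2 hD), mul_nonneg (sub_nonneg.2 hC) (sub_nonneg.2 hD),
    mul_nonneg (sub_nonneg.2 hA) (sub_nonneg.2 hS), mul_nonneg (sub_nonneg.2 hB) (sub_nonneg.2 hS),
    mul_nonneg (sub_nonneg.2 hC) (sub_nonneg.2 hS), sq_nonneg (4 / 9 - a),
    mul_nonneg (sub_nonneg.2 hA) (sub_nonneg.2 hB), mul_nonneg (sub_nonneg.2 hA) (sub_nonneg.2 hC),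
    mul_nonneg (sub_nonneg.2 hB) (sub_nonneg.2 hC)]

lemma fin_b2 (a S : ℝ) (hS : 0.006 ≤ S) (hC : a ≤ 4 / 9)
    (hA : 0.99 * a + 0.705 * S ≤ 0.42779) (hB : 0.29 * a + 0.705 * S ≤ 0.16389)
    (hD : 1 - S ≤ 3 * a) :
    0.0276 ≤ 2 * (1 / 2 - 4 / 3 * S) * (1 / 2 - 7 / 9 * S - a) - 3 * (1 / 2 - 7 / 9 * S - a) ^ 2 := by
  nlinarith [mul_nonneg (sub_nonneg.2 hA) (sub_nonneg.2 hD),
    mul_nonneg (sub_nonneg.2 hB) (sub_nonneg.2 hD), mul_nonneg (sub_nonneg.2 hC) (sub_nonneg.2 hD),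
    mul_nonneg (sub_nonneg.2 hA) (sub_nonneg.2 hS), mul_nonneg (sub_nonneg.2 hB) (sub_nonneg.2 hS),
    mul_nonneg (sub_nonneg.2 hC) (sub_nonneg.2 hS), sq_nonneg (4 / 9 - a),
    mul_nonneg (sub_nonneg.2 hA) (sub_nonneg.2 hB), mul_nonneg (sub_nonneg.2 hA) (sub_nonneg.2 hC),
    mul_nonneg (sub_nonneg.2 hB) (sub_nonneg.2 hC)]

lemma fin_b3 (a S : ℝ) (hS : 0.021 ≤ S) (hC : a ≤ 4 / 9)
    (hA : 0.99 * a + 0.78 * S ≤ 0.40499) (hB : 0.29 * a + 0.78 * S ≤ 0.14109)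
    (hD : 1 - S ≤ 3 * a) :
    0.05 ≤ 2 * (1 / 2 - 4 / 3 * S) * (1 / 2 - 7 / 9 * S - a) - 3 * (1 / 2 - 7 / 9 * S - a) ^ 2 := by
  nlinarith [mul_nonneg (sub_nonneg.2 hA) (sub_nonneg.2 hD),
    mul_nonneg (sub_nonneg.2 hB) (sub_nonneg.2 hD), mul_nonneg (sub_nonneg.2 hC) (sub_nonneg.2 hD),
    mul_nonneg (sub_nonneg.2 hA) (sub_nonneg.2 hS), mul_nonneg (sub_nonneg.2 hB) (sub_nonneg.2 hS),
    mul_nonneg (sub_nonneg.2 hC) (sub_nonneg.2 hS), sq_nonneg (4 / 9 - a),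
    mul_nonneg (sub_nonneg.2 hA) (sub_nonneg.2 hB), mul_nonneg (sub_nonneg.2 hA) (sub_nonneg.2 hC),
    mul_nonneg (sub_nonneg.2 hB) (sub_nonneg.2 hC)]

lemma fin_b4 (a S : ℝ) (hS : 0.04 ≤ S) (hC : a ≤ 4 / 9)
    (hA : 0.99 * a + 0.655 * S ≤ 0.3895) (hB : 0.29 * a + 0.655 * S ≤ 0.1256)
    (hD : 1 - S ≤ 3 * a) :
    1.159 * S ≤ 2 * (1 / 2 - 4 / 3 * S) * (1 / 2 - 7 / 9 * S - a) - 3 * (1 / 2 - 7 / 9 * S - a) ^ 2 := by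
  nlinarith [mul_nonneg (sub_nonneg.2 hA) (sub_nonneg.2 hD),
    mul_nonneg (sub_nonneg.2 hB) (sub_nonneg.2 hD), mul_nonneg (sub_nonneg.2 hC) (sub_nonneg.2 hD),
    mul_nonneg (sub_nonneg.2 hA) (sub_nonneg.2 hS), mul_nonneg (sub_nonneg.2 hB) (sub_nonneg.2 hS),
    mul_nonneg (sub_nonneg.2 hC) (sub_nonneg.2 hS), sq_nonneg (4 / 9 - a),
    mul_nonneg (sub_nonneg.2 hA) (sub_nonneg.2 hB), mul_nonneg (sub_nonneg.2 hA) (sub_nonneg.2 hC),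
    mul_nonneg (sub_nonneg.2 hB) (sub_nonneg.2 hC)]

lemma fin_c2 (a S : ℝ) (hS : 0.009 ≤ S) (hC : a ≤ 4 / 9)
    (hA : 0.99 * a + 0.705 * S ≤ 0.407335) (hB : 0.29 * a + 0.705 * S ≤ 0.143435)
    (hD : 1 - S ≤ 3 * a) :
    0.0456 ≤ 2 * (1 / 2 - 4 / 3 * S) * (1 / 2 - 7 / 9 * S - a) - 3 * (1 / 2 - 7 / 9 * S - a) ^ 2 := by
  nlinarith [mul_nonneg (sub_nonneg.2 hA) (sub_nonneg.2 hD),
    mul_nonneg (sub_nonneg.2 hB) (sub_nonneg.2 hD), mul_nonneg (sub_nonneg.2 hC) (sub_nonneg.2 hD),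
    mul_nonneg (sub_nonneg.2 hA) (sub_nonneg.2 hS), mul_nonneg (sub_nonneg.2 hB) (sub_nonneg.2 hS),
    mul_nonneg (sub_nonneg.2 hC) (sub_nonneg.2 hS), sq_nonneg (4 / 9 - a),
    mul_nonneg (sub_nonneg.2 hA) (sub_nonneg.2 hB), mul_nonneg (sub_nonneg.2 hA) (sub_nonneg.2 hC),
    mul_nonneg (sub_nonneg.2 hB) (sub_nonneg.2 hC)]

lemma fin_c3 (a S : ℝ) (hS : 0.0195 ≤ S) (hC : a ≤ 4 / 9)
    (hA : 0.99 * a + 0.87 * S ≤ 0.38911) (hB : 0.29 * a + 0.87 * S ≤ 0.12521)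
    (hD : 1 - S ≤ 3 * a) :
    0.06 ≤ 2 * (1 / 2 - 4 / 3 * S) * (1 / 2 - 7 / 9 * S - a) - 3 * (1 / 2 - 7 / 9 * S - a) ^ 2 := by
  nlinarith [mul_nonneg (sub_nonneg.2 hA) (sub_nonneg.2 hD),
    mul_nonneg (sub_nonneg.2 hB) (sub_nonneg.2 hD), mul_nonneg (sub_nonneg.2 hC) (sub_nonneg.2 hD),
    mul_nonneg (sub_nonneg.2 hA) (sub_nonneg.2 hS), mul_nonneg (sub_nonneg.2 hB) (sub_nonneg.2 hS),
    mul_nonneg (sub_nonneg.2 hC) (sub_nonneg.2 hS), sq_nonneg (4 / 9 - a),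
    mul_nonneg (sub_nonneg.2 hA) (sub_nonneg.2 hB), mul_nonneg (sub_nonneg.2 hA) (sub_nonneg.2 hC),
    mul_nonneg (sub_nonneg.2 hB) (sub_nonneg.2 hC)]

lemma fin_c4 (a S : ℝ) (hS : 0.0225 ≤ S) (hC : a ≤ 4 / 9)
    (hA : 0.99 * a + 0.87 * S ≤ 0.38911) (hB : 0.29 * a + 0.87 * S ≤ 0.12521)
    (hD : 1 - S ≤ 3 * a) :
    1.5745 * S ≤ 2 * (1 / 2 - 4 / 3 * S) * (1 / 2 - 7 / 9 * S - a) - 3 * (1 / 2 - 7 / 9 * S - a) ^ 2 := by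
  nlinarith [mul_nonneg (sub_nonneg.2 hA) (sub_nonneg.2 hD),
    mul_nonneg (sub_nonneg.2 hB) (sub_nonneg.2 hD), mul_nonneg (sub_nonneg.2 hC) (sub_nonneg.2 hD),
    mul_nonneg (sub_nonneg.2 hA) (sub_nonneg.2 hS), mul_nonneg (sub_nonneg.2 hB) (sub_nonneg.2 hS),
    mul_nonneg (sub_nonneg.2 hC) (sub_nonneg.2 hS), sq_nonneg (4 / 9 - a),
    mul_nonneg (sub_nonneg.2 hA) (sub_nonneg.2 hB), mul_nonneg (sub_nonneg.2 hA) (sub_nonneg.2 hC),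
    mul_nonneg (sub_nonneg.2 hB) (sub_nonneg.2 hC)]
/-- `k = 4` -/
lemma fin_k4a (a S : ℝ) (hS : 0 ≤ S) (hS2 : S ≤ 0.0265) (hC : a ≤ 4 / 9)
    (hA : 0.7 * (a - 0.377) + 0.041 + 1.9 * S ≤ 0.112) (hD : 1 - S ≤ 3 * a) :
    0.0216 ≤
      2 * (1 / 2 - 4 / 3 * S) * (1 / 2 - 7 / 9 * S - a) - 3 * (1 / 2 - 7 / 9 * S - a) ^ 2 := by
  nlinarith [mul_nonneg (sub_nonneg.2 hA) (sub_nonneg.2 hD),
    mul_nonneg (sub_nonneg.2 hC) (sub_nonneg.2 hD),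
    mul_nonneg (sub_nonneg.2 hA) (sub_nonneg.2 hS),
    mul_nonneg (sub_nonneg.2 hC) (sub_nonneg.2 hS), sq_nonneg (4 / 9 - a),
    mul_nonneg (sub_nonneg.2 hA) (sub_nonneg.2 hC),
    mul_nonneg (sub_nonneg.2 hS) (sub_nonneg.2 hS2),
    mul_nonneg (sub_nonneg.2 hA) (sub_nonneg.2 hS2),
    mul_nonneg (sub_nonneg.2 hC) (sub_nonneg.2 hS2)]

/-- `k = 4` -/
lemma fin_k4b (a S : ℝ) (hS : 0 ≤ S) (hS2 : S ≤ 0.02) (hC : a ≤ 4 / 9)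
    (hA : 0.7 * (a - 0.377) + 0.041 + 1.9 * S ≤ 0.112) (hD : 1 - S ≤ 3 * a) :
    1.935 * S ≤
      2 * (1 / 2 - 4 / 3 * S) * (1 / 2 - 7 / 9 * S - a) - 3 * (1 / 2 - 7 / 9 * S - a) ^ 2 := by
  nlinarith [mul_nonneg (sub_nonneg.2 hA) (sub_nonneg.2 hD),
    mul_nonneg (sub_nonneg.2 hC) (sub_nonneg.2 hD),
    mul_nonneg (sub_nonneg.2 hA) (sub_nonneg.2 hS),
    mul_nonneg (sub_nonneg.2 hC) (sub_nonneg.2 hS), sq_nonneg (4 / 9 - a),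
    mul_nonneg (sub_nonneg.2 hA) (sub_nonneg.2 hC),
    mul_nonneg (sub_nonneg.2 hS) (sub_nonneg.2 hS2),
    mul_nonneg (sub_nonneg.2 hA) (sub_nonneg.2 hS2),
    mul_nonneg (sub_nonneg.2 hC) (sub_nonneg.2 hS2)]

/-- `k = 4` -/
lemma fin_k4c (a S : ℝ) (hS : 0.02 ≤ S) (hS2 : S ≤ 0.0265) (hC : a ≤ 4 / 9)
    (hA : 0.7 * (a - 0.377) + 0.041 + 1.9 * S ≤ 0.112) (hD : 1 - S ≤ 3 * a) :
    1.819 * S ≤
      2 * (1 / 2 - 4 / 3 * S) * (1 / 2 - 7 / 9 * S - a) - 3 * (1 / 2 - 7 / 9 * S - a) ^ 2 := by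
  nlinarith [mul_nonneg (sub_nonneg.2 hA) (sub_nonneg.2 hD),
    mul_nonneg (sub_nonneg.2 hC) (sub_nonneg.2 hD),
    mul_nonneg (sub_nonneg.2 hA) (sub_nonneg.2 hS),
    mul_nonneg (sub_nonneg.2 hC) (sub_nonneg.2 hS), sq_nonneg (4 / 9 - a),
    mul_nonneg (sub_nonneg.2 hA) (sub_nonneg.2 hC),
    mul_nonneg (sub_nonneg.2 hS) (sub_nonneg.2 hS2),
    mul_nonneg (sub_nonneg.2 hA) (sub_nonneg.2 hS2),
    mul_nonneg (sub_nonneg.2 hC) (sub_nonneg.2 hS2)]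

/-- Case I -/
lemma fin_I (y S d : ℝ) (hd : 0 ≤ d) (hd2 : d ≤ 0.0122) (hS : S ≤ 0.2 - 3.8 * d) (hS0 : 0 ≤ S)
    (hy : 0.0025 + 3.1 * d ≤ y) (hyY : 3 * y ≤ 1 / 2 - 4 / 3 * S) :
    1.1416 * d < 2 * (1 / 2 - 4 / 3 * S) * y - 3 * y ^ 2 := by
  have h1 : 0 ≤ (y - (0.0025 + 3.1 * d)) * (2 * (1 / 2 - 4 / 3 * S) - 3 * y
      - 3 * (0.0025 + 3.1 * d)) := by
    apply mul_nonneg <;> linarith
  have h2 : 2 * (1 / 2 - 4 / 3 * S) * (0.0025 + 3.1 * d) - 3 * (0.0025 + 3.1 * d) ^ 2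
      ≤ 2 * (1 / 2 - 4 / 3 * S) * y - 3 * y ^ 2 := by nlinarith
  have h3 : 0 ≤ (0.2 - 3.8 * d - S) * (0.0025 + 3.1 * d) := by
    apply mul_nonneg <;> linarith
  nlinarith

end Crest.Agent.PH
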