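/-
Row 215 (S0334): the combinatorial case analysis.
-/
import Crest.Agent.PH.F6

set_option autoImplicit false
set_option linter.unusedVariables false

namespace Crest.Agent.PH

open Finset

variable {ι : Type*} [Fintype ι] [DecidableEq ι]

/-- small cell inequality (cap 1/2) -/
def HalfHyp (s p : ι → ℝ) (κ : ℝ) : Prop :=
  ∀ i₁ i₂ i₃ l : ι, i₁ ≠ i₂ → i₁ ≠ i₃ → i₂ ≠ i₃ → i₁ ≠ l → i₂ ≠ l → i₃ ≠ l →
    ∀ SR y₁ y₂ y₃ : ℝ, SR = 1 - s i₁ - s i₂ - s i₃ → y₁ = 1 / 2 - 7 / 9 * SR - s i₁ →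
      y₂ = 1 / 2 - 7 / 9 * SR - s i₂ → y₃ = 1 / 2 - 7 / 9 * SR - s i₃ → 0 < y₁ → 0 < y₂ →
      0 < y₃ → s i₁ + SR + 2 / 3 * s l ≤ 1 / 2 → s i₂ + SR + 2 / 3 * s l ≤ 1 / 2 →
      s i₃ + SR + 2 / 3 * s l ≤ 1 / 2 → (y₁ * y₂ + y₁ * y₃ + y₂ * y₃) * p l ^ 6 ≤ κ * s l ^ 4

/-- small cell inequality (cap 1) -/
def OneHyp (s p : ι → ℝ) (κ : ℝ) : Prop :=
  ∀ i₁ i₂ i₃ l : ι, i₁ ≠ i₂ → i₁ ≠ i₃ → i₂ ≠ i₃ → i₁ ≠ l → i₂ ≠ l → i₃ ≠ l →
    ∀ SR y₁ y₂ y₃ : ℝ, SR = 1 - s i₁ - s i₂ - s i₃ → y₁ = 1 / 2 - 7 / 9 * SR - s i₁ →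
      y₂ = 1 / 2 - 7 / 9 * SR - s i₂ → y₃ = 1 / 2 - 7 / 9 * SR - s i₃ → 0 < y₁ → 0 < y₂ →
      0 < y₃ → (y₁ * y₂ + y₁ * y₃ + y₂ * y₃) * p l ^ 6 ≤ 4 * κ * s l ^ 4

lemma exists_top_three (s : ι → ℝ) (hk : 4 ≤ Fintype.card ι) :
    ∃ i₁ i₂ i₃ : ι, i₁ ≠ i₂ ∧ i₁ ≠ i₃ ∧ i₂ ≠ i₃ ∧ s i₂ ≤ s i₁ ∧ s i₃ ≤ s i₂ ∧
      ∀ j, j ≠ i₁ → j ≠ i₂ → j ≠ i₃ → s j ≤ s i₃ := by
  have hc : (univ : Finset ι).card = Fintype.card ι := card_univ
  obtain ⟨i₁, -, h1⟩ := exists_max_image (univ : Finset ι) s (card_pos.1 (by omega))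
  have hc1 : ((univ : Finset ι).erase i₁).card = Fintype.card ι - 1 := by
    rw [card_erase_of_mem (mem_univ _), hc]
  obtain ⟨i₂, m2, h2⟩ := exists_max_image ((univ : Finset ι).erase i₁) s (card_pos.1 (by omega))
  have hc2 : (((univ : Finset ι).erase i₁).erase i₂).card = Fintype.card ι - 2 := by
    rw [card_erase_of_mem m2, hc1]; omega
  obtain ⟨i₃, m3, h3⟩ := exists_max_image (((univ : Finset ι).erase i₁).erase i₂) s
    (card_pos.1 (by omega))
  have e2 : i₂ ≠ i₁ := (mem_erase.1 m2).1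
  have e3 := mem_erase.1 m3
  have e31 := mem_erase.1 e3.2
  refine ⟨i₁, i₂, i₃, e2.symm, e31.1.symm, e3.1.symm, h1 _ (mem_univ _),
    h2 _ e3.2, ?_⟩
  intro j j1 j2 j3
  exact h3 j (mem_erase.2 ⟨j2, mem_erase.2 ⟨j1, mem_univ _⟩⟩)

lemma sum_split (f : ι → ℝ) {i₁ i₂ i₃ : ι} (h12 : i₁ ≠ i₂) (h13 : i₁ ≠ i₃) (h23 : i₂ ≠ i₃) :
    ∑ j, f j = f i₁ + f i₂ + f i₃ + ∑ j ∈ ((univ.erase i₁).erase i₂).erase i₃, f j := by
  have m2 : i₂ ∈ (univ : Finset ι).erase i₁ := mem_erase.2 ⟨h12.symm, mem_univ _⟩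
  have m3 : i₃ ∈ ((univ : Finset ι).erase i₁).erase i₂ :=
    mem_erase.2 ⟨h23.symm, mem_erase.2 ⟨h13.symm, mem_univ _⟩⟩
  rw [← add_sum_erase univ f (mem_univ i₁), ← add_sum_erase _ f m2, ← add_sum_erase _ f m3]
  ring

lemma card_rest {i₁ i₂ i₃ : ι} (h12 : i₁ ≠ i₂) (h13 : i₁ ≠ i₃) (h23 : i₂ ≠ i₃) :
    (((univ.erase i₁).erase i₂).erase i₃).card = Fintype.card ι - 3 := by
  have m2 : i₂ ∈ (univ : Finset ι).erase i₁ := mem_erase.2 ⟨h12.symm, mem_univ _⟩
  have m3 : i₃ ∈ ((univ : Finset ι).erase i₁).erase i₂ :=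
    mem_erase.2 ⟨h23.symm, mem_erase.2 ⟨h13.symm, mem_univ _⟩⟩
  rw [card_erase_of_mem m3, card_erase_of_mem m2, card_erase_of_mem (mem_univ _), card_univ]
  omega

lemma sum_ge_affine (R : Finset ι) (D s : ι → ℝ) (c σ n : ℝ) (hn : n ≤ R.card) (hc : 0 ≤ c)
    (h : ∀ j ∈ R, c + σ * s j ≤ D j) : n * c + σ * ∑ j ∈ R, s j ≤ ∑ j ∈ R, D j := by
  have h1 := sum_le_sum h
  rw [sum_add_distrib, sum_const, nsmul_eq_mul, ← mul_sum] at h1
  nlinarith

/-- generic contradiction in Case II, once the final inequality is known -/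
lemma caseII_final {s p : ι → ℝ} {κ : ℝ} (hκ : 0 ≤ κ) (hh : HalfHyp s p κ)
    {i₁ i₂ i₃ l : ι} (h12 : i₁ ≠ i₂) (h13 : i₁ ≠ i₃) (h23 : i₂ ≠ i₃) (h1l : i₁ ≠ l)
    (h2l : i₂ ≠ l) (h3l : i₃ ≠ l) (hab : s i₂ ≤ s i₁) (hbc : s i₃ ≤ s i₂) (hl : 0 < s l)
    (S : ℝ) (hS : S = 1 - s i₁ - s i₂ - s i₃) (hfoot : s i₁ + S + 2 / 3 * s l ≤ 1 / 2)
    (hy : 0 < 1 / 2 - 7 / 9 * S - s i₁)
    (c : ℝ) (hc0 : 0 ≤ c) (hc : s l ≤ c * p l ^ 2)
    (hfin : κ * c ^ 3 * s l < 2 * (1 / 2 - 4 / 3 * S) * (1 / 2 - 7 / 9 * S - s i₁)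
      - 3 * (1 / 2 - 7 / 9 * S - s i₁) ^ 2) : False := by
  have h := hh i₁ i₂ i₃ l h12 h13 h23 h1l h2l h3l S _ _ _ hS rfl rfl rfl hy (by linarith)
    (by linarith) hfoot (by linarith) (by linarith)
  have he := e2_lower (y1 := 1 / 2 - 7 / 9 * S - s i₁) (y2 := 1 / 2 - 7 / 9 * S - s i₂)
    (y3 := 1 / 2 - 7 / 9 * S - s i₃) (Y := 1 / 2 - 4 / 3 * S) (by rw [hS]; ring)
    (by linarith) (by linarith)
  have h0 : 0 ≤ (1 / 2 - 7 / 9 * S - s i₁) * (1 / 2 - 7 / 9 * S - s i₂)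
      + (1 / 2 - 7 / 9 * S - s i₁) * (1 / 2 - 7 / 9 * S - s i₃)
      + (1 / 2 - 7 / 9 * S - s i₂) * (1 / 2 - 7 / 9 * S - s i₃) := by
    have e1 : 0 < 1 / 2 - 7 / 9 * S - s i₂ := by linarith
    have e2 : 0 < 1 / 2 - 7 / 9 * S - s i₃ := by linarith
    positivity
  have := small_alg h0 hl hc0 hκ hc h
  linarith

/-- Case II, `k ≥ 5` : exactly three big cells -/
lemma caseII {s p : ι → ℝ} {κ : ℝ} (hκ : 0 ≤ κ) (hh : HalfHyp s p κ)
    (hs0 : ∀ j, 0 < s j) (hS : ∑ j, s j = 1) (hP : ∑ j, p j = 1) (hI : ∀ j, Ints (s j) (p j))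
    (hC : ∀ j, s j ≤ 4 / 9) (hc0 : ∀ j, s j ≤ 5.586 * p j ^ 2)
    (hk : 5 ≤ Fintype.card ι) (hκ5 : Fintype.card ι = 5 → κ ≤ 0.020957)
    (hκ6 : κ ≤ 0.040148)
    {i₁ i₂ i₃ : ι} (h12 : i₁ ≠ i₂) (h13 : i₁ ≠ i₃) (h23 : i₂ ≠ i₃)
    (hab : s i₂ ≤ s i₁) (hbc : s i₃ ≤ s i₂)
    (htop : ∀ j, j ≠ i₁ → j ≠ i₂ → j ≠ i₃ → s j ≤ s i₃)
    (hsmall : ∀ j, j ≠ i₁ → j ≠ i₂ → j ≠ i₃ → s j ≤ 0.1) : False := by
  set R : Finset ι := ((univ.erase i₁).erase i₂).erase i₃ with hR
  have hmem : ∀ j ∈ R, j ≠ i₁ ∧ j ≠ i₂ ∧ j ≠ i₃ := by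
    intro j hj
    rw [hR] at hj
    simp only [mem_erase, mem_univ, and_true] at hj
    exact ⟨hj.2.2, hj.2.1, hj.1⟩
  have hcard : R.card = Fintype.card ι - 3 := card_rest h12 h13 h23
  have hne : R.Nonempty := card_pos.1 (by omega)
  obtain ⟨l, hlR, hlmin⟩ := exists_min_image R s hne
  obtain ⟨hl1, hl2, hl3⟩ := hmem l hlR
  set D : ι → ℝ := fun j => p j - 0.888 * s j with hD
  have hDs : ∑ j, D j = 0.112 := by
    simp only [hD, sum_sub_distrib, ← mul_sum, hS, hP]; norm_num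
  rw [sum_split s h12 h13 h23, ← hR] at hS
  rw [sum_split D h12 h13 h23, ← hR] at hDs
  set S := ∑ j ∈ R, s j with hSdef
  set DR := ∑ j ∈ R, D j with hDRdef
  have hD0 : ∀ j, 0 ≤ D j := fun j => by
    have := line_L2 (hI j) (hs0 j).le; simp only [hD]; linarith
  have hRsm : ∀ j ∈ R, s j ≤ 0.1 := fun j hj =>
    hsmall j (hmem j hj).1 (hmem j hj).2.1 (hmem j hj).2.2
  have hDR1 : 0.622 * S ≤ DR := by
    have := sum_ge_affine R D s 0 0.622 0 (by positivity) le_rfl (fun j hj => by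
      have := line_SM (hI j) (hs0 j).le (hRsm j hj); simp only [hD]; linarith)
    linarith
  have hTa := line_T2 (hI i₁) (hs0 i₁).le
  have hTb := line_T2 (hI i₂) (hs0 i₂).le
  have hS0 : 0 < S := by
    rw [hSdef]; exact sum_pos (fun j _ => hs0 j) hne
  have ha49 := hC i₁
  -- third cell is > 0.1
  have hc1 : 0.1 < s i₃ := by
    by_contra hcon
    push Not at hcon
    have h1 := line_SM (hI i₃) (hs0 i₃).le hcon
    have h2 := hD0 i₁
    have h3 := hD0 i₂
    simp only [hD] at hDs h2 h3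
    linarith
  have hc15 : 0.15 < s i₃ := by
    by_contra hcon
    push Not at hcon
    have h1 := line_BG (hI i₃) (hs0 i₃).le hc1.le hcon
    have h2 := hD0 i₁
    have h3 := hD0 i₂
    simp only [hD] at hDs h2 h3
    linarith
  have hT1b := line_T1 (hI i₂) (hs0 i₂).le (by linarith)
  have hT1c := line_T1 (hI i₃) (hs0 i₃).le hc15.le
  have hD01 := hD0 i₁
  simp only [hD] at hDs hD01
  have hbud : 0.29 * (s i₁ + S - 0.32) + DR ≤ 0.112 := by linarith
  have hbud2 : 0.7 * (s i₁ - 0.377) + 0.29 * (s i₁ + S - 0.32) + DR ≤ 0.112 := by linarith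
  have hthird : 1 - S ≤ 3 * s i₁ := by linarith
  have hSeq : S = 1 - s i₁ - s i₂ - s i₃ := by linarith
  have hncard : (R.card : ℝ) * s l ≤ S := by
    have := card_nsmul_le_sum R s (s l) (fun j hj => hlmin j hj)
    rwa [nsmul_eq_mul] at this
  have hδ := hs0 l
  have hlsm := hRsm l hlR
  have hRge : ∀ j ∈ R, s l ≤ s j := fun j hj => hlmin j hj
  have hn2 : (2 : ℝ) ≤ R.card := by
    have : 2 ≤ R.card := by omega
    exact_mod_cast this
  have hS2 : 2 * s l ≤ S := (mul_le_mul_of_nonneg_right hn2 hδ.le).trans hncard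
  rcases le_or_gt (s l) 0.003 with hb1 | hb1
  · -- bin 1
    have hf := fin_b1 (s i₁) S hS0.le ha49 (by linarith) (by linarith) hthird
    refine caseII_final hκ hh h12 h13 h23 hl1.symm hl2.symm hl3.symm hab hbc hδ S hSeq
      (by linarith) (by linarith) 5.586 (by norm_num) (hc0 l) ?_
    refine lt_of_lt_of_le ?_ hf
    have h1 : κ * 5.586 ^ 3 ≤ 0.040148 * 5.586 ^ 3 := by
      apply mul_le_mul_of_nonneg_right hκ6; norm_num
    have h2 : κ * 5.586 ^ 3 * s l ≤ 0.040148 * 5.586 ^ 3 * 0.003 :=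
      mul_le_mul h1 hb1 hδ.le (by norm_num)
    refine lt_of_le_of_lt h2 ?_
    norm_num
  -- a lower bound for the other cells if one cell is > 0.06
  have hbig : ∀ dm n : ℝ, 0 ≤ dm → n + 1 ≤ R.card → (∀ j ∈ R, dm ≤ D j) → ∀ j ∈ R, 0.06 < s j →
      0.0613 + n * dm ≤ DR := by
    intro dm n hdm hn hall j hj hj6
    have h1 : D j + ∑ i ∈ R.erase j, D i = DR := add_sum_erase R D hj
    have h2 := line_M (hI j) (hs0 j).le hj6.le (hRsm j hj)
    have h3 := card_nsmul_le_sum (R.erase j) D dm (fun i hi => hall i (mem_of_mem_erase hi))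
    rw [card_erase_of_mem hj, nsmul_eq_mul] at h3
    have h4 : ((R.card - 1 : ℕ) : ℝ) = R.card - 1 := by
      rw [Nat.cast_sub (by omega)]; norm_num
    rw [h4] at h3
    have h5 : n * dm ≤ ((R.card : ℝ) - 1) * dm := mul_le_mul_of_nonneg_right (by linarith) hdm
    have h6 : D j = p j - 0.888 * s j := rfl
    linarith
  have hbigS : ∀ j ∈ R, 0.06 < s j → 0.06 + (R.card - 1) * s l ≤ S := by
    intro j hj hj6
    have h1 : s j + ∑ i ∈ R.erase j, s i = S := add_sum_erase R s hj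
    have h3 := card_nsmul_le_sum (R.erase j) s (s l)
      (fun i hi => hRge i (mem_of_mem_erase hi))
    rw [card_erase_of_mem hj, nsmul_eq_mul] at h3
    have h4 : ((R.card - 1 : ℕ) : ℝ) = R.card - 1 := by
      rw [Nat.cast_sub (by omega)]; norm_num
    rw [h4] at h3
    linarith
  rcases Nat.lt_or_ge (Fintype.card ι) 6 with hk6 | hk6
  · -- k = 5
    have hk5 : Fintype.card ι = 5 := by omega
    have hκ5' := hκ5 hk5
    have hR2 : (R.card : ℝ) = 2 := by
      have : R.card = 2 := by omega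
      rw [this]; norm_num
    rw [hR2] at hncard hbig hbigS
    rcases le_or_gt (s l) 0.0105 with hb2 | hb2
    · -- bin 2
      have hDR : 2 * 0.020455 + 0.415 * S ≤ DR := by
        apply sum_ge_affine R D s _ _ 2 hR2.ge (by norm_num)
        intro j hj
        have := line_T3 (hI j) (hs0 j).le (hb1.le.trans (hRge j hj)) (hRsm j hj)
        simp only [hD]; linarith
      have hf := fin_b2 (s i₁) S (by linarith) ha49 (by linarith) (by linarith) hthird
      rcases le_or_gt (s l) 0.0075 with hb | hb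
      · refine caseII_final hκ hh h12 h13 h23 hl1.symm hl2.symm hl3.symm hab hbc hδ S hSeq
          (by linarith) (by linarith) 5.586 (by norm_num) (hc0 l) ?_
        refine lt_of_lt_of_le ?_ hf
        have h1 : κ * 5.586 ^ 3 ≤ 0.020957 * 5.586 ^ 3 := by
          apply mul_le_mul_of_nonneg_right hκ5'; norm_num
        have h2 : κ * 5.586 ^ 3 * s l ≤ 0.020957 * 5.586 ^ 3 * 0.0075 :=
          mul_le_mul h1 hb hδ.le (by norm_num)
        refine lt_of_le_of_lt h2 ?_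
        norm_num
      · refine caseII_final hκ hh h12 h13 h23 hl1.symm hl2.symm hl3.symm hab hbc hδ S hSeq
          (by linarith) (by linarith) 4.9 (by norm_num) (line_c49 (hI l) hb.le) ?_
        refine lt_of_lt_of_le ?_ hf
        have h1 : κ * 4.9 ^ 3 ≤ 0.020957 * 4.9 ^ 3 := by
          apply mul_le_mul_of_nonneg_right hκ5'; norm_num
        have h2 : κ * 4.9 ^ 3 * s l ≤ 0.020957 * 4.9 ^ 3 * 0.0105 :=
          mul_le_mul h1 hb2 hδ.le (by norm_num)
        refine lt_of_le_of_lt h2 ?_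
        norm_num
    rcases le_or_gt (s l) 0.02 with hb3 | hb3
    · -- bin 3
      have h06 : ∀ j ∈ R, s j ≤ 0.06 := by
        intro j hj
        by_contra hcon
        push Not at hcon
        have h1 := hbig 0.0370 1 (by norm_num) (by norm_num) (fun i hi => by
          rcases le_or_gt (s i) 0.06 with h | h
          · have := line_T105 (hI i) (hs0 i).le (hb2.le.trans (hRge i hi)) h
            have := hRge i hi
            simp only [hD]; linarith
          · have := line_M (hI i) (hs0 i).le h.le (hRsm i hi)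
            simp only [hD]; linarith) j hj hcon
        have h2 := hbigS j hj hcon
        linarith
      have hDR : 2 * 0.031855 + 0.49 * S ≤ DR := by
        apply sum_ge_affine R D s _ _ 2 hR2.ge (by norm_num)
        intro j hj
        have := line_T105 (hI j) (hs0 j).le (hb2.le.trans (hRge j hj)) (h06 j hj)
        simp only [hD]; linarith
      have hf := fin_b3 (s i₁) S (by linarith) ha49 (by linarith) (by linarith) hthird
      refine caseII_final hκ hh h12 h13 h23 hl1.symm hl2.symm hl3.symm hab hbc hδ S hSeq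
          (by linarith) (by linarith) 4.9 (by norm_num) (line_c49 (hI l) (by linarith)) ?_
      refine lt_of_lt_of_le ?_ hf
      have h1 : κ * 4.9 ^ 3 ≤ 0.020957 * 4.9 ^ 3 := by
        apply mul_le_mul_of_nonneg_right hκ5'; norm_num
      have h2 : κ * 4.9 ^ 3 * s l ≤ 0.020957 * 4.9 ^ 3 * 0.02 :=
        mul_le_mul h1 hb3 hδ.le (by norm_num)
      refine lt_of_le_of_lt h2 ?_
      norm_num
    · -- bin 4
      have h06 : ∀ j ∈ R, s j ≤ 0.06 := by
        intro j hj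
        by_contra hcon
        push Not at hcon
        have h1 := hbig 0.0469 1 (by norm_num) (by norm_num) (fun i hi => by
          rcases le_or_gt (s i) 0.06 with h | h
          · have := line_T20 (hI i) (hs0 i).le (hb3.le.trans (hRge i hi)) h
            have := hRge i hi
            simp only [hD]; linarith
          · have := line_M (hI i) (hs0 i).le h.le (hRsm i hi)
            simp only [hD]; linarith) j hj hcon
        have h2 := hbigS j hj hcon
        linarith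
      have hDR : 2 * 0.0396 + 0.365 * S ≤ DR := by
        apply sum_ge_affine R D s _ _ 2 hR2.ge (by norm_num)
        intro j hj
        have := line_T20 (hI j) (hs0 j).le (hb3.le.trans (hRge j hj)) (h06 j hj)
        simp only [hD]; linarith
      have hf := fin_b4 (s i₁) S (by linarith) ha49 (by linarith) (by linarith) hthird
      refine caseII_final hκ hh h12 h13 h23 hl1.symm hl2.symm hl3.symm hab hbc hδ S hSeq
          (by linarith) (by linarith) 4.8 (by norm_num) (line_c48 (hI l) (by linarith)) ?_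
      refine lt_of_lt_of_le ?_ hf
      have h1 : κ * 4.8 ^ 3 ≤ 0.020957 * 4.8 ^ 3 := by
        apply mul_le_mul_of_nonneg_right hκ5'; norm_num
      have h2 : κ * 4.8 ^ 3 * s l ≤ 0.020957 * 4.8 ^ 3 * s l :=
        mul_le_mul_of_nonneg_right h1 hδ.le
      have h3 : 0.020957 * 4.8 ^ 3 * s l < 1.159 * (2 * s l) := by
        norm_num
        linarith
      linarith
  · -- k ≥ 6
    have hn3 : (3 : ℝ) ≤ R.card := by
      have : 3 ≤ R.card := by omega
      exact_mod_cast this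
    have hS3 : 3 * s l ≤ S := (mul_le_mul_of_nonneg_right hn3 hδ.le).trans hncard
    rcases le_or_gt (s l) 0.0065 with hb2 | hb2
    · have hDR : 3 * 0.020455 + 0.415 * S ≤ DR := by
        apply sum_ge_affine R D s _ _ 3 hn3 (by norm_num)
        intro j hj
        have := line_T3 (hI j) (hs0 j).le (hb1.le.trans (hRge j hj)) (hRsm j hj)
        simp only [hD]; linarith
      have hf := fin_c2 (s i₁) S (by linarith) ha49 (by linarith) (by linarith) hthird
      refine caseII_final hκ hh h12 h13 h23 hl1.symm hl2.symm hl3.symm hab hbc hδ S hSeq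
        (by linarith) (by linarith) 5.586 (by norm_num) (hc0 l) ?_
      refine lt_of_lt_of_le ?_ hf
      have h1 : κ * 5.586 ^ 3 ≤ 0.040148 * 5.586 ^ 3 := by
        apply mul_le_mul_of_nonneg_right hκ6; norm_num
      have h2 : κ * 5.586 ^ 3 * s l ≤ 0.040148 * 5.586 ^ 3 * 0.0065 :=
        mul_le_mul h1 hb2 hδ.le (by norm_num)
      refine lt_of_le_of_lt h2 ?_
      norm_num
    have h06 : ∀ j ∈ R, s j ≤ 0.06 := by
      intro j hj
      by_contra hcon
      push Not at hcon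
      have h1 := hbig 0.0303 2 (by norm_num) (by linarith) (fun i hi => by
        rcases le_or_gt (s i) 0.06 with h | h
        · have := line_T65 (hI i) (hs0 i).le (hb2.le.trans (hRge i hi)) h
          have := hRge i hi
          simp only [hD]; linarith
        · have := line_M (hI i) (hs0 i).le h.le (hRsm i hi)
          simp only [hD]; linarith) j hj hcon
      linarith
    have hDR : 3 * 0.02653 + 0.58 * S ≤ DR := by
      apply sum_ge_affine R D s _ _ 3 hn3 (by norm_num)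
      intro j hj
      have := line_T65 (hI j) (hs0 j).le (hb2.le.trans (hRge j hj)) (h06 j hj)
      simp only [hD]; linarith
    rcases le_or_gt (s l) 0.0075 with hb | hb
    · have hf := fin_c3 (s i₁) S (by linarith) ha49 (by linarith) (by linarith) hthird
      refine caseII_final hκ hh h12 h13 h23 hl1.symm hl2.symm hl3.symm hab hbc hδ S hSeq
        (by linarith) (by linarith) 5.586 (by norm_num) (hc0 l) ?_
      refine lt_of_lt_of_le ?_ hf
      have h1 : κ * 5.586 ^ 3 ≤ 0.040148 * 5.586 ^ 3 := by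
        apply mul_le_mul_of_nonneg_right hκ6; norm_num
      have h2 : κ * 5.586 ^ 3 * s l ≤ 0.040148 * 5.586 ^ 3 * 0.0075 :=
        mul_le_mul h1 hb hδ.le (by norm_num)
      refine lt_of_le_of_lt h2 ?_
      norm_num
    · have hf := fin_c4 (s i₁) S (by linarith) ha49 (by linarith) (by linarith) hthird
      refine caseII_final hκ hh h12 h13 h23 hl1.symm hl2.symm hl3.symm hab hbc hδ S hSeq
        (by linarith) (by linarith) 4.9 (by norm_num) (line_c49 (hI l) hb.le) ?_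
      refine lt_of_lt_of_le ?_ hf
      have h1 : κ * 4.9 ^ 3 ≤ 0.040148 * 4.9 ^ 3 := by
        apply mul_le_mul_of_nonneg_right hκ6; norm_num
      have h2 : κ * 4.9 ^ 3 * s l ≤ 0.040148 * 4.9 ^ 3 * s l :=
        mul_le_mul_of_nonneg_right h1 hδ.le
      have h3 : 0.040148 * 4.9 ^ 3 * s l < 1.5745 * (3 * s l) := by
        norm_num
        linarith
      linarith

end Crest.Agent.PH
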