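/-
Row 215 (S0334): the combinatorial case analysis, continued.
-/
import Crest.Agent.PH.F7

set_option autoImplicit false
set_option linter.unusedVariables false
set_option linter.unusedSectionVars false

namespace Crest.Agent.PH

open Finset

variable {ι : Type*} [Fintype ι] [DecidableEq ι]

lemma line_G1 {s p : ℝ} (h : Ints s p) (h0 : 0 ≤ s) (ha : 0.1 ≤ s) :
    0.888 * s + 0.25 * (0.34 - s) ≤ p := by
  rcases le_total s 0.2 with h1 | h1
  · have := line_A h h0 ha h1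
    linarith
  · rcases le_total s 0.34 with h2 | h2
    · have := line_B h h0 h1
      linarith
    · have := line_L2 h h0
      linarith

/-- Case I, real-variable part: exactly four big cells. -/
lemma caseI_real {a b c e S' d Da Db Dc De : ℝ} (hsum : a + b + c + e + S' = 1)
    (hD : Da + Db + Dc + De + d = 0.112) (hab : b ≤ a) (hbc : c ≤ b) (hce : e ≤ c)
    (he : 0.1 ≤ e) (hS' : 0 ≤ S') (hd : 0 ≤ d) (hd1 : 0.622 * S' ≤ d)
    (a0 : 0 ≤ Da) (b0 : 0 ≤ Db) (c0 : 0 ≤ Dc) (e0 : 0 ≤ De)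
    (aT : 0.7 * (a - 0.377) ≤ Da) (bT : 0.7 * (b - 0.377) ≤ Db)
    (aA : a ≤ 0.2 → 0.0434 + 0.185 * (0.2 - a) ≤ Da) (bA : b ≤ 0.2 → 0.0434 + 0.185 * (0.2 - b) ≤ Db)
    (cA : c ≤ 0.2 → 0.0434 + 0.185 * (0.2 - c) ≤ Dc) (eA : e ≤ 0.2 → 0.0434 + 0.185 * (0.2 - e) ≤ De)
    (aB : 0.2 ≤ a → 0.0003 + 0.3088 * (0.34 - a) ≤ Da) (bB : 0.2 ≤ b → 0.0003 + 0.3088 * (0.34 - b) ≤ Db)
    (cB : 0.2 ≤ c → 0.0003 + 0.3088 * (0.34 - c) ≤ Dc) (eB : 0.2 ≤ e → 0.0003 + 0.3088 * (0.34 - e) ≤ De) :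
    d < 0.0122 ∧ (12.8 * S' ≤ d → e + S' ≤ 0.2 - 3.8 * d ∧
      0.0025 + 3.1 * d ≤ 1 / 2 - 7 / 9 * (e + S') - a) := by
  rcases le_total 0.2 e with h4 | h4
  · exfalso
    have h1 := eB h4
    have h2 := cB (by linarith)
    have h3 := bB (by linarith)
    have h5 := aB (by linarith)
    linarith
  have E := eA h4
  rcases le_total 0.2 c with h3 | h3
  · have C := cB h3
    have B := bB (by linarith)
    have A := aB (by linarith)
    clear aA bA cA eA aB bB cB eB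
    refine ⟨by linarith, fun h => ⟨by linarith, by linarith⟩⟩
  have C := cA h3
  rcases le_total 0.2 b with h2 | h2
  · have B := bB h2
    have A := aB (by linarith)
    clear aA bA cA eA aB bB cB eB
    refine ⟨by linarith, fun h => ⟨by linarith, by linarith⟩⟩
  exfalso
  have B := bA h2
  rcases le_total 0.2 a with h1 | h1
  · linarith
  · linarith

/-- Case I, `k ≥ 5` : four big cells -/
lemma caseI {s p : ι → ℝ} {κ : ℝ} (hκ : 0 ≤ κ) (hh : OneHyp s p κ)
    (hs0 : ∀ j, 0 < s j) (hS : ∑ j, s j = 1) (hP : ∑ j, p j = 1) (hI : ∀ j, Ints (s j) (p j))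
    (hC : ∀ j, s j ≤ 4 / 9) (hc0 : ∀ j, s j ≤ 5.586 * p j ^ 2)
    (hk : 5 ≤ Fintype.card ι) (hκ5 : Fintype.card ι = 5 → κ ≤ 0.020957)
    (hκ6 : κ ≤ 0.040148)
    {i₁ i₂ i₃ : ι} (h12 : i₁ ≠ i₂) (h13 : i₁ ≠ i₃) (h23 : i₂ ≠ i₃)
    (hab : s i₂ ≤ s i₁) (hbc : s i₃ ≤ s i₂)
    (htop : ∀ j, j ≠ i₁ → j ≠ i₂ → j ≠ i₃ → s j ≤ s i₃)
    (hbig : ∃ j, j ≠ i₁ ∧ j ≠ i₂ ∧ j ≠ i₃ ∧ 0.1 < s j) : False := by
  set R : Finset ι := ((univ.erase i₁).erase i₂).erase i₃ with hR
  have hmem : ∀ j, j ∈ R ↔ j ≠ i₁ ∧ j ≠ i₂ ∧ j ≠ i₃ := by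
    intro j
    rw [hR]
    simp only [mem_erase, mem_univ, and_true]
    tauto
  have hcard : R.card = Fintype.card ι - 3 := card_rest h12 h13 h23
  have hne : R.Nonempty := card_pos.1 (by omega)
  obtain ⟨i₄, h4R, h4max⟩ := exists_max_image R s hne
  obtain ⟨h41, h42, h43⟩ := (hmem i₄).1 h4R
  have he1 : 0.1 < s i₄ := by
    obtain ⟨j, hj1, hj2, hj3, hj⟩ := hbig
    exact hj.trans_le (h4max j ((hmem j).2 ⟨hj1, hj2, hj3⟩))
  set R' := R.erase i₄ with hR'
  have hcard' : R'.card = Fintype.card ι - 4 := by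
    rw [hR', card_erase_of_mem h4R, hcard]; omega
  have hne' : R'.Nonempty := card_pos.1 (by omega)
  obtain ⟨l, hlR', hlmin⟩ := exists_min_image R' s hne'
  have hlR : l ∈ R := mem_of_mem_erase hlR'
  obtain ⟨hl1, hl2, hl3⟩ := (hmem l).1 hlR
  set D : ι → ℝ := fun j => p j - 0.888 * s j with hD
  have hDs : ∑ j, D j = 0.112 := by
    simp only [hD, sum_sub_distrib, ← mul_sum, hS, hP]; norm_num
  rw [sum_split s h12 h13 h23, ← hR, ← add_sum_erase R s h4R, ← hR'] at hS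
  rw [sum_split D h12 h13 h23, ← hR, ← add_sum_erase R D h4R, ← hR'] at hDs
  set S' := ∑ j ∈ R', s j with hSdef
  set d := ∑ j ∈ R', D j with hddef
  have hD0 : ∀ j, 0 ≤ D j := fun j => by
    have := line_L2 (hI j) (hs0 j).le; simp only [hD]; linarith
  have hce : s i₄ ≤ s i₃ := htop i₄ h41 h42 h43
  have hS0 : 0 < S' := by
    rw [hSdef]; exact sum_pos (fun j _ => hs0 j) hne'
  -- all remaining cells are small
  have hRsm : ∀ j ∈ R', s j ≤ 0.1 := by
    intro j hj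
    by_contra hcon
    push Not at hcon
    have g1 := line_G1 (hI i₁) (hs0 i₁).le (by linarith)
    have g2 := line_G1 (hI i₂) (hs0 i₂).le (by linarith)
    have g3 := line_G1 (hI i₃) (hs0 i₃).le (by linarith)
    have g4 := line_G1 (hI i₄) (hs0 i₄).le (by linarith)
    have g5 := line_G1 (hI j) (hs0 j).le hcon.le
    have h1 : D j ≤ d := single_le_sum (fun i _ => hD0 i) hj
    have h2 : s j ≤ S' := single_le_sum (fun i _ => (hs0 i).le) hj
    simp only [hD] at hDs h1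
    linarith
  have hd1 : 0.622 * S' ≤ d := by
    have := sum_ge_affine R' D s 0 0.622 0 (by positivity) le_rfl (fun j hj => by
      have := line_SM (hI j) (hs0 j).le (hRsm j hj); simp only [hD]; linarith)
    linarith
  have hreal := caseI_real (a := s i₁) (b := s i₂) (c := s i₃) (e := s i₄) (S' := S') (d := d)
    (Da := D i₁) (Db := D i₂) (Dc := D i₃) (De := D i₄) (by linarith) (by linarith) hab hbc hce
    he1.le hS0.le (by linarith) hd1 (hD0 _) (hD0 _) (hD0 _) (hD0 _)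
    (by have := line_T2 (hI i₁) (hs0 i₁).le; simp only [hD]; linarith)
    (by have := line_T2 (hI i₂) (hs0 i₂).le; simp only [hD]; linarith)
    (fun h => by have := line_A (hI i₁) (hs0 i₁).le (by linarith) h; simp only [hD]; linarith)
    (fun h => by have := line_A (hI i₂) (hs0 i₂).le (by linarith) h; simp only [hD]; linarith)
    (fun h => by have := line_A (hI i₃) (hs0 i₃).le (by linarith) h; simp only [hD]; linarith)
    (fun h => by have := line_A (hI i₄) (hs0 i₄).le (by linarith) h; simp only [hD]; linarith)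
    (fun h => by have := line_B (hI i₁) (hs0 i₁).le h; simp only [hD]; linarith)
    (fun h => by have := line_B (hI i₂) (hs0 i₂).le h; simp only [hD]; linarith)
    (fun h => by have := line_B (hI i₃) (hs0 i₃).le h; simp only [hD]; linarith)
    (fun h => by have := line_B (hI i₄) (hs0 i₄).le h; simp only [hD]; linarith)
  obtain ⟨hdlt, hreal2⟩ := hreal
  have htiny : ∀ j ∈ R', 12.8 * s j ≤ D j := by
    intro j hj
    rcases le_or_gt (s j) 0.00095 with h | h
    · have := line_ty2 (hI j) (hs0 j).le h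
      simp only [hD]; linarith
    · exfalso
      have h1 := line_ty1 (hI j) (hs0 j).le h.le (hRsm j hj)
      have h2 : D j ≤ d := single_le_sum (fun i _ => hD0 i) hj
      simp only [hD] at h2
      linarith
  have h128 : 12.8 * S' ≤ d := by
    rw [hSdef, hddef, mul_sum]
    exact sum_le_sum htiny
  obtain ⟨hi, hii⟩ := hreal2 h128
  have hδ := hs0 l
  have hncard : (R'.card : ℝ) * s l ≤ S' := by
    have := card_nsmul_le_sum R' s (s l) (fun j hj => hlmin j hj)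
    rwa [nsmul_eq_mul] at this
  set S := s i₄ + S' with hSS
  have hSeq : S = 1 - s i₁ - s i₂ - s i₃ := by rw [hSS]; linarith
  have hd0 : 0 < d := by linarith
  have hy : 0 < 1 / 2 - 7 / 9 * S - s i₁ := by linarith
  have h := hh i₁ i₂ i₃ l h12 h13 h23 hl1.symm hl2.symm hl3.symm S _ _ _ hSeq rfl rfl rfl hy
    (by linarith) (by linarith)
  have he := e2_lower (y1 := 1 / 2 - 7 / 9 * S - s i₁) (y2 := 1 / 2 - 7 / 9 * S - s i₂)
    (y3 := 1 / 2 - 7 / 9 * S - s i₃) (Y := 1 / 2 - 4 / 3 * S) (by linarith)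
    (by linarith) (by linarith)
  have h0 : 0 ≤ (1 / 2 - 7 / 9 * S - s i₁) * (1 / 2 - 7 / 9 * S - s i₂)
      + (1 / 2 - 7 / 9 * S - s i₁) * (1 / 2 - 7 / 9 * S - s i₃)
      + (1 / 2 - 7 / 9 * S - s i₂) * (1 / 2 - 7 / 9 * S - s i₃) := by
    have e1 : 0 < 1 / 2 - 7 / 9 * S - s i₂ := by linarith
    have e2 : 0 < 1 / 2 - 7 / 9 * S - s i₃ := by linarith
    positivity
  have h4 := small_alg h0 hδ (by norm_num) (by positivity) (hc0 l) h
  have hfin := fin_I (1 / 2 - 7 / 9 * S - s i₁) S d hd0.le hdlt.le hi (by linarith) hii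
    (by linarith)
  rcases Nat.lt_or_ge (Fintype.card ι) 6 with hk6 | hk6
  · have hκ5' := hκ5 (by omega)
    have hR1 : (R'.card : ℝ) = 1 := by
      have : R'.card = 1 := by omega
      rw [this]; norm_num
    rw [hR1] at hncard
    have h5 : 4 * κ * 5.586 ^ 3 ≤ 4 * 0.020957 * 5.586 ^ 3 := by
      apply mul_le_mul_of_nonneg_right _ (by norm_num)
      linarith
    have h6 : 4 * κ * 5.586 ^ 3 * s l ≤ 4 * 0.020957 * 5.586 ^ 3 * s l :=
      mul_le_mul_of_nonneg_right h5 hδ.le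
    have h7 : 4 * 0.020957 * 5.586 ^ 3 * s l ≤ 1.1416 * (12.8 * s l) := by
      norm_num
      linarith
    linarith
  · have hn2 : (2 : ℝ) ≤ R'.card := by
      have : 2 ≤ R'.card := by omega
      exact_mod_cast this
    have hS2 : 2 * s l ≤ S' := (mul_le_mul_of_nonneg_right hn2 hδ.le).trans hncard
    have h5 : 4 * κ * 5.586 ^ 3 ≤ 4 * 0.040148 * 5.586 ^ 3 := by
      apply mul_le_mul_of_nonneg_right _ (by norm_num)
      linarith
    have h6 : 4 * κ * 5.586 ^ 3 * s l ≤ 4 * 0.040148 * 5.586 ^ 3 * s l :=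
      mul_le_mul_of_nonneg_right h5 hδ.le
    have h7 : 4 * 0.040148 * 5.586 ^ 3 * s l ≤ 1.1416 * (12.8 * (2 * s l)) := by
      norm_num
      linarith
    linarith

/-- `k = 4` -/
lemma case4 {s p : ι → ℝ} {κ : ℝ} (hκ : 0 ≤ κ) (hh : HalfHyp s p κ)
    (hs0 : ∀ j, 0 < s j) (hS : ∑ j, s j = 1) (hP : ∑ j, p j = 1) (hI : ∀ j, Ints (s j) (p j))
    (hC : ∀ j, s j ≤ 4 / 9) (hc0 : ∀ j, s j ≤ 5.586 * p j ^ 2)
    (hk : Fintype.card ι = 4) (hκ4 : κ ≤ 0.016445)
    (hcone : ∀ j, Real.sqrt (s j) ≤ 8 / 3 * (p j * (1 - p j)))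
    {i₁ i₂ i₃ : ι} (h12 : i₁ ≠ i₂) (h13 : i₁ ≠ i₃) (h23 : i₂ ≠ i₃)
    (hab : s i₂ ≤ s i₁) (hbc : s i₃ ≤ s i₂)
    (htop : ∀ j, j ≠ i₁ → j ≠ i₂ → j ≠ i₃ → s j ≤ s i₃) : False := by
  set R : Finset ι := ((univ.erase i₁).erase i₂).erase i₃ with hR
  have hmem : ∀ j ∈ R, j ≠ i₁ ∧ j ≠ i₂ ∧ j ≠ i₃ := by
    intro j hj
    rw [hR] at hj
    simp only [mem_erase, mem_univ, and_true] at hj
    exact ⟨hj.2.2, hj.2.1, hj.1⟩
  have hcard : R.card = 1 := by rw [card_rest h12 h13 h23, hk]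
  obtain ⟨l, hl⟩ := card_eq_one.1 hcard
  obtain ⟨hl1, hl2, hl3⟩ := hmem l (by rw [hl]; exact mem_singleton_self l)
  rw [sum_split s h12 h13 h23, ← hR, hl, sum_singleton] at hS
  rw [sum_split p h12 h13 h23, ← hR, hl, sum_singleton] at hP
  have hcl := htop l hl1 hl2 hl3
  have hδ := hs0 l
  have hTa := line_T2 (hI i₁) (hs0 i₁).le
  have hTb := line_T2 (hI i₂) (hs0 i₂).le
  have ha0 := line_L2 (hI i₁) (hs0 i₁).le
  have hb0 := line_L2 (hI i₂) (hs0 i₂).le
  have hC2 : ∀ j, 0.1 ≤ s j → 0.688 * s j + 0.0782 ≤ p j := by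
    intro j hj
    rcases le_total (s j) 0.258 with h | h
    · exact line_C2i (hI j) (hs0 j).le hj h
    · exact cone_C2 (hC j) h (hcone j)
  rcases le_or_gt (s l) 0.1 with hl01 | hl01
  · have hc1 : 0.1 < s i₃ := by
      by_contra hcon
      push Not at hcon
      have h1 := line_SM (hI i₃) (hs0 i₃).le hcon
      have h2 := line_SM (hI l) (hs0 l).le hl01
      linarith
    have ca := cone_C1 (hC i₁) (by linarith) (hcone i₁)
    have cb := cone_C1 (hC i₂) (by linarith) (hcone i₂)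
    have cc := cone_C1 (hC i₃) (by linarith) (hcone i₃)
    have hl2' : s l ≤ 0.0265 := by
      by_contra hcon
      push Not at hcon
      have := line_C3b (hI l) hδ.le hcon.le hl01
      linarith
    have hl3' := line_C3a (hI l) hδ.le hl2'
    have hA : 0.7 * (s i₁ - 0.377) + 0.041 + 1.9 * s l ≤ 0.112 := by linarith
    have hthird : 1 - s l ≤ 3 * s i₁ := by linarith
    have hSeq : s l = 1 - s i₁ - s i₂ - s i₃ := by linarith
    have ha49 := hC i₁
    rcases le_or_gt (s l) 0.0075 with hb | hb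
    · have hf := fin_k4a (s i₁) (s l) hδ.le (by linarith) ha49 hA hthird
      refine caseII_final hκ hh h12 h13 h23 hl1.symm hl2.symm hl3.symm hab hbc hδ (s l) hSeq
        (by linarith) (by linarith) 5.586 (by norm_num) (hc0 l) ?_
      refine lt_of_lt_of_le ?_ hf
      have h1 : κ * 5.586 ^ 3 ≤ 0.016445 * 5.586 ^ 3 := by
        apply mul_le_mul_of_nonneg_right hκ4; norm_num
      have h2 : κ * 5.586 ^ 3 * s l ≤ 0.016445 * 5.586 ^ 3 * 0.0075 :=
        mul_le_mul h1 hb hδ.le (by norm_num)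
      refine lt_of_le_of_lt h2 ?_
      norm_num
    rcases le_or_gt (s l) 0.02 with hb' | hb'
    · have hf := fin_k4b (s i₁) (s l) hδ.le hb' ha49 hA hthird
      refine caseII_final hκ hh h12 h13 h23 hl1.symm hl2.symm hl3.symm hab hbc hδ (s l) hSeq
        (by linarith) (by linarith) 4.9 (by norm_num) (line_c49 (hI l) hb.le) ?_
      refine lt_of_lt_of_le ?_ hf
      have h1 : κ * 4.9 ^ 3 ≤ 0.016445 * 4.9 ^ 3 := by
        apply mul_le_mul_of_nonneg_right hκ4; norm_num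
      have h2 : κ * 4.9 ^ 3 * s l ≤ 0.016445 * 4.9 ^ 3 * s l :=
        mul_le_mul_of_nonneg_right h1 hδ.le
      have h3 : 0.016445 * 4.9 ^ 3 * s l < 1.935 * s l := by
        norm_num
        linarith
      linarith
    · have hf := fin_k4c (s i₁) (s l) hb'.le hl2' ha49 hA hthird
      refine caseII_final hκ hh h12 h13 h23 hl1.symm hl2.symm hl3.symm hab hbc hδ (s l) hSeq
        (by linarith) (by linarith) 4.8 (by norm_num) (line_c48 (hI l) hb'.le) ?_
      refine lt_of_lt_of_le ?_ hf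
      have h1 : κ * 4.8 ^ 3 ≤ 0.016445 * 4.8 ^ 3 := by
        apply mul_le_mul_of_nonneg_right hκ4; norm_num
      have h2 : κ * 4.8 ^ 3 * s l ≤ 0.016445 * 4.8 ^ 3 * s l :=
        mul_le_mul_of_nonneg_right h1 hδ.le
      have h3 : 0.016445 * 4.8 ^ 3 * s l < 1.819 * s l := by
        norm_num
        linarith
      linarith
  · have c1 := hC2 i₁ (by linarith)
    have c2 := hC2 i₂ (by linarith)
    have c3 := hC2 i₃ (by linarith)
    have c4 := hC2 l (by linarith)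
    linarith

/-- The numerical heart: no critical configuration exists. -/
theorem no_config {s p : ι → ℝ} {κ : ℝ} (hκ : 0 ≤ κ) (hh : HalfHyp s p κ) (ho : OneHyp s p κ)
    (hs0 : ∀ j, 0 < s j) (hS : ∑ j, s j = 1) (hP : ∑ j, p j = 1)
    (hcd : ∀ j, CellData (s j) (p j)) (hk : 4 ≤ Fintype.card ι)
    (hκ4 : Fintype.card ι = 4 → κ ≤ 0.016445) (hκ5 : Fintype.card ι = 5 → κ ≤ 0.020957)
    (hκ6 : κ ≤ 0.040148)
    (hcone : Fintype.card ι = 4 → ∀ j, Real.sqrt (s j) ≤ 8 / 3 * (p j * (1 - p j))) : False := by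
  have hI : ∀ j, Ints (s j) (p j) := fun j => ints_of_cellData (hcd j)
  have hC : ∀ j, s j ≤ 4 / 9 := fun j => cellData_s_le (hcd j)
  have hc0 : ∀ j, s j ≤ 5.586 * p j ^ 2 := fun j => cellData_s_le_sq (hcd j)
  obtain ⟨i₁, i₂, i₃, h12, h13, h23, hab, hbc, htop⟩ := exists_top_three s hk
  rcases Nat.lt_or_ge (Fintype.card ι) 5 with h5 | h5
  · have h4 : Fintype.card ι = 4 := by omega
    exact case4 hκ hh hs0 hS hP hI hC hc0 h4 (hκ4 h4) (hcone h4) h12 h13 h23 hab hbc htop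
  · by_cases hbig : ∃ j, j ≠ i₁ ∧ j ≠ i₂ ∧ j ≠ i₃ ∧ 0.1 < s j
    · exact caseI hκ ho hs0 hS hP hI hC hc0 h5 hκ5 hκ6 h12 h13 h23 hab hbc htop hbig
    · push Not at hbig
      exact caseII hκ hh hs0 hS hP hI hC hc0 h5 hκ5 hκ6 h12 h13 h23 hab hbc htop
        (fun j h1 h2 h3 => hbig j h1 h2 h3)

end Crest.Agent.PH
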