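/-
Row 215 (S0334): real-variable algebra used in the assembly.
-/
import Crest.Agent.PH.F8

set_option autoImplicit false

namespace Crest.Agent.PH

/-- the constant `3 / (2 √(2π))` -/
noncomputable def mm : ℝ := 3 / (2 * Real.sqrt (2 * Real.pi))

lemma mm_pos : 0 < mm := by unfold mm; positivity

lemma mm_sq : mm ^ 2 = 9 / (8 * Real.pi) := by
  unfold mm
  rw [div_pow, mul_pow, Real.sq_sqrt (by positivity)]
  ring

/-- `s ≤ 2x - x²` from the deletion inequality. -/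
lemma s_le_of_del {h m κ s ψ : ℝ} (hm : 0 < m) (hmh : m < h) (hκ1 : 1 ≤ κ) (hκ2 : κ ≤ 4 / 3)
    (hs : 0 ≤ s) (hψ : 0 ≤ ψ) (hdel : h - m * Real.sqrt (1 - κ * s) ≤ κ * ψ / h)
    (hx : ψ / m ^ 2 ≤ 4 / 9) : s ≤ 2 * (ψ / m ^ 2) - (ψ / m ^ 2) ^ 2 := by
  set x := ψ / m ^ 2 with hxdef
  have hm2 : 0 < m ^ 2 := by positivity
  have hψx : ψ = m ^ 2 * x := by rw [hxdef]; field_simp
  have hx0 : 0 ≤ x := by rw [hxdef]; positivity
  set r := Real.sqrt (1 - κ * s) with hr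
  have hr0 : 0 ≤ r := Real.sqrt_nonneg _
  have hκs : 0 ≤ κ * s := by positivity
  have hr1 : r ≤ 1 := by
    rw [hr]; apply Real.sqrt_le_one.2 ; linarith
  have hh : 0 < h := hm.trans hmh
  rw [le_div_iff₀ hh] at hdel
  have h1 : m * (m * (1 - r)) ≤ (h - m * r) * h := by
    have e1 : m * (1 - r) ≤ h - m * r := by linarith
    have e2 : 0 ≤ m * (1 - r) := mul_nonneg hm.le (by linarith)
    nlinarith
  have h2 : 1 - r ≤ κ * x := by
    have : m ^ 2 * (1 - r) ≤ m ^ 2 * (κ * x) := by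
      calc m ^ 2 * (1 - r) = m * (m * (1 - r)) := by ring
        _ ≤ κ * ψ := h1.trans hdel
        _ = m ^ 2 * (κ * x) := by rw [hψx]; ring
    exact le_of_mul_le_mul_left this hm2
  have hκx : κ * x ≤ 16 / 27 := by nlinarith
  have hrpos : 0 < r := by linarith
  have hrs : r ^ 2 = 1 - κ * s := by
    rw [hr]; apply Real.sq_sqrt
    by_contra hc
    push Not at hc
    have : r = 0 := by rw [hr]; exact Real.sqrt_eq_zero_of_nonpos hc.le
    linarith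
  have h3 : (1 - κ * x) ^ 2 ≤ r ^ 2 := by
    apply pow_le_pow_left₀ <;> linarith
  rw [hrs] at h3
  have h4 : κ * s ≤ κ * (2 * x - κ * x ^ 2) := by nlinarith
  have h5 : s ≤ 2 * x - κ * x ^ 2 := le_of_mul_le_mul_left h4 (by linarith)
  nlinarith [sq_nonneg x]

lemma sqrt_one_sub_le {u : ℝ} (hu : u ≤ 1) : Real.sqrt (1 - u) ≤ 1 - u / 2 := by
  rw [Real.sqrt_le_left (by linarith)]
  nlinarith [sq_nonneg u]

/-- optimisation over `r` -/
lemma cap_alg {p B T Δ : ℝ} (hp : 0 < p) (hT : 0 < T) (hΔ : 0 < Δ) (hB : 0 ≤ B)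
    (h : ∀ r : ℝ, 0 ≤ r → r * p - 1 / (T * Δ) * r ^ 3 ≤ B) :
    Δ ^ 2 * p ^ 6 ≤ (27 / (4 * T)) ^ 2 * B ^ 4 := by
  set r := Real.sqrt (T * Δ * p / 3) with hr
  have hr0 : 0 ≤ r := Real.sqrt_nonneg _
  have hr2 : r ^ 2 = T * Δ * p / 3 := Real.sq_sqrt (by positivity)
  have h1 := h r hr0
  have h2 : r * p - 1 / (T * Δ) * r ^ 3 = 2 / 3 * r * p := by
    have : r ^ 3 = r * r ^ 2 := by ring
    rw [this, hr2]
    field_simp
    ring
  rw [h2] at h1
  have h3 : (2 / 3 * r * p) ^ 2 ≤ B ^ 2 := pow_le_pow_left₀ (by positivity) h1 2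
  have h4 : (2 / 3 * r * p) ^ 2 = 4 * T / 27 * (Δ * p ^ 3) := by
    have : (2 / 3 * r * p) ^ 2 = 4 / 9 * r ^ 2 * p ^ 2 := by ring
    rw [this, hr2]; ring
  rw [h4] at h3
  have h5 : Δ * p ^ 3 ≤ 27 / (4 * T) * B ^ 2 := by
    rw [div_mul_eq_mul_div, le_div_iff₀ (by positivity)]
    linarith
  have h6 : (Δ * p ^ 3) ^ 2 ≤ (27 / (4 * T) * B ^ 2) ^ 2 := pow_le_pow_left₀ (by positivity) h5 2
  calc Δ ^ 2 * p ^ 6 = (Δ * p ^ 3) ^ 2 := by ring
    _ ≤ (27 / (4 * T) * B ^ 2) ^ 2 := h6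
    _ = (27 / (4 * T)) ^ 2 * B ^ 4 := by ring

/-- the constant in the small cell inequality -/
noncomputable def kap (k : ℝ) : ℝ :=
  (729 / (256 * Real.pi ^ 2)) ^ 2 * (4 / 3 - k / (k - 1) / 2) ^ 4

lemma pi_fourth : (97.4087 : ℝ) ≤ Real.pi ^ 4 := by
  have h := Real.pi_gt_d6
  have : (3.141592 : ℝ) ^ 4 ≤ Real.pi ^ 4 := pow_le_pow_left₀ (by norm_num) h.le 4
  refine le_trans ?_ this
  norm_num

lemma const_le : (729 / (256 * Real.pi ^ 2)) ^ 2 ≤ 0.0832487 := by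
  rw [div_pow, mul_pow, ← pow_mul, div_le_iff₀ (by positivity)]
  have := pi_fourth
  norm_num at this ⊢
  nlinarith

lemma kap_nonneg (k : ℝ) : 0 ≤ kap k := by
  unfold kap
  apply mul_nonneg (sq_nonneg _)
  exact Even.pow_nonneg (by decide) _

lemma kap_four : kap 4 ≤ 0.016445 := by
  unfold kap
  have := const_le
  norm_num
  norm_num at this
  nlinarith

lemma kap_five : kap 5 ≤ 0.020957 := by
  unfold kap
  have := const_le
  norm_num
  norm_num at this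
  nlinarith

lemma kap_le {k : ℝ} (hk : 4 ≤ k) : kap k ≤ 0.040148 := by
  unfold kap
  have h1 := const_le
  have h2 : (1 : ℝ) ≤ k / (k - 1) := by
    rw [le_div_iff₀ (by linarith)]; linarith
  have h3 : k / (k - 1) ≤ 4 / 3 := by
    rw [div_le_iff₀ (by linarith)]; linarith
  have h4 : (4 / 3 - k / (k - 1) / 2) ^ 4 ≤ (5 / 6) ^ 4 := by
    apply pow_le_pow_left₀ <;> linarith
  calc (729 / (256 * Real.pi ^ 2)) ^ 2 * (4 / 3 - k / (k - 1) / 2) ^ 4
      ≤ 0.0832487 * (5 / 6) ^ 4 := by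
        apply mul_le_mul h1 h4 _ (by norm_num)
        exact Even.pow_nonneg (by decide) _
    _ ≤ 0.040148 := by norm_num

/-- right-hand side of the small cell inequality -/
lemma small_rhs {h m κ s G : ℝ} (hm : 0 < m) (hmh : m < h) (hκ1 : 1 ≤ κ) (hκ2 : κ ≤ 4 / 3)
    (hs0 : 0 ≤ s) (hs : s ≤ 3 / 4) (hG : h - m * Real.sqrt (1 - κ * s) ≤ h * (4 / 3 * s) - G) :
    G ≤ m * (4 / 3 - κ / 2) * s := by
  have h1 : Real.sqrt (1 - κ * s) ≤ 1 - κ * s / 2 := sqrt_one_sub_le (by nlinarith)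
  have h2 : m * Real.sqrt (1 - κ * s) ≤ m * (1 - κ * s / 2) := mul_le_mul_of_nonneg_left h1 hm.le
  have h3 : h * (4 / 3 * s - 1) ≤ m * (4 / 3 * s - 1) := by nlinarith
  nlinarith

end Crest.Agent.PH
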