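/-
Row 215 (S0334): assembly.
-/
import Crest.Agent.PH.G1
import Crest.Agent.PH.C1
import Crest.Agent.PH.C2
import Crest.Agent.PH.E3
import Crest.Agent.PH.B
import Crest.Agent.PH.D
import Crest.Agent.PH.D2

set_option autoImplicit false
set_option linter.unusedVariables false
set_option linter.unusedSectionVars false

namespace Crest.Agent.PH

open MeasureTheory ProbabilityTheory Set
open scoped RealInnerProductSpace

variable {E : Type*} [NormedAddCommGroup E] [InnerProductSpace ℝ E] [FiniteDimensional ℝ E]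
  [MeasurableSpace E] [BorelSpace E]

lemma hmax_equiv {ι κ : Type*} (e : κ ≃ ι) (z : ι → E) : hmax (fun i => z (e i)) = hmax z := by
  unfold hmax
  congr 1
  ext x
  exact e.iSup_congr (fun i => rfl)

/-- the structure delivered by `exists_critical` -/
structure Crit {n : ℕ} (z : Fin n → E) : Prop where
  hm : mm < hmax z
  hS : ∑ i, ‖z i‖ ^ 2 = 1
  h0 : ∑ i, z i = 0
  hneg : ∀ i j, i ≠ j → ⟪z i, z j⟫ < 0
  hw : ∀ i, ∫ x in cell z i, x ∂(stdGaussian E) = hmax z • z i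
  hP : ∑ i, (stdGaussian E).real (cell z i) = 1
  hdel : ∀ j, hmax z - mm * Real.sqrt (1 - (n : ℝ) / ((n : ℝ) - 1) * ‖z j‖ ^ 2) ≤ delCost z j
  hy : ∀ j, ∃ y : E, (∀ i, i ≠ j → ⟪z j - z i, y⟫ = 1) ∧
        ⟪z j, y⟫ = ((n : ℝ) - 1) / (n : ℝ)

namespace Crit

variable {n : ℕ} {z : Fin n → E}

lemma hpos (h : Crit z) : 0 < hmax z := mm_pos.trans h.hm

lemma exists_ne' (hn : 4 ≤ n) (j : Fin n) : ∃ i : Fin n, i ≠ j := by
  have : Nontrivial (Fin n) := Fin.nontrivial_iff_two_le.2 (by omega)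
  exact exists_ne j

lemma z_ne (h : Crit z) (hn : 4 ≤ n) (j : Fin n) : z j ≠ 0 := by
  intro hz
  obtain ⟨i, hi⟩ := exists_ne' hn j
  have := h.hneg j i hi.symm
  rw [hz, inner_zero_left] at this
  exact lt_irrefl _ this

lemma s_pos (h : Crit z) (hn : 4 ≤ n) (j : Fin n) : 0 < ‖z j‖ ^ 2 := by
  have := norm_pos_iff.2 (h.z_ne hn j)
  positivity

lemma p_pos (h : Crit z) (hn : 4 ≤ n) (j : Fin n) : 0 < (stdGaussian E).real (cell z j) := by
  by_contra hc
  have h0 : (stdGaussian E).real (cell z j) = 0 := le_antisymm (not_lt.1 hc) measureReal_nonneg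
  have h1 : (stdGaussian E) (cell z j) = 0 := by
    rw [measureReal_def, ENNReal.toReal_eq_zero_iff] at h0
    rcases h0 with h | h
    · exact h
    · exact absurd h (measure_ne_top _ _)
  have h2 : ∫ x in cell z j, x ∂(stdGaussian E) = 0 := by
    rw [Measure.restrict_eq_zero.2 h1]; simp
  rw [h.hw j] at h2
  rcases smul_eq_zero.1 h2 with h3 | h3
  · exact h.hpos.ne' h3
  · exact h.z_ne hn j h3

lemma p_lt_one (h : Crit z) (hn : 4 ≤ n) (j : Fin n) : (stdGaussian E).real (cell z j) < 1 := by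
  obtain ⟨i, hi⟩ := exists_ne' hn j
  have h1 := h.hP
  have h2 : (stdGaussian E).real (cell z j) + (stdGaussian E).real (cell z i)
      ≤ ∑ i, (stdGaussian E).real (cell z i) := by
    have := Finset.sum_le_sum_of_subset_of_nonneg (s := {j, i}) (t := Finset.univ)
      (f := fun i => (stdGaussian E).real (cell z i)) (Finset.subset_univ _)
      (fun _ _ _ => measureReal_nonneg)
    rwa [Finset.sum_pair hi.symm] at this
  have := h.p_pos hn i
  linarith

lemma s_eq_psi : (8 * Real.pi / 9 : ℝ) = 1 / mm ^ 2 := by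
  rw [mm_sq]; field_simp

lemma cellData (h : Crit z) (hn : 4 ≤ n) (j : Fin n) :
    CellData (‖z j‖ ^ 2) ((stdGaussian E).real (cell z j)) := by
  have hnr : (4 : ℝ) ≤ n := by exact_mod_cast hn
  have hκ1 : (1 : ℝ) ≤ (n : ℝ) / ((n : ℝ) - 1) := by
    rw [le_div_iff₀ (by linarith)]; linarith
  have hκ2 : (n : ℝ) / ((n : ℝ) - 1) ≤ 4 / 3 := by
    rw [div_le_iff₀ (by linarith)]; linarith
  have hh := h.hpos
  have hzj := norm_pos_iff.2 (h.z_ne hn j)
  refine ⟨?_, ?_, by positivity⟩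
  · obtain ⟨a, ha⟩ := exists_gPhi_eq (h.p_pos hn j) (h.p_lt_one hn j)
    refine ⟨-a, by rw [neg_neg, ha], fun hq => ?_⟩
    obtain ⟨y, hy1, hy2⟩ := h.hy j
    have hinner : ⟪∫ x in cell z j, x ∂(stdGaussian E), y⟫
        = hmax z * (((n : ℝ) - 1) / (n : ℝ)) := by
      rw [h.hw j, real_inner_smul_left, hy2]
    have hf : 0 < ⟪∫ x in cell z j, x ∂(stdGaussian E), y⟫ := by
      rw [hinner]
      have : 0 < ((n : ℝ) - 1) / (n : ℝ) := div_pos (by linarith) (by linarith)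
      positivity
    have hd := delCost_le z j (exists_ne' hn j) y hy1 (-a) (by rw [neg_neg, ha]) hf
    rw [hinner] at hd
    have hψ0 : 0 ≤ gphi (-a) * gL (-a) := mul_nonneg (gphi_pos _).le (gL_nonneg _)
    have hdel := (h.hdel j).trans hd
    have e1 : gphi (-a) * gL (-a) / (hmax z * (((n : ℝ) - 1) / (n : ℝ)))
        = (n : ℝ) / ((n : ℝ) - 1) * (gphi (-a) * gL (-a)) / hmax z := by
      have : (n : ℝ) - 1 ≠ 0 := by linarith
      have : (n : ℝ) ≠ 0 := by linarith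
      field_simp
    rw [e1] at hdel
    have hx : gphi (-a) * gL (-a) / mm ^ 2 ≤ 4 / 9 := by
      have h1 : gL (-a) ≤ 1 / Real.sqrt (2 * Real.pi) := by
        rw [← gL_zero]; exact gL_antitone hq
      have h2 : gphi (-a) ≤ 1 / Real.sqrt (2 * Real.pi) := by
        unfold gphi
        apply div_le_div_of_nonneg_right _ (by positivity)
        rw [Real.exp_le_one_iff]
        have := sq_nonneg (-a)
        linarith
      have h3 : gphi (-a) * gL (-a) ≤ 1 / Real.sqrt (2 * Real.pi) * (1 / Real.sqrt (2 * Real.pi)) :=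
        mul_le_mul h2 h1 (gL_nonneg _) (by positivity)
      have h4 : 1 / Real.sqrt (2 * Real.pi) * (1 / Real.sqrt (2 * Real.pi)) = 1 / (2 * Real.pi) := by
        rw [div_mul_div_comm, Real.mul_self_sqrt (by positivity)]; norm_num
      rw [h4] at h3
      rw [div_le_iff₀ (by have := mm_pos; positivity), mm_sq]
      refine h3.trans (le_of_eq ?_)
      field_simp
      norm_num
    have := s_le_of_del mm_pos h.hm hκ1 hκ2 (by positivity) hψ0 hdel hx
    rw [s_eq_psi]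
    rw [one_div_mul_eq_div]
    exact this
  · intro q₀ hq₀
    have hb := bathtub (cell z j) (measurableSet_cell z j) ((‖z j‖)⁻¹ • z j)
      (by rw [norm_smul, norm_inv, norm_norm, inv_mul_cancel₀ hzj.ne']) q₀
    rw [h.hw j, real_inner_smul_left, real_inner_smul_right, real_inner_self_eq_norm_sq] at hb
    have e1 : hmax z * ((‖z j‖)⁻¹ * ‖z j‖ ^ 2) = hmax z * ‖z j‖ := by
      field_simp
    rw [e1] at hb
    have h1 : mm * ‖z j‖ ≤ q₀ * (stdGaussian E).real (cell z j) + gL q₀ :=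
      (mul_le_mul_of_nonneg_right h.hm.le hzj.le).trans hb
    have h2 : (mm * ‖z j‖) ^ 2 ≤ (q₀ * (stdGaussian E).real (cell z j) + gL q₀) ^ 2 :=
      pow_le_pow_left₀ (by have := mm_pos; positivity) h1 2
    rw [s_eq_psi, one_div_mul_eq_div, le_div_iff₀ (by have := mm_pos; positivity)]
    linarith

lemma halfHyp (h : Crit z) (hn : 4 ≤ n) :
    HalfHyp (fun j => ‖z j‖ ^ 2) (fun j => (stdGaussian E).real (cell z j)) (kap n) := by
  intro i₁ i₂ i₃ l h12 h13 h23 h1 h2 h3 SR y₁ y₂ y₃ hSR hy₁ hy₂ hy₃ p₁ p₂ p₃ f₁ f₂ f₃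
  simp only at *
  have hnr : (4 : ℝ) ≤ n := by exact_mod_cast hn
  have hκ1 : (1 : ℝ) ≤ (n : ℝ) / ((n : ℝ) - 1) := by
    rw [le_div_iff₀ (by linarith)]; linarith
  have hκ2 : (n : ℝ) / ((n : ℝ) - 1) ≤ 4 / 3 := by
    rw [div_le_iff₀ (by linarith)]; linarith
  obtain ⟨harea, hcen, hfoot⟩ := triangle_bounds z h.hS h.h0 h.hneg i₁ i₂ i₃ l h12 h13 h23 h1 h2 h3
    _ rfl SR y₁ y₂ y₃ hSR hy₁ hy₂ hy₃ p₁ p₂ p₃
  obtain ⟨t₁, t₂, t₃, ht₁, ht₂, ht₃, hts, hu0, hu1, hu2, hu3⟩ := hfoot (by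
    intro i hi
    rcases hi with rfl | rfl | rfl
    · exact f₁
    · exact f₂
    · exact f₃)
  have he2 : 0 < y₁ * y₂ + y₁ * y₃ + y₂ * y₃ := by positivity
  set Δ := Real.sqrt (y₁ * y₂ + y₁ * y₃ + y₂ * y₃) with hΔdef
  have hΔ : 0 < Δ := Real.sqrt_pos.2 he2
  have hΔ2 : Δ ^ 2 = y₁ * y₂ + y₁ * y₃ + y₂ * y₃ := Real.sq_sqrt he2.le
  have hs := h.s_pos hn l
  have hp := h.p_pos hn l
  have hSRnn : ‖z l‖ ^ 2 ≤ 3 / 4 := by
    have := h.s_pos hn i₁
    have hs2 := h.hS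
    have h4 : ‖z i₁‖ ^ 2 + ‖z i₂‖ ^ 2 + ‖z i₃‖ ^ 2 ≤ 1 := by
      have h5 := sum_split (fun j => ‖z j‖ ^ 2) h12 h13 h23
      rw [hs2] at h5
      have h6 : 0 ≤ ∑ j ∈ ((Finset.univ.erase i₁).erase i₂).erase i₃, ‖z j‖ ^ 2 :=
        Finset.sum_nonneg fun _ _ => by positivity
      linarith
    have h7 : 0 ≤ SR := by rw [hSR]; linarith
    linarith
  have hcap : ∀ r : ℝ, 0 ≤ r → r * (stdGaussian E).real (cell z l)
      - 1 / (8 * Real.pi / 3 * Δ) * r ^ 3
      ≤ mm * (4 / 3 - (n : ℝ) / ((n : ℝ) - 1) / 2) * ‖z l‖ ^ 2 := by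
    intro r hr
    have hd := delCost_le_cap_half z l i₁ i₂ i₃ h1 h2 h3 _ rfl Δ hΔ
      (by rw [hΔ2]; exact harea) t₁ t₂ t₃ ht₁ ht₂ ht₃ hts _ rfl hu0 hu1 hu2 hu3 r hr
    rw [h.hw l, real_inner_smul_left] at hd
    apply small_rhs mm_pos h.hm hκ1 hκ2 hs.le hSRnn
    have hc2 := mul_le_mul_of_nonneg_left hcen h.hpos.le
    have e : 3 / (8 * Real.pi * Δ) = 1 / (8 * Real.pi / 3 * Δ) := by field_simp
    rw [e] at hd
    have := h.hdel l
    linarith
  have hB : 0 ≤ mm * (4 / 3 - (n : ℝ) / ((n : ℝ) - 1) / 2) * ‖z l‖ ^ 2 := by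
    have := mm_pos
    apply mul_nonneg (mul_nonneg this.le (by linarith)) hs.le
  have := cap_alg hp (by positivity : (0:ℝ) < 8 * Real.pi / 3) hΔ hB hcap
  rw [hΔ2] at this
  refine this.trans (le_of_eq ?_)
  unfold kap
  have hm4 : mm ^ 4 = (9 / (8 * Real.pi)) ^ 2 := by rw [← mm_sq]; ring
  rw [mul_pow, mul_pow, hm4]
  field_simp
  ring

lemma oneHyp (h : Crit z) (hn : 4 ≤ n) :
    OneHyp (fun j => ‖z j‖ ^ 2) (fun j => (stdGaussian E).real (cell z j)) (kap n) := by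
  intro i₁ i₂ i₃ l h12 h13 h23 h1 h2 h3 SR y₁ y₂ y₃ hSR hy₁ hy₂ hy₃ p₁ p₂ p₃
  simp only at *
  have hnr : (4 : ℝ) ≤ n := by exact_mod_cast hn
  have hκ1 : (1 : ℝ) ≤ (n : ℝ) / ((n : ℝ) - 1) := by
    rw [le_div_iff₀ (by linarith)]; linarith
  have hκ2 : (n : ℝ) / ((n : ℝ) - 1) ≤ 4 / 3 := by
    rw [div_le_iff₀ (by linarith)]; linarith
  obtain ⟨harea, hcen, -⟩ := triangle_bounds z h.hS h.h0 h.hneg i₁ i₂ i₃ l h12 h13 h23 h1 h2 h3
    _ rfl SR y₁ y₂ y₃ hSR hy₁ hy₂ hy₃ p₁ p₂ p₃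
  have he2 : 0 < y₁ * y₂ + y₁ * y₃ + y₂ * y₃ := by positivity
  set Δ := Real.sqrt (y₁ * y₂ + y₁ * y₃ + y₂ * y₃) with hΔdef
  have hΔ : 0 < Δ := Real.sqrt_pos.2 he2
  have hΔ2 : Δ ^ 2 = y₁ * y₂ + y₁ * y₃ + y₂ * y₃ := Real.sq_sqrt he2.le
  have hs := h.s_pos hn l
  have hp := h.p_pos hn l
  have hSRnn : ‖z l‖ ^ 2 ≤ 3 / 4 := by
    have hs2 := h.hS
    have h5 := sum_split (fun j => ‖z j‖ ^ 2) h12 h13 h23
    rw [hs2] at h5
    have h6 : ‖z l‖ ^ 2 ≤ ∑ j ∈ ((Finset.univ.erase i₁).erase i₂).erase i₃, ‖z j‖ ^ 2 := by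
      apply Finset.single_le_sum (f := fun j => ‖z j‖ ^ 2) (fun _ _ => by positivity)
      simp only [Finset.mem_erase, Finset.mem_univ, and_true]
      exact ⟨h3.symm, h2.symm, h1.symm⟩
    linarith
  have hcap : ∀ r : ℝ, 0 ≤ r → r * (stdGaussian E).real (cell z l)
      - 1 / (4 * Real.pi / 3 * Δ) * r ^ 3
      ≤ mm * (4 / 3 - (n : ℝ) / ((n : ℝ) - 1) / 2) * ‖z l‖ ^ 2 := by
    intro r hr
    have hd := delCost_le_cap_one z l i₁ i₂ i₃ h1 h2 h3 _ rfl Δ hΔ
      (by rw [hΔ2]; exact harea) r hr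
    rw [h.hw l, real_inner_smul_left] at hd
    apply small_rhs mm_pos h.hm hκ1 hκ2 hs.le hSRnn
    have hc2 := mul_le_mul_of_nonneg_left hcen h.hpos.le
    have e : 3 / (4 * Real.pi * Δ) = 1 / (4 * Real.pi / 3 * Δ) := by field_simp
    rw [e] at hd
    have := h.hdel l
    linarith
  have hB : 0 ≤ mm * (4 / 3 - (n : ℝ) / ((n : ℝ) - 1) / 2) * ‖z l‖ ^ 2 := by
    have := mm_pos
    apply mul_nonneg (mul_nonneg this.le (by linarith)) hs.le
  have := cap_alg hp (by positivity : (0:ℝ) < 4 * Real.pi / 3) hΔ hB hcap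
  rw [hΔ2] at this
  refine this.trans (le_of_eq ?_)
  unfold kap
  have hm4 : mm ^ 4 = (9 / (8 * Real.pi)) ^ 2 := by rw [← mm_sq]; ring
  rw [mul_pow, mul_pow, hm4]
  field_simp
  ring

theorem false_of_crit (h : Crit z) (hn : 4 ≤ n) : False := by
  have hnr : (4 : ℝ) ≤ n := by exact_mod_cast hn
  have hcard : Fintype.card (Fin n) = n := Fintype.card_fin n
  refine no_config (ι := Fin n) (s := fun j => ‖z j‖ ^ 2)
    (p := fun j => (stdGaussian E).real (cell z j)) (κ := kap n)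
    (kap_nonneg _) (h.halfHyp hn) (h.oneHyp hn) (fun j => h.s_pos hn j) h.hS h.hP
    (fun j => h.cellData hn j) (by rw [hcard]; exact hn) ?_ ?_ (kap_le hnr) ?_
  · intro h4
    rw [hcard] at h4
    rw [h4]
    exact_mod_cast kap_four
  · intro h5
    rw [hcard] at h5
    rw [h5]
    exact_mod_cast kap_five
  · intro h4 j
    rw [hcard] at h4
    subst h4
    have hc := cell_four z h.h0 h.hneg (hmax z) h.hpos j (h.hw j)
    rw [Real.sqrt_sq (norm_nonneg _)]
    have h1 : mm * ‖z j‖ ≤ hmax z * ‖z j‖ := mul_le_mul_of_nonneg_right h.hm.le (norm_nonneg _)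
    have h2 := h1.trans hc
    have e : mm * (8 / 3 * ((stdGaussian E).real (cell z j) *
        (1 - (stdGaussian E).real (cell z j)))) = 4 / Real.sqrt (2 * Real.pi) *
      ((stdGaussian E).real (cell z j) * (1 - (stdGaussian E).real (cell z j))) := by
      unfold mm
      field_simp
      ring
    rw [← e] at h2
    exact le_of_mul_le_mul_left h2 mm_pos

end Crit

/-- small numbers of vectors -/
lemma hmax_le_small {ι : Type*} [Fintype ι] [Nonempty ι] (hc : Fintype.card ι ≤ 3) (z : ι → E) :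
    hmax z ≤ mm * Real.sqrt (∑ i, ‖z i‖ ^ 2) := by
  classical
  obtain ⟨f⟩ : Nonempty (ι ↪ Fin 3) :=
    Function.Embedding.nonempty_of_card_le (by rw [Fintype.card_fin]; exact hc)
  set z' : Fin 3 → E := Function.extend f z 0 with hz'
  have hz'i : ∀ i, z' (f i) = z i := fun i => f.injective.extend_apply z 0 i
  have hsum : ∑ i, ‖z i‖ ^ 2 = ∑ j, ‖z' j‖ ^ 2 := by
    apply Fintype.sum_of_injective f f.injective
    · intro j hj
      have : z' j = 0 := by
        rw [hz', Function.extend_apply' _ _ _ (by simpa using hj)]; rfl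
      rw [this]; simp
    · intro i; rw [hz'i]
  have hle : hmax z ≤ hmax z' := by
    unfold hmax
    apply integral_mono (integrable_sup_inner z) (integrable_sup_inner z')
    intro x
    apply ciSup_le
    intro i
    have := le_sup_inner z' x (f i)
    rw [hz'i] at this
    exact this
  rw [hsum]
  exact hle.trans (hmax_three z')

theorem hmax_le_fin : ∀ (n : ℕ) (z : Fin n → E), 0 < n →
    hmax z ≤ mm * Real.sqrt (∑ i, ‖z i‖ ^ 2) := by
  intro n
  induction n using Nat.strong_induction_on with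
  | _ n ih =>
    intro z hn0
    rcases Nat.lt_or_ge 3 n with hn | hn
    · by_contra hcon
      push Not at hcon
      have IH : ∀ (κ : Type) [Fintype κ] (_ : Fintype.card κ + 1 = Fintype.card (Fin n))
          (_ : Nonempty κ) (w : κ → E), hmax w ≤ mm * Real.sqrt (∑ i, ‖w i‖ ^ 2) := by
        intro κ _ hκ _ w
        rw [Fintype.card_fin] at hκ
        have e : Fin (Fintype.card κ) ≃ κ := (Fintype.equivFin κ).symm
        rw [← hmax_equiv e w, ← e.sum_comp (fun i => ‖w i‖ ^ 2)]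
        exact ih _ (by omega) _ (by omega)
      obtain ⟨z', h1, h2, h3, h4, h5, h6, h7, h8⟩ := exists_critical
        (ι := Fin n) (by rw [Fintype.card_fin]; omega) mm mm_pos IH z hcon
      rw [Fintype.card_fin] at h7 h8
      exact Crit.false_of_crit (z := z') ⟨h1, h2, h3, h4, h5, h6, h7, h8⟩ (by omega)
    · have : Nonempty (Fin n) := ⟨⟨0, hn0⟩⟩
      exact hmax_le_small (by rw [Fintype.card_fin]; exact hn) z

theorem hmax_le {ι : Type*} [Fintype ι] (z : ι → E) :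
    hmax z ≤ mm * Real.sqrt (∑ i, ‖z i‖ ^ 2) := by
  rcases isEmpty_or_nonempty ι with h | h
  · have : hmax z = 0 := by
      unfold hmax
      simp
    rw [this]
    have := mm_pos
    positivity
  · have e : Fin (Fintype.card ι) ≃ ι := (Fintype.equivFin ι).symm
    rw [← hmax_equiv e z, ← e.sum_comp (fun i => ‖z i‖ ^ 2)]
    exact hmax_le_fin _ _ Fintype.card_pos

theorem propeller {ι : Type*} [Fintype ι] (A : ι → Set E)
    (hA : ∀ i, MeasurableSet (A i)) (hdisj : Pairwise fun i j => Disjoint (A i) (A j))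
    (hcov : ⋃ i, A i = Set.univ) :
    ∑ i, ‖∫ x in A i, x ∂(stdGaussian E)‖ ^ 2 ≤ 9 / (8 * Real.pi) := by
  rw [← mm_sq]
  exact partition_le_of_hmax A hA hdisj hcov mm mm_pos.le hmax_le

end Crest.Agent.PH
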